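import Vale.Agent.P146.H332.Mat

/-!
Rotation of nearly rank one matrices. For positive semidefinite `A`, `B` with Frobenius norms
`a`, `b`, the commutator `[A, B]` is bounded below by `a b ⟨A, B⟩ - ⟨A, B⟩²` up to the rank one
defects `a⁴ - tr A⁴`, `b⁴ - tr B⁴`.
-/

open Matrix Vale.Agent.P146.H332

namespace Vale.Agent.P146.H522

set_option linter.unusedSectionVars false
set_option linter.unusedDecidableInType false

variable {q : Type} [Fintype q] [DecidableEq q]

/-- the Frobenius norm -/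
noncomputable def nf (M : Matrix q q ℝ) : ℝ := √(fr M)

lemma nf_nonneg (M : Matrix q q ℝ) : 0 ≤ nf M := Real.sqrt_nonneg _

lemma nf_sq (M : Matrix q q ℝ) : nf M ^ 2 = fr M := Real.sq_sqrt (fr_nonneg M)

/-- Cauchy-Schwarz for the Frobenius scalar product. -/
lemma ip_le_nf (A B : Matrix q q ℝ) : |ip A B| ≤ nf A * nf B := by
  have h : ip A B ^ 2 ≤ fr A * fr B := by
    have e1 : ip A B = ∑ p : q × q, A p.1 p.2 * B p.1 p.2 := by
      rw [Fintype.sum_prod_type]; rfl
    have e2 : ∀ M : Matrix q q ℝ, fr M = ∑ p : q × q, M p.1 p.2 ^ 2 := by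
      intro M; rw [Fintype.sum_prod_type]; rfl
    rw [e1, e2 A, e2 B]
    exact Finset.sum_mul_sq_le_sq_mul_sq _ _ _
  rw [← Real.sqrt_sq_eq_abs, nf, nf, ← Real.sqrt_mul (fr_nonneg A)]
  exact Real.sqrt_le_sqrt h

/-- The rank one defect `|M|⁴ - tr M⁴`. -/
def dfc (M : Matrix q q ℝ) : ℝ := fr M ^ 2 - fr (M * M)

/-- The conjugated matrix. -/
private lemma psd_conj {B : Matrix q q ℝ} (hB : Psd B) (U : Matrix q q ℝ) :
    Psd (Uᵀ * B * U) := by
  refine ⟨by simp only [transpose_mul, transpose_transpose, hB.1, Matrix.mul_assoc], fun c => ?_⟩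
  have e : ∑ i, ∑ j, c i * c j * (Uᵀ * B * U) i j =
      ∑ k, ∑ l, (∑ i, U k i * c i) * (∑ j, U l j * c j) * B k l := by
    have h1 : ∀ i j, (Uᵀ * B * U) i j = ∑ l, ∑ k, U k i * B k l * U l j := by
      intro i j
      simp only [mul_apply, transpose_apply, Finset.sum_mul]
    have h2 : ∑ i, ∑ j, c i * c j * (Uᵀ * B * U) i j =
        ∑ i, ∑ j, ∑ l, ∑ k, c i * c j * (U k i * B k l * U l j) := by
      refine Finset.sum_congr rfl fun i _ => Finset.sum_congr rfl fun j _ => ?_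
      rw [h1, Finset.mul_sum]
      exact Finset.sum_congr rfl fun l _ => by rw [Finset.mul_sum]
    have h3 : ∑ k, ∑ l, (∑ i, U k i * c i) * (∑ j, U l j * c j) * B k l =
        ∑ k, ∑ l, ∑ i, ∑ j, c i * c j * (U k i * B k l * U l j) := by
      refine Finset.sum_congr rfl fun k _ => Finset.sum_congr rfl fun l _ => ?_
      rw [Finset.sum_mul_sum, Finset.sum_mul]
      refine Finset.sum_congr rfl fun i _ => ?_
      rw [Finset.sum_mul]
      exact Finset.sum_congr rfl fun j _ => by ring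
    rw [h2, h3]
    -- reorder the four sums
    calc ∑ i, ∑ j, ∑ l, ∑ k, c i * c j * (U k i * B k l * U l j)
        = ∑ i, ∑ j, ∑ k, ∑ l, c i * c j * (U k i * B k l * U l j) :=
          Finset.sum_congr rfl fun i _ => Finset.sum_congr rfl fun j _ => Finset.sum_comm
      _ = ∑ i, ∑ k, ∑ j, ∑ l, c i * c j * (U k i * B k l * U l j) :=
          Finset.sum_congr rfl fun i _ => Finset.sum_comm
      _ = ∑ k, ∑ i, ∑ j, ∑ l, c i * c j * (U k i * B k l * U l j) := Finset.sum_comm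
      _ = ∑ k, ∑ i, ∑ l, ∑ j, c i * c j * (U k i * B k l * U l j) :=
          Finset.sum_congr rfl fun k _ => Finset.sum_congr rfl fun i _ => Finset.sum_comm
      _ = _ := Finset.sum_congr rfl fun k _ => Finset.sum_comm
  rw [e]
  exact hB.2 fun k => ∑ i, U k i * c i

private lemma psd_diag_nonneg {K : Matrix q q ℝ} (hK : Psd K) (i : q) : 0 ≤ K i i := by
  have := hK.2 (fun k => if k = i then 1 else 0)
  simpa using this

private lemma psd_two {K : Matrix q q ℝ} (hK : Psd K) (i j : q) : K i j ^ 2 ≤ K i i * K j j := by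
  have hs : K j i = K i j := by rw [← transpose_apply K, hK.1]
  by_cases hij : i = j
  · subst hij; nlinarith
  have hq : ∀ s t : ℝ, 0 ≤ s ^ 2 * K i i + 2 * s * t * K i j + t ^ 2 * K j j := by
    intro s t
    have hsum : ∀ g : q → ℝ, ∑ k, ((if k = i then s else 0) + (if k = j then t else 0)) * g k =
        s * g i + t * g j := by
      intro g
      have : ∀ k, ((if k = i then s else 0) + (if k = j then t else 0)) * g k =
          (if k = i then s * g k else 0) + (if k = j then t * g k else 0) := by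
        intro k; rw [add_mul, ite_mul, ite_mul, zero_mul]
      simp only [this, Finset.sum_add_distrib, Finset.sum_ite_eq', Finset.mem_univ, if_true]
    have h := hK.2 (fun k => (if k = i then s else 0) + (if k = j then t else 0))
    have e : ∑ k, ∑ l, ((if k = i then s else 0) + (if k = j then t else 0)) *
        ((if l = i then s else 0) + (if l = j then t else 0)) * K k l =
        s ^ 2 * K i i + 2 * s * t * K i j + t ^ 2 * K j j := by
      have h1 : ∀ k, ∑ l, ((if k = i then s else 0) + (if k = j then t else 0)) *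
          ((if l = i then s else 0) + (if l = j then t else 0)) * K k l =
          ((if k = i then s else 0) + (if k = j then t else 0)) * (s * K k i + t * K k j) := by
        intro k
        rw [← hsum fun l => K k l, Finset.mul_sum]
        exact Finset.sum_congr rfl fun l _ => by ring
      simp only [h1]
      rw [hsum fun k => s * K k i + t * K k j, hs]; ring
    rw [e] at h
    exact h
  have hi := psd_diag_nonneg hK i
  have hj := psd_diag_nonneg hK j
  rcases eq_or_lt_of_le hi with h0 | h0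
  · -- K i i = 0
    by_contra hc
    push Not at hc
    rw [← h0, zero_mul] at hc
    have h1 := hq (-(K j j + 1) * K i j) (2 * K i j ^ 2)
    rw [← h0] at h1
    have h3 : 0 < K i j ^ 2 := hc
    have h2 : 2 * (-(K j j + 1) * K i j) * (2 * K i j ^ 2) * K i j +
        (2 * K i j ^ 2) ^ 2 * K j j = -4 * (K i j ^ 2) ^ 2 := by ring
    nlinarith
  · have h1 := hq (-K i j) (K i i)
    have h2 : (-K i j) ^ 2 * K i i + 2 * (-K i j) * K i i * K i j + K i i ^ 2 * K j j =
        K i i * (K i i * K j j - K i j ^ 2) := by ring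
    rw [h2] at h1
    by_contra hc
    push Not at hc
    nlinarith

/-- Simultaneous description of `A = U diag(l) Uᵀ` and `K = Uᵀ B U`. -/
private lemma setup {A B : Matrix q q ℝ} (hA : Psd A) (hB : Psd B) :
    ∃ (l : q → ℝ) (K : Matrix q q ℝ), (∀ i, 0 ≤ l i) ∧ Psd K ∧ fr A = ∑ i, l i ^ 2 ∧
      fr (A * A) = ∑ i, l i ^ 4 ∧ fr (A * A - nf A • A) = ∑ i, (l i ^ 2 - nf A * l i) ^ 2 ∧
      fr (A * B) = ∑ i, ∑ j, l i ^ 2 * K i j ^ 2 ∧
      fr (A * B - B * A) = ∑ i, ∑ j, (l i - l j) ^ 2 * K i j ^ 2 ∧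
      ip A B = ∑ i, l i * K i i := by
  obtain ⟨U, l, h1, h2, h3⟩ := diag_sym hA.1
  have hl : ∀ i, 0 ≤ l i := by
    intro i
    have h4 : Uᵀ * A * U = diagonal l := by
      rw [h3]
      calc Uᵀ * (U * diagonal l * Uᵀ) * U = (Uᵀ * U) * diagonal l * (Uᵀ * U) := by
            simp only [Matrix.mul_assoc]
        _ = _ := by rw [h2, Matrix.one_mul, Matrix.mul_one]
    have h5 := psd_diag_nonneg (psd_conj hA U) i
    rwa [h4, diagonal_apply_eq] at h5
  set K : Matrix q q ℝ := Uᵀ * B * U with hK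
  have e1 : Uᵀ * (A * B) * U = diagonal l * K := by
    rw [h3, hK]
    calc Uᵀ * (U * diagonal l * Uᵀ * B) * U = (Uᵀ * U) * diagonal l * (Uᵀ * B * U) := by
          simp only [Matrix.mul_assoc]
      _ = _ := by rw [h2, Matrix.one_mul]
  have e2 : Uᵀ * (B * A) * U = K * diagonal l := by
    rw [h3, hK]
    calc Uᵀ * (B * (U * diagonal l * Uᵀ)) * U = Uᵀ * B * U * diagonal l * (Uᵀ * U) := by
          simp only [Matrix.mul_assoc]
      _ = _ := by rw [h2, Matrix.mul_one]
  have e3 : Uᵀ * A * U = diagonal l := by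
    rw [h3]
    calc Uᵀ * (U * diagonal l * Uᵀ) * U = (Uᵀ * U) * diagonal l * (Uᵀ * U) := by
          simp only [Matrix.mul_assoc]
      _ = _ := by rw [h2, Matrix.one_mul, Matrix.mul_one]
  have e4 : Uᵀ * (A * A) * U = diagonal fun i => l i ^ 2 := by
    have : Uᵀ * (A * A) * U = (Uᵀ * A * U) * (Uᵀ * A * U) := by
      calc Uᵀ * (A * A) * U = Uᵀ * A * (1 : Matrix q q ℝ) * A * U := by
            simp only [Matrix.mul_assoc, Matrix.one_mul]
        _ = Uᵀ * A * (U * Uᵀ) * A * U := by rw [h1]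
        _ = _ := by simp only [Matrix.mul_assoc]
    rw [this, e3, diagonal_mul_diagonal]
    congr 1; funext i; ring
  refine ⟨l, K, hl, psd_conj hB U, ?_, ?_, ?_, ?_, ?_, ?_⟩
  · rw [← fr_conj h1 A, e3, fr_diagonal]
  · rw [← fr_conj h1 (A * A), e4, fr_diagonal]
    exact Finset.sum_congr rfl fun i _ => by ring
  · rw [← fr_conj h1 (A * A - nf A • A)]
    have : Uᵀ * (A * A - nf A • A) * U = diagonal fun i => l i ^ 2 - nf A * l i := by
      rw [Matrix.mul_sub, Matrix.sub_mul, e4, Matrix.mul_smul, Matrix.smul_mul, e3]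
      ext i j
      simp only [Matrix.sub_apply, Matrix.smul_apply, smul_eq_mul]
      by_cases hij : i = j
      · subst hij; simp [diagonal_apply_eq]
      · simp [diagonal_apply_ne _ hij]
    rw [this, fr_diagonal]
  · rw [← fr_conj h1 (A * B), e1]
    unfold fr
    refine Finset.sum_congr rfl fun i _ => Finset.sum_congr rfl fun j _ => ?_
    rw [diagonal_mul]; ring
  · rw [← fr_conj h1 (A * B - B * A), Matrix.mul_sub, Matrix.sub_mul, e1, e2]
    unfold fr
    refine Finset.sum_congr rfl fun i _ => Finset.sum_congr rfl fun j _ => ?_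
    rw [Matrix.sub_apply, diagonal_mul, mul_diagonal]; ring
  · rw [ip_eq_trace, hA.1]
    have : (A * B).trace = (Uᵀ * (A * B) * U).trace := by
      rw [trace_mul_cycle, h1, Matrix.one_mul]
    rw [this, e1]
    simp only [trace, diag, diagonal_mul]

/-- `|A² - |A| A|² ≤ |A|⁴ - tr A⁴` for psd `A`. -/
theorem fr_sq_sub_le {A : Matrix q q ℝ} (hA : Psd A) : fr (A * A - nf A • A) ≤ dfc A := by
  obtain ⟨l, K, hl, -, h1, h2, h3, -, -, -⟩ := setup hA hA
  have ha : ∀ i, l i ≤ nf A := by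
    intro i
    rw [nf, h1]
    refine Real.le_sqrt_of_sq_le ?_
    exact Finset.single_le_sum (f := fun i => l i ^ 2) (fun i _ => sq_nonneg _)
      (Finset.mem_univ i)
  have hs := nf_sq A
  rw [dfc, h2, h3, sq (fr A)]
  nth_rewrite 1 [← hs]
  rw [h1, Finset.mul_sum, ← Finset.sum_sub_distrib]
  refine Finset.sum_le_sum fun i _ => ?_
  have h4 : 0 ≤ l i ^ 3 * (nf A - l i) := mul_nonneg (pow_nonneg (hl i) 3) (by linarith [ha i])
  nlinarith

theorem dfc_nonneg {A : Matrix q q ℝ} (hA : Psd A) : 0 ≤ dfc A :=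
  (fr_nonneg _).trans (fr_sq_sub_le hA)

/-- `tr (A² B²)` in terms of the commutator: `|[A, B]|² ≥ 2 |A B|² - 2 ⟨A, B⟩²` for psd. -/
theorem comm_ge {A B : Matrix q q ℝ} (hA : Psd A) (hB : Psd B) :
    2 * fr (A * B) - 2 * ip A B ^ 2 ≤ fr (A * B - B * A) := by
  obtain ⟨l, K, hl, hK, -, -, -, h4, h5, h6⟩ := setup hA hB
  rw [h4, h5, h6]
  have e1 : ∑ i, ∑ j, (l i - l j) ^ 2 * K i j ^ 2 =
      2 * ∑ i, ∑ j, l i ^ 2 * K i j ^ 2 - 2 * ∑ i, ∑ j, l i * l j * K i j ^ 2 := by
    have hs : ∑ i, ∑ j, l j ^ 2 * K i j ^ 2 = ∑ i, ∑ j, l i ^ 2 * K i j ^ 2 := by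
      rw [Finset.sum_comm]
      refine Finset.sum_congr rfl fun i _ => Finset.sum_congr rfl fun j _ => ?_
      have : K j i = K i j := by rw [← transpose_apply K, hK.1]
      rw [this]
    have : ∑ i, ∑ j, (l i - l j) ^ 2 * K i j ^ 2 =
        ∑ i, ∑ j, l i ^ 2 * K i j ^ 2 + ∑ i, ∑ j, l j ^ 2 * K i j ^ 2 -
          2 * ∑ i, ∑ j, l i * l j * K i j ^ 2 := by
      simp only [Finset.mul_sum, ← Finset.sum_add_distrib, ← Finset.sum_sub_distrib]
      exact Finset.sum_congr rfl fun i _ => Finset.sum_congr rfl fun j _ => by ring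
    rw [this, hs]; ring
  have e2 : ∑ i, ∑ j, l i * l j * K i j ^ 2 ≤ (∑ i, l i * K i i) ^ 2 := by
    rw [sq, Finset.sum_mul_sum]
    refine Finset.sum_le_sum fun i _ => Finset.sum_le_sum fun j _ => ?_
    have h1 := psd_two hK i j
    have h2 := mul_nonneg (hl i) (hl j)
    nlinarith
  rw [e1]
  linarith

lemma fr_mul_eq {A B : Matrix q q ℝ} (hA : Aᵀ = A) (hB : Bᵀ = B) :
    fr (A * B) = ip (A * A) (B * B) := by
  rw [fr_eq_trace, ip_eq_trace, transpose_mul, transpose_mul, hA, hB]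
  rw [show A * B * (B * A) = A * (B * B * A) by simp only [Matrix.mul_assoc],
    trace_mul_comm, show B * B * A * A = B * B * (A * A) by simp only [Matrix.mul_assoc],
    trace_mul_comm]

lemma ip_sub_left (A B C : Matrix q q ℝ) : ip (A - B) C = ip A C - ip B C := by
  simp only [ip, Matrix.sub_apply, sub_mul, Finset.sum_sub_distrib]

lemma ip_sub_right (A B C : Matrix q q ℝ) : ip C (A - B) = ip C A - ip C B := by
  simp only [ip, Matrix.sub_apply, mul_sub, Finset.sum_sub_distrib]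

lemma ip_smul_left (t : ℝ) (A B : Matrix q q ℝ) : ip (t • A) B = t * ip A B := by
  simp only [ip, Matrix.smul_apply, smul_eq_mul, Finset.mul_sum, mul_assoc]

lemma ip_smul_right (t : ℝ) (A B : Matrix q q ℝ) : ip A (t • B) = t * ip A B := by
  simp only [ip, Matrix.smul_apply, smul_eq_mul, Finset.mul_sum]
  exact Finset.sum_congr rfl fun i _ => Finset.sum_congr rfl fun j _ => by ring

lemma ip_nonneg {A B : Matrix q q ℝ} (hA : Psd A) (hB : Psd B) : 0 ≤ ip A B :=
  hA.sum_mul_nonneg hB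

lemma fr_sq_le (A : Matrix q q ℝ) (hA : Psd A) : fr (A * A) ≤ fr A ^ 2 := by
  have := dfc_nonneg hA
  unfold dfc at this
  linarith

lemma nf_sq_le {A : Matrix q q ℝ} (hA : Psd A) : nf (A * A) ≤ nf A ^ 2 := by
  rw [nf_sq, nf]
  refine Real.sqrt_le_iff.2 ⟨fr_nonneg _, fr_sq_le A hA⟩

/-- `⟨A², B²⟩ ≥ |A| |B| ⟨A, B⟩ - |B|² √dA - |A|² √dB`. -/
theorem fr_mul_ge {A B : Matrix q q ℝ} (hA : Psd A) (hB : Psd B) :
    nf A * nf B * ip A B - (nf B ^ 2 * √(dfc A) + nf A ^ 2 * √(dfc B)) ≤ fr (A * B) := by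
  rw [fr_mul_eq hA.1 hB.1]
  have h1 : ip (A * A) (B * B) - nf A * nf B * ip A B =
      ip (A * A - nf A • A) (B * B) + nf A * ip A (B * B - nf B • B) := by
    rw [ip_sub_left, ip_sub_right, ip_smul_left, ip_smul_right]; ring
  have h2 : |ip (A * A - nf A • A) (B * B)| ≤ √(dfc A) * nf B ^ 2 := by
    refine (ip_le_nf _ _).trans ?_
    refine mul_le_mul (Real.sqrt_le_sqrt (fr_sq_sub_le hA)) (nf_sq_le hB) (nf_nonneg _)
      (Real.sqrt_nonneg _)
  have h3 : |ip A (B * B - nf B • B)| ≤ nf A * √(dfc B) := by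
    refine (ip_le_nf _ _).trans ?_
    exact mul_le_mul_of_nonneg_left (Real.sqrt_le_sqrt (fr_sq_sub_le hB)) (nf_nonneg _)
  have h4 := (abs_le.1 h2).1
  have h5 := mul_le_mul_of_nonneg_left (abs_le.1 h3).1 (nf_nonneg A)
  nlinarith

/-- **Rotation lemma.** For psd `A`, `B`:
`|[A, B]|² ≥ 2 (|A| |B| ⟨A, B⟩ - ⟨A, B⟩²) - 2 (|B|² √dA + |A|² √dB)`. -/
theorem rot_ge {A B : Matrix q q ℝ} (hA : Psd A) (hB : Psd B) :
    2 * (nf A * nf B * ip A B - ip A B ^ 2) -
      2 * (nf B ^ 2 * √(dfc A) + nf A ^ 2 * √(dfc B)) ≤ fr (A * B - B * A) := by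
  have h1 := comm_ge hA hB
  have h2 := fr_mul_ge hA hB
  linarith

/-- The same with `X = ⟨A, B⟩ / |A|`, `y = X - |A|` (radial increment): the commutator is bounded
below by the growth of the norm. -/
theorem rot_growth {A B : Matrix q q ℝ} (hA : Psd A) (hB : Psd B) :
    2 * nf A ^ 3 * (nf B - nf A) - 6 * nf A * |ip A B - nf A ^ 2| * (nf A + nf B) -
      2 * (nf B ^ 2 * √(dfc A) + nf A ^ 2 * √(dfc B)) ≤ fr (A * B - B * A) := by
  have h1 := rot_ge hA hB
  have ha := nf_nonneg A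
  have hb := nf_nonneg B
  have hi := ip_nonneg hA hB
  have hi2 : ip A B ≤ nf A * nf B := (le_abs_self _).trans (ip_le_nf A B)
  set Y : ℝ := ip A B - nf A ^ 2 with hY
  have hXY : ip A B = nf A ^ 2 + Y := by rw [hY]; ring
  -- a b X - X² with X = a² + Y
  have h2 : nf A * nf B * ip A B - ip A B ^ 2 =
      nf A ^ 3 * (nf B - nf A) + Y * (nf A * nf B - 2 * nf A ^ 2) - Y ^ 2 := by
    rw [hXY]; ring
  have hYabs : |Y| ≤ nf A * (nf A + nf B) := by
    rw [abs_le]
    constructor <;> nlinarith [mul_nonneg ha hb, sq_nonneg (nf A)]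
  have h3 : -(|Y| * (nf A * nf B + 2 * nf A ^ 2)) ≤ Y * (nf A * nf B - 2 * nf A ^ 2) := by
    have h4 : |Y * (nf A * nf B - 2 * nf A ^ 2)| ≤ |Y| * (nf A * nf B + 2 * nf A ^ 2) := by
      rw [abs_mul]
      refine mul_le_mul_of_nonneg_left ?_ (abs_nonneg _)
      rw [abs_le]
      constructor <;> nlinarith [mul_nonneg ha hb, sq_nonneg (nf A)]
    linarith [(abs_le.1 h4).1]
  have h5 : Y ^ 2 ≤ |Y| * (nf A * (nf A + nf B)) := by
    rw [← sq_abs, sq]
    exact mul_le_mul_of_nonneg_left hYabs (abs_nonneg _)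
  have h6 : 0 ≤ |Y| := abs_nonneg _
  nlinarith [mul_nonneg h6 (mul_nonneg ha hb), mul_nonneg h6 (sq_nonneg (nf A))]

end Vale.Agent.P146.H522
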