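import Vale.Agent.P146.H425.R1Def
import Vale.Agent.P146.H325.Eqs
import Vale.Agent.P146.H332.M0
import Vale.Agent.P146.H332.Fe
import Vale.Agent.P146.H522.Rot

/-!
Dictionary between the objects of `R1Def` for the free energy `F = log Z` of the SK model and the
matrices `AA k x t z` of the conditional two point functions.
-/

open MeasureTheory ProbabilityTheory Matrix

namespace Vale.Agent.P146.H522

open Vale.Agent.P157.Lv Vale.Agent.P146.H425 Vale.Agent.P146.H325 Vale.Agent.P146.H332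

set_option linter.unusedSectionVars false
set_option linter.unusedDecidableInType false

section gen

variable {ι : Type} [Fintype ι] [DecidableEq ι] {X : Type} [Fintype X] [Nonempty X]
variable (k : ℝ) (S : ι → X → ℝ) (x : ℝ)

/-- the conditional expectation of `G` at the position `z`, time `t` -/
lemma RR_eq (t : ℝ) (G : (ι → ℝ) → ℝ) (z : ι → ℝ) : RR k S x (fun _ => √(1 - t)) G z =
    (∫ y, Real.exp (x * lz k S (z + √(1 - t) • y)) * G (z + √(1 - t) • y) ∂(gI ι)) /
      ∫ y, Real.exp (x * lz k S (z + √(1 - t) • y)) ∂(gI ι) := by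
  unfold RR DD PP
  simp only [mul_one]
  rfl

/-- conditional expectations as in `Row` -/
lemma RR_rl (c : ι → ℝ) (F : (ι → ℝ) → ℝ) (v : ι → ℝ) :
    rl k S x (∅ : Finset ι) ⟨fun _ => 1, 0, c⟩ F 0 (Sum.elim v 0) = RR k S x c F v := by
  rw [rl_eq]
  have e1 : nz (∅ : Finset ι) c 0 = c := by funext e; simp [nz]
  have e2 : u (∅ : Finset ι) (fun _ => 1) 0 0 (Sum.elim v 0) = v := by funext e; simp [u]
  rw [e1, e2]

lemma RR_const_mul (c : ι → ℝ) (a : ℝ) (F : (ι → ℝ) → ℝ) (v : ι → ℝ) :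
    RR k S x c (fun u => a * F u) v = a * RR k S x c F v := by
  rw [← RR_rl, ← RR_rl, rl_const_mul]

lemma RR_add (c : ι → ℝ) {F G : (ι → ℝ) → ℝ} (hF : EG F) (hG : EG G) (v : ι → ℝ) :
    RR k S x c (fun u => F u + G u) v = RR k S x c F v + RR k S x c G v := by
  rw [← RR_rl, ← RR_rl, ← RR_rl, rl_add (ebd hF) (ebd hG)]

lemma RR_sub (c : ι → ℝ) {F G : (ι → ℝ) → ℝ} (hF : EG F) (hG : EG G) (v : ι → ℝ) :
    RR k S x c (fun u => F u - G u) v = RR k S x c F v - RR k S x c G v := by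
  rw [← RR_rl, ← RR_rl, ← RR_rl, rl_sub (ebd hF) (ebd hG)]

lemma RR_const (c : ι → ℝ) (a : ℝ) (v : ι → ℝ) : RR k S x c (fun _ => a) v = a := by
  rw [← RR_rl, rl_const]

/-- the gradient of the value function -/
lemma dd_gen (t : ℝ) (e : ι) (z : ι → ℝ) :
    R1.dd x t (lz k S) (fun e u => k * av k S (S e) u) e z =
      k * RR k S x (fun _ => √(1 - t)) (av k S (S e)) z := by
  rw [← RR_const_mul, RR_eq]
  rfl

lemma uu_gen (hx : 0 < x) (t : ℝ) (z : ι → ℝ) :
    Real.exp (x * R1.uu x t (lz k S) z) = DD k S x (fun _ => √(1 - t)) z := by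
  unfold R1.uu
  rw [LipB.exp_W (s := √(1 - t)) (c11_lz k S).lip (c11_lz k S).B0 hx z]
  unfold DD PP
  simp only [mul_one]
  rfl

/-- the second derivative of the value function -/
noncomputable def hsk (t : ℝ) (e i : ι) (z : ι → ℝ) : ℝ :=
  k ^ 2 * (RR k S x (fun _ => √(1 - t)) (av k S fun σ => S e σ * S i σ) z -
    (1 - x) * RR k S x (fun _ => √(1 - t)) (fun u => av k S (S e) u * av k S (S i) u) z -
    x * (RR k S x (fun _ => √(1 - t)) (av k S (S e)) z *
      RR k S x (fun _ => √(1 - t)) (av k S (S i)) z))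

/-- `hsk` in terms of the second derivative `H e i` of `lz` -/
lemma hsk_eq (t : ℝ) (e i : ι) (z : ι → ℝ) :
    RR k S x (fun _ => √(1 - t)) (fun u => k * (k * (av k S (fun σ => S e σ * S i σ) u -
      av k S (S e) u * av k S (S i) u))) z +
      x * (RR k S x (fun _ => √(1 - t)) (fun u => k * av k S (S e) u * (k * av k S (S i) u)) z -
        (k * RR k S x (fun _ => √(1 - t)) (av k S (S e)) z) *
          (k * RR k S x (fun _ => √(1 - t)) (av k S (S i)) z)) = hsk k S x t e i z := by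
  have e1 : (fun u => k * av k S (S e) u * (k * av k S (S i) u)) = fun u =>
      k * (k * (av k S (S e) u * av k S (S i) u)) := by funext u; ring
  rw [e1, RR_const_mul, RR_const_mul, RR_const_mul, RR_const_mul,
    RR_sub k S x _ (eg_av k S _) ((eg_av k S _).mul (eg_av k S _))]
  unfold hsk
  ring

/-- the covariances are controlled by the second derivative -/
theorem kov_RR (hx0 : 0 ≤ x) (hx1 : x ≤ 1) (t : ℝ) (z : ι → ℝ) :
    k ^ 4 * x ^ 2 * ∑ e, ∑ i, (RR k S x (fun _ => √(1 - t)) (av k S fun σ => S e σ * S i σ) z -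
      RR k S x (fun _ => √(1 - t)) (av k S (S e)) z *
        RR k S x (fun _ => √(1 - t)) (av k S (S i)) z) ^ 2 ≤
    ∑ e, ∑ i, hsk k S x t e i z ^ 2 := by
  have key := kov_gen k S x (∅ : Finset ι) ⟨fun _ => 1, 0, fun _ => √(1 - t)⟩ S 0
    (Sum.elim z 0) hx0 hx1
  have e1 : ∀ e i, MM k S x (∅ : Finset ι) ⟨fun _ => 1, 0, fun _ => √(1 - t)⟩ S 0
    (Sum.elim z 0) e i = RR k S x (fun _ => √(1 - t)) (av k S fun σ => S e σ * S i σ) z :=
    fun e i => RR_rl k S x _ _ z
  have e2 : ∀ e i, NN k S x (∅ : Finset ι) ⟨fun _ => 1, 0, fun _ => √(1 - t)⟩ S 0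
    (Sum.elim z 0) e i = RR k S x (fun _ => √(1 - t)) (fun u => av k S (S e) u * av k S (S i) u) z :=
    fun e i => RR_rl k S x _ _ z
  have e3 : ∀ e, mm k S x (∅ : Finset ι) ⟨fun _ => 1, 0, fun _ => √(1 - t)⟩ S 0
    (Sum.elim z 0) e = RR k S x (fun _ => √(1 - t)) (av k S (S e)) z :=
    fun e => RR_rl k S x _ _ z
  simp only [e1, e2, e3] at key
  have e4 : ∑ e, ∑ i, hsk k S x t e i z ^ 2 = k ^ 4 * ∑ e, ∑ i,
      (RR k S x (fun _ => √(1 - t)) (av k S fun σ => S e σ * S i σ) z -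
    (1 - x) * RR k S x (fun _ => √(1 - t)) (fun u => av k S (S e) u * av k S (S i) u) z -
    x * (RR k S x (fun _ => √(1 - t)) (av k S (S e)) z *
      RR k S x (fun _ => √(1 - t)) (av k S (S i)) z)) ^ 2 := by
    unfold hsk
    simp only [Finset.mul_sum]
    refine Finset.sum_congr rfl fun e _ => Finset.sum_congr rfl fun i _ => ?_
    ring
  rw [e4, mul_assoc]
  exact mul_le_mul_of_nonneg_left key (by positivity)

end gen

variable {n : ℕ} (k x : ℝ)

/-- the gradient of the free energy -/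
noncomputable def Dsk (e : Pair n) (u : Pair n → ℝ) : ℝ := k * av k SkS (SkS e) u

lemma dd_sk (t : ℝ) (e : Pair n) (z : Pair n → ℝ) :
    R1.dd x t (lz k SkS) (fun e u => k * av k SkS (SkS e) u) e z = k * AA k x t z e.1.1 e.1.2 :=
  dd_gen k SkS x t e z

lemma uu_sk (hx : 0 < x) (t : ℝ) (z : Pair n → ℝ) :
    Real.exp (x * R1.uu x t (lz k SkS) z) = ND k x t z := uu_gen k SkS x hx t z

lemma AA_diag (t : ℝ) (z : Pair n → ℝ) (i : Fin n) : AA k x t z i i = 1 := by
  unfold AA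
  have : av k (SkS (n := n)) (pr i i) = fun _ => 1 := by
    funext u
    exact av_pr_self i u
  rw [this]
  exact RR_const k SkS x _ 1 z

lemma AA_comm (t : ℝ) (z : Pair n → ℝ) (i j : Fin n) : AA k x t z i j = AA k x t z j i := by
  unfold AA
  rw [pr_comm]

lemma fr_AA (t : ℝ) (z : Pair n → ℝ) :
    fr (AA k x t z) = n + 2 * ∑ e : Pair n, AA k x t z e.1.1 e.1.2 ^ 2 := by
  have h1 := sum_pairs (fun i j : Fin n => if i = j then 0 else AA k x t z i j ^ 2)
    (fun p q => by rw [AA_comm k x t z p q]; simp only [eq_comm]) (fun p => by simp)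
  have h2 : ∀ e : Pair n, (if e.1.1 = e.1.2 then (0 : ℝ) else AA k x t z e.1.1 e.1.2 ^ 2) =
      AA k x t z e.1.1 e.1.2 ^ 2 := fun e => by rw [if_neg e.2.ne]
  simp only [h2] at h1
  have h3 : fr (AA k x t z) = ∑ i : Fin n, ∑ j : Fin n, ((if i = j then (1 : ℝ) else 0) +
      (if i = j then 0 else AA k x t z i j ^ 2)) := by
    unfold fr
    refine Finset.sum_congr rfl fun i _ => Finset.sum_congr rfl fun j _ => ?_
    split_ifs with h
    · rw [h, AA_diag]; norm_num
    · rw [zero_add]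
  rw [h3]
  simp only [Finset.sum_add_distrib]
  rw [h1]
  simp

/-- the squared gradient of the value function -/
theorem sq_sk (t : ℝ) (z : Pair n → ℝ) :
    R1.sq x t (lz k SkS) (fun e u => k * av k SkS (SkS e) u) z =
      k ^ 2 / 2 * (fr (AA k x t z) - n) := by
  have h1 : R1.sq x t (lz k SkS) (fun e u => k * av k SkS (SkS e) u) z =
      ∑ e : Pair n, (k * AA k x t z e.1.1 e.1.2) ^ 2 :=
    Finset.sum_congr rfl fun e _ => by rw [← dd_sk]; rfl
  rw [h1, fr_AA]
  have h2 : ∑ e : Pair n, (k * AA k x t z e.1.1 e.1.2) ^ 2 =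
      k ^ 2 * ∑ e : Pair n, AA k x t z e.1.1 e.1.2 ^ 2 := by
    rw [Finset.mul_sum]
    exact Finset.sum_congr rfl fun e _ => by ring
  rw [h2]
  ring

/-- `AA` is positive semidefinite. -/
theorem psd_AA (t : ℝ) (z : Pair n → ℝ) : Psd (AA k x t z) := by
  refine ⟨?_, fun c => ?_⟩
  · ext i j
    rw [transpose_apply, AA_comm]
  · have h1 := sum_MM k SkS x (∅ : Finset (Pair n)) ⟨fun _ => 1, 0, cf t⟩
      (fun (i : Fin n) σ => sp σ i) 0 (Sum.elim z 0) c
    have e1 : ∀ i j, MM k SkS x (∅ : Finset (Pair n)) ⟨fun _ => 1, 0, cf t⟩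
      (fun (i : Fin n) σ => sp σ i) 0 (Sum.elim z 0) i j = AA k x t z i j :=
      fun i j => RR_rl k SkS x _ _ z
    simp only [e1] at h1
    rw [h1]
    exact rl_nonneg (ebd (eg_av k SkS _)) fun u => av_nonneg k SkS (fun σ => sq_nonneg _) u

/-- **The rank one defect is controlled by the second derivative of the value function.** -/
theorem dfc_AA (hk : k ≠ 0) (hx0 : 0 < x) (hx1 : x ≤ 1) (t : ℝ) (z : Pair n → ℝ) :
    dfc (AA k x t z) ≤ 8 / (k ^ 4 * x ^ 2) * ∑ e : Pair n, ∑ i : Pair n,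
      hsk k SkS x t e i z ^ 2 := by
  set Sf : Fin n → Fin n → Fin n → Fin n → ℝ := fun i j p q =>
    RR k SkS x (cf t) (av k SkS fun σ => pr i j σ * pr p q σ) z with hS
  set C := AA k x t z with hC
  have h1 := swap_le (psd_AA k x t z).1 Sf (by
    intro i j p q
    simp only [hS]
    have : (fun σ : Fin n → ℤˣ => pr i j σ * pr p q σ) = fun σ => pr i p σ * pr j q σ := by
      funext σ
      unfold pr
      ring
    rw [this])
  have a1 : ∀ i j p q, Sf i j p q = Sf j i p q := fun i j p q => by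
    simp only [hS]; rw [pr_comm i j]
  have a2 : ∀ i j p q, Sf i j p q = Sf i j q p := fun i j p q => by
    simp only [hS]; rw [pr_comm p q]
  have a3 : ∀ i p q, Sf i i p q = C p q := fun i p q => by
    simp only [hS, hC]; rw [pr_self i]; simp only [one_mul]; rfl
  have a4 : ∀ i j p, Sf i j p p = C i j := fun i j p => by
    simp only [hS, hC]; rw [pr_self p]; simp only [mul_one]; rfl
  have a5 : ∀ i j, C i j = C j i := fun i j => AA_comm k x t z i j
  have a6 : ∀ i, C i i = 1 := fun i => AA_diag k x t z i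
  have g1 : ∀ i j, ∑ p, ∑ q, (Sf i j p q - C i j * C p q) ^ 2 =
      2 * ∑ e : Pair n, (Sf i j e.1.1 e.1.2 - C i j * C e.1.1 e.1.2) ^ 2 := fun i j =>
    sum_pairs (fun p q => (Sf i j p q - C i j * C p q) ^ 2)
      (fun p q => by rw [a2 i j p q, a5 p q])
      (fun p => by rw [a4, a6]; ring)
  have g2 : ∑ i, ∑ j, ∑ p, ∑ q, (Sf i j p q - C i j * C p q) ^ 2 =
      4 * ∑ e : Pair n, ∑ i : Pair n,
        (Sf e.1.1 e.1.2 i.1.1 i.1.2 - C e.1.1 e.1.2 * C i.1.1 i.1.2) ^ 2 := by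
    simp only [g1]
    have h2 := sum_pairs (fun i j => 2 * ∑ e : Pair n,
        (Sf i j e.1.1 e.1.2 - C i j * C e.1.1 e.1.2) ^ 2)
      (fun i j => by
        congr 1
        exact Finset.sum_congr rfl fun e _ => by rw [a1 i j, a5 i j])
      (fun i => by
        rw [Finset.sum_eq_zero fun e _ => ?_, mul_zero]
        rw [a3, a6]; ring)
    rw [h2, ← Finset.mul_sum, ← mul_assoc]
    norm_num
  rw [g2] at h1
  have h3 := kov_RR k (SkS (n := n)) x hx0.le hx1 t z
  have h4 : 0 < k ^ 4 * x ^ 2 := by positivity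
  have e5 : ∑ e : Pair n, ∑ i : Pair n,
        (Sf e.1.1 e.1.2 i.1.1 i.1.2 - C e.1.1 e.1.2 * C i.1.1 i.1.2) ^ 2 ≤
      1 / (k ^ 4 * x ^ 2) * ∑ e : Pair n, ∑ i : Pair n, hsk k SkS x t e i z ^ 2 := by
    rw [one_div, inv_mul_eq_div, le_div_iff₀ h4, mul_comm]
    exact h3
  unfold dfc
  calc _ ≤ _ := h1
    _ ≤ 2 * (4 * (1 / (k ^ 4 * x ^ 2) * ∑ e : Pair n, ∑ i : Pair n,
        hsk k SkS x t e i z ^ 2)) := by linarith
    _ = _ := by ring

end Vale.Agent.P146.H522
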