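import Vale.Agent.P146.H522.TwoEnd

set_option linter.all false

/-!
P146, lower side: the deterministic end, with the touch term in the form `v ((1 - e) R - A3)` and
any mass `p` of the first layer.
-/

namespace Vale.Agent.P146.H522

/-- The numbers of one law: `R ≈ n r E tr (Y C) |C|`, `A3 = E tr (Y C³)`, `Ja`, `Jw`, `Ka`, `Kw`,
`NL`, the mass `p` of the first layer, `v = β x / n`, the relative error `e`: signs, Cauchy-Schwarz
and `F0 + F1` with the touch term on the left. -/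
structure Num3 (p v R A3 Ja Jw Ka Kw NL e : ℝ) : Prop where
  v0 : 0 < v
  R0 : 0 < R
  A30 : 0 ≤ A3
  A3R : A3 ≤ (1 + e) * R
  Ka0 : 0 ≤ Ka
  Kw0 : 0 ≤ Kw
  Ja2 : Ja ^ 2 ≤ A3 * Ka
  Jw2 : Jw ^ 2 ≤ A3 * Kw
  f01 : v * (p * (2 * R - A3 - 2 * Ja + Ka) + (1 - p) * (2 * R - A3 - 2 * Jw + Kw)) ≤
    NL + e * (v * R)

/-- one bracket: `2 R - A3 - 2 J + K ≥ (1 - t)² R - 2 e R` if `K ≤ t² R` -/
lemma bracket_ge {R A3 J K e t : ℝ} (hR : 0 < R) (h0 : 0 ≤ A3) (h1 : A3 ≤ (1 + e) * R)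
    (hK0 : 0 ≤ K) (hJ : J ^ 2 ≤ A3 * K) (he : 0 ≤ e) (ht0 : 0 ≤ t) (ht1 : t ≤ 1)
    (hK : K ≤ t ^ 2 * R) : (1 - t) ^ 2 * R - 2 * e * R ≤ 2 * R - A3 - 2 * J + K := by
  obtain ⟨r, hr⟩ : ∃ r, r = √R := ⟨_, rfl⟩
  obtain ⟨a, ha⟩ : ∃ a, a = √A3 := ⟨_, rfl⟩
  obtain ⟨k, hk⟩ : ∃ k, k = √K := ⟨_, rfl⟩
  have hr0 : 0 < r := by rw [hr]; exact Real.sqrt_pos.2 hR
  have ha0 : 0 ≤ a := by rw [ha]; exact Real.sqrt_nonneg _
  have hk0 : 0 ≤ k := by rw [hk]; exact Real.sqrt_nonneg _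
  have hr2 : R = r ^ 2 := by rw [hr, Real.sq_sqrt hR.le]
  have ha2 : A3 = a ^ 2 := by rw [ha, Real.sq_sqrt h0]
  have hk2 : K = k ^ 2 := by rw [hk, Real.sq_sqrt hK0]
  rw [ha2, hk2] at hJ
  have j1 : J ≤ a * k := le_mul_of_sq ha0 hk0 hJ
  rw [hk2, hr2] at hK
  rw [ha2, hr2] at h1
  have hkt : k ≤ t * r := by
    have h2 : k ^ 2 ≤ (t * r) ^ 2 := by rw [mul_pow]; exact hK
    exact (le_abs_self _).trans (abs_le_of_sq_le_sq h2 (by positivity))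
  rw [hr2, ha2, hk2]
  -- `2 r² - a² - 2 a k + k² ≥ (1 - t)² r² - 2 e r²`
  rcases le_total a r with har | har
  · -- `(r - k)² + (r - a)(r + a + 2 k)`
    have s1 : 0 ≤ (r - a) * (r + a + 2 * k) := mul_nonneg (by linarith) (by linarith)
    have s2 : (1 - t) ^ 2 * r ^ 2 ≤ (r - k) ^ 2 := by
      have h3 : 0 ≤ (1 - t) * r := mul_nonneg (by linarith) hr0.le
      have h4 : (1 - t) * r ≤ r - k := by linarith
      have h5 : ((1 - t) * r) ^ 2 ≤ (r - k) ^ 2 := pow_le_pow_left₀ h3 h4 2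
      linarith
    have s3 : 0 ≤ e * r ^ 2 := by positivity
    nlinarith
  · -- `(a - k)² + 2 r² - 2 a²`
    have s1 : (1 - t) ^ 2 * r ^ 2 ≤ (a - k) ^ 2 := by
      have h3 : 0 ≤ (1 - t) * r := mul_nonneg (by linarith) hr0.le
      have h4 : (1 - t) * r ≤ a - k := by linarith
      have h5 : ((1 - t) * r) ^ 2 ≤ (a - k) ^ 2 := pow_le_pow_left₀ h3 h4 2
      linarith
    nlinarith

/-- a bracket without any bound of `K` -/
lemma bracket_ge' {R A3 J K e : ℝ} (h0 : 0 ≤ A3) (h1 : A3 ≤ (1 + e) * R)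
    (hK0 : 0 ≤ K) (hJ : J ^ 2 ≤ A3 * K) : -(2 * e * R) ≤ 2 * R - A3 - 2 * J + K := by
  obtain ⟨a, ha⟩ : ∃ a, a = √A3 := ⟨_, rfl⟩
  obtain ⟨k, hk⟩ : ∃ k, k = √K := ⟨_, rfl⟩
  have ha0 : 0 ≤ a := by rw [ha]; exact Real.sqrt_nonneg _
  have hk0 : 0 ≤ k := by rw [hk]; exact Real.sqrt_nonneg _
  have ha2 : A3 = a ^ 2 := by rw [ha, Real.sq_sqrt h0]
  have hk2 : K = k ^ 2 := by rw [hk, Real.sq_sqrt hK0]
  rw [ha2, hk2] at hJ
  have j1 : J ≤ a * k := le_mul_of_sq ha0 hk0 hJ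
  rw [ha2] at h1
  rw [ha2, hk2]
  nlinarith [sq_nonneg (a - k)]

/-- **`F0 + F1` with the second layer dropped.** -/
theorem Num3.drop {p v R A3 Ja Jw Ka Kw NL e t : ℝ} (h : Num3 p v R A3 Ja Jw Ka Kw NL e)
    (hp0 : 0 ≤ p) (hp1 : p ≤ 1) (he : 0 ≤ e) (ht0 : 0 ≤ t) (ht1 : t ≤ 1) (hK : Ka ≤ t ^ 2 * R) :
    p * (1 - t) ^ 2 * (v * R) ≤ NL + 3 * e * (v * R) := by
  have s1 := bracket_ge h.R0 h.A30 h.A3R h.Ka0 h.Ja2 he ht0 ht1 hK
  have s2 := bracket_ge' h.A30 h.A3R h.Kw0 h.Jw2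
  have s3 := mul_le_mul_of_nonneg_left s1 hp0
  have s4 := mul_le_mul_of_nonneg_left s2 (sub_nonneg.2 hp1)
  have s5 := mul_le_mul_of_nonneg_left (add_le_add s3 s4) h.v0.le
  have s6 := h.f01
  have e1 : v * (p * ((1 - t) ^ 2 * R - 2 * e * R) + (1 - p) * -(2 * e * R)) =
      p * (1 - t) ^ 2 * (v * R) - 2 * e * (v * R) := by ring
  rw [e1] at s5
  linarith

/-- **An upper bound of the nonlinear part below the mass of the first layer is impossible.** -/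
theorem Num3.no_small {p v R A3 Ja Jw Ka Kw NL e t C : ℝ} (h : Num3 p v R A3 Ja Jw Ka Kw NL e)
    (hp0 : 0 ≤ p) (hp1 : p ≤ 1) (he : 0 ≤ e) (ht0 : 0 ≤ t) (ht1 : t ≤ 1) (hK : Ka ≤ t ^ 2 * R)
    (hN : NL ≤ C * (v * R)) (hC : C + 3 * e < p * (1 - t) ^ 2) : False := by
  have h1 := h.drop hp0 hp1 he ht0 ht1 hK
  have h2 : 0 < v * R := mul_pos h.v0 h.R0
  have h3 : (C + 3 * e) * (v * R) < p * (1 - t) ^ 2 * (v * R) := mul_lt_mul_of_pos_right hC h2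
  linarith

/-- from the bound of the square of `Ka` (two layers: upper bracket at `ta`) to `Ka ≤ t² R` -/
lemma Ka_le_two {n ρ A R Ka q c0 t : ℝ} (hn : 0 < n) (hρ : 0 < ρ) (hA : 0 < A) (hc0 : 0 < c0)
    (hR : c0 * (n * ρ) * A ≤ R) (hKa : Ka ^ 2 ≤ q * ρ ^ 2 * (n ^ 2 * A ^ 2))
    (hq : q ≤ c0 ^ 2 * t ^ 4) : Ka ≤ t ^ 2 * R := by
  have h0 : 0 < n * ρ * A := by positivity
  have h1 : Ka ^ 2 ≤ (t ^ 2 * (c0 * (n * ρ) * A)) ^ 2 := by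
    refine hKa.trans ?_
    have h2 := mul_le_mul_of_nonneg_right hq (sq_nonneg (n * ρ * A))
    calc q * ρ ^ 2 * (n ^ 2 * A ^ 2) = q * (n * ρ * A) ^ 2 := by ring
      _ ≤ _ := h2
      _ = _ := by ring
  have h2 : Ka ≤ t ^ 2 * (c0 * (n * ρ) * A) :=
    (le_abs_self _).trans (abs_le_of_sq_le_sq h1 (by positivity))
  exact h2.trans (mul_le_mul_of_nonneg_left hR (sq_nonneg t))

/-- from the transport bound of `Ka` (one layer) to `Ka ≤ t² R` -/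
lemma Ka_le_one {n ρ A R A3 Ka q c0 t e : ℝ} (hn : 0 < n) (hρ : 0 < ρ) (hA : 0 < A)
    (hc0 : 0 < c0) (hq0 : 0 ≤ q) (hR : c0 * (n * ρ) * A ≤ R) (h0 : 0 ≤ A3)
    (h1 : A3 ≤ (1 + e) * R) (he : 0 ≤ e) (hKa : Ka ^ 2 * ρ ≤ q * ρ ^ 2 * (n * A * A3))
    (hq : q * (1 + e) ≤ c0 * t ^ 4) : Ka ≤ t ^ 2 * R := by
  have hR0 : 0 < R := lt_of_lt_of_le (by positivity) hR
  have h2 : Ka ^ 2 ≤ q * ρ * (n * A * A3) := by
    have : Ka ^ 2 * ρ ≤ (q * ρ * (n * A * A3)) * ρ := by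
      refine hKa.trans (le_of_eq ?_)
      ring
    exact le_of_mul_le_mul_right this hρ
  have h3 : c0 * (q * ρ * (n * A * A3)) ≤ c0 * (t ^ 2 * R) ^ 2 := by
    calc c0 * (q * ρ * (n * A * A3)) = q * A3 * (c0 * (n * ρ) * A) := by ring
      _ ≤ q * A3 * R := mul_le_mul_of_nonneg_left hR (mul_nonneg hq0 h0)
      _ ≤ q * ((1 + e) * R) * R :=
          mul_le_mul_of_nonneg_right (mul_le_mul_of_nonneg_left h1 hq0) hR0.le
      _ = q * (1 + e) * R ^ 2 := by ring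
      _ ≤ c0 * t ^ 4 * R ^ 2 := mul_le_mul_of_nonneg_right hq (sq_nonneg R)
      _ = _ := by ring
  have h4 : Ka ^ 2 ≤ (t ^ 2 * R) ^ 2 := h2.trans (le_of_mul_le_mul_left h3 hc0)
  exact (le_abs_self _).trans (abs_le_of_sq_le_sq h4 (by positivity))

/-- the bound of the nonlinear part in case N -/
lemma NL_small {n β x v ρ R NL M e : ℝ} (hn : 0 < n) (hv : v = β * x / n) (hR : 0 ≤ R)
    (hkap : NL ≤ M * ρ * (R / n)) (hM : M * ρ ≤ e * (β * x)) : NL ≤ e * (v * R) := by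
  refine hkap.trans ?_
  have e1 : e * (v * R) = e * (β * x) * (R / n) := by rw [hv]; ring
  rw [e1]
  exact mul_le_mul_of_nonneg_right hM (div_nonneg hR hn.le)

/-- **Case N, two layers**, mass `1/4`: `c = 4 D / (β² n s x)`, `c ≤ (1/3 + 1/1000) ρ²`. -/
theorem false_N2 {n β x v ρ c A R A3 Ja Jw Ka Kw NL e c0 M : ℝ}
    (h : Num3 (1 / 4) v R A3 Ja Jw Ka Kw NL e) (hn : 0 < n) (hv : v = β * x / n) (hρ : 0 < ρ)
    (hA : 0 < A) (he0 : 0 ≤ e) (he : e ≤ 1 / 100000) (hc : c ≤ (1 / 3 + 1 / 1000) * ρ ^ 2)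
    (hc0 : 7 / 10 ≤ c0) (hR : c0 * (n * ρ) * A ≤ R)
    (hup : Ka ^ 2 ≤ (1 + 1 / 100) * (4 / 3) * c * n ^ 2 * A ^ 2)
    (hkap : NL ≤ M * ρ * (R / n)) (hM : M * ρ ≤ e * (β * x)) : False := by
  have hR' : 7 / 10 * (n * ρ) * A ≤ R := by
    refine le_trans ?_ hR
    exact mul_le_mul_of_nonneg_right (mul_le_mul_of_nonneg_right hc0 (by positivity)) hA.le
  have hKa : Ka ^ 2 ≤ (1 + 1 / 100) * (4 / 3) * (1 / 3 + 1 / 1000) * ρ ^ 2 * (n ^ 2 * A ^ 2) := by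
    refine hup.trans ?_
    have h1 : 0 ≤ (1 + 1 / 100) * (4 / 3) * (n ^ 2 * A ^ 2) := by positivity
    have := mul_le_mul_of_nonneg_left hc h1
    linarith
  have hK := Ka_le_two (t := 98 / 100) hn hρ hA (by norm_num) hR' hKa (by norm_num)
  exact h.no_small (by norm_num) (by norm_num) he0 (by norm_num) (by norm_num) hK
    (NL_small hn hv h.R0.le hkap hM) (by norm_num; linarith)

/-- **Case N, one layer** (mass `1`). -/
theorem false_N1 {n β x v ρ c A R A3 Ja Jw Ka Kw NL e c0 M : ℝ}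
    (h : Num3 1 v R A3 Ja Jw Ka Kw NL e) (hn : 0 < n) (hv : v = β * x / n) (hρ : 0 < ρ)
    (hA : 0 < A) (he0 : 0 ≤ e) (he : e ≤ 1 / 1000) (hc : c ≤ (1 / 3 + 1 / 1000) * ρ ^ 2)
    (hc0 : 7 / 10 ≤ c0) (hR : c0 * (n * ρ) * A ≤ R)
    (hup : Ka ^ 2 * ρ ≤ (1 + 1 / 10) * c * (n * A * A3))
    (hkap : NL ≤ M * ρ * (R / n)) (hM : M * ρ ≤ e * (β * x)) : False := by
  have hR' : 7 / 10 * (n * ρ) * A ≤ R := by
    refine le_trans ?_ hR
    exact mul_le_mul_of_nonneg_right (mul_le_mul_of_nonneg_right hc0 (by positivity)) hA.le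
  have hKa : Ka ^ 2 * ρ ≤ (1 + 1 / 10) * (1 / 3 + 1 / 1000) * ρ ^ 2 * (n * A * A3) := by
    refine hup.trans ?_
    have h1 : 0 ≤ (1 + 1 / 10) * (n * A * A3) :=
      mul_nonneg (by norm_num) (mul_nonneg (by positivity) h.A30)
    have := mul_le_mul_of_nonneg_left hc h1
    linarith
  have hK := Ka_le_one (t := 9 / 10) hn hρ hA (by norm_num) (by norm_num) hR' h.A30 h.A3R he0 hKa
    (by norm_num; linarith)
  exact h.no_small (by norm_num) (by norm_num) he0 (by norm_num) (by norm_num) hK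
    (NL_small hn hv h.R0.le hkap hM) (by norm_num; linarith)

/-- **Case K, two layers**, mass `19/20`: `c ≤ θ ρ²` with a small `θ`, `2 NL ≤ (47/25) v R + ..`. -/
theorem false_K2 {n β x v ρ c A R A3 Ja Jw Ka Kw NL e c0 θ : ℝ}
    (h : Num3 (19 / 20) v R A3 Ja Jw Ka Kw NL e) (hn : 0 < n) (hv : v = β * x / n) (hρ : 0 < ρ)
    (hA : 0 < A) (he0 : 0 ≤ e) (he : e ≤ 1 / 100000) (hc : c ≤ θ * ρ ^ 2)
    (hθ : θ ≤ 1 / 10 ^ 12) (hc0 : 7 / 10 ≤ c0) (hR : c0 * (n * ρ) * A ≤ R)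
    (hup : Ka ^ 2 ≤ (1 + 1 / 100) * 20 * c * n ^ 2 * A ^ 2)
    (hF2 : 2 * NL ≤ 47 / 25 * (v * R) + e * (v * R)) : False := by
  have hR' : 7 / 10 * (n * ρ) * A ≤ R := by
    refine le_trans ?_ hR
    exact mul_le_mul_of_nonneg_right (mul_le_mul_of_nonneg_right hc0 (by positivity)) hA.le
  have hKa : Ka ^ 2 ≤ (1 + 1 / 100) * 20 * (1 / 10 ^ 12) * ρ ^ 2 * (n ^ 2 * A ^ 2) := by
    refine hup.trans ?_
    have h1 : 0 ≤ (1 + 1 / 100) * 20 * (n ^ 2 * A ^ 2) := by positivity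
    have h2 : c ≤ 1 / 10 ^ 12 * ρ ^ 2 :=
      hc.trans (mul_le_mul_of_nonneg_right hθ (sq_nonneg ρ))
    have := mul_le_mul_of_nonneg_left h2 h1
    linarith
  have hK := Ka_le_two (t := 4 / 1000) hn hρ hA (by norm_num) hR' hKa (by norm_num)
  exact h.no_small (C := 47 / 50 + e / 2) (by norm_num) (by norm_num) he0 (by norm_num)
    (by norm_num) hK (by linarith) (by norm_num; linarith)

/-- **Case K, one layer** (mass `1`). -/
theorem false_K1 {n β x v ρ c A R A3 Ja Jw Ka Kw NL e c0 θ : ℝ}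
    (h : Num3 1 v R A3 Ja Jw Ka Kw NL e) (hn : 0 < n) (hv : v = β * x / n) (hρ : 0 < ρ)
    (hA : 0 < A) (he0 : 0 ≤ e) (he : e ≤ 1 / 1000) (hc : c ≤ θ * ρ ^ 2)
    (hθ : θ ≤ 1 / 10 ^ 8) (hc0 : 7 / 10 ≤ c0) (hR : c0 * (n * ρ) * A ≤ R)
    (hup : Ka ^ 2 * ρ ≤ (1 + 1 / 10) * c * (n * A * A3))
    (hF2 : 2 * NL ≤ 47 / 25 * (v * R) + e * (v * R)) : False := by
  have hR' : 7 / 10 * (n * ρ) * A ≤ R := by
    refine le_trans ?_ hR
    exact mul_le_mul_of_nonneg_right (mul_le_mul_of_nonneg_right hc0 (by positivity)) hA.le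
  have hKa : Ka ^ 2 * ρ ≤ (1 + 1 / 10) * (1 / 10 ^ 8) * ρ ^ 2 * (n * A * A3) := by
    refine hup.trans ?_
    have h1 : 0 ≤ (1 + 1 / 10) * (n * A * A3) :=
      mul_nonneg (by norm_num) (mul_nonneg (by positivity) h.A30)
    have h2 : c ≤ 1 / 10 ^ 8 * ρ ^ 2 :=
      hc.trans (mul_le_mul_of_nonneg_right hθ (sq_nonneg ρ))
    have := mul_le_mul_of_nonneg_left h2 h1
    linarith
  have hK := Ka_le_one (t := 2 / 100) hn hρ hA (by norm_num) (by norm_num) hR' h.A30 h.A3R he0 hKa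
    (by norm_num; linarith)
  exact h.no_small (C := 47 / 50 + e / 2) (by norm_num) (by norm_num) he0 (by norm_num)
    (by norm_num) hK (by linarith) (by norm_num; linarith)

end Vale.Agent.P146.H522
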