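import Vale.Agent.P146.H522.TwoTop2
import Vale.Agent.P146.H522.TwoEnd4

/-!
P146, lower side: the rows as numbers at a regular point, and the assembly.
-/

open MeasureTheory ProbabilityTheory Filter Topology

namespace Vale.Agent.P146.H522

open Vale.Agent.P157.Lv Vale.Agent.P146.H425 Vale.Agent.P146.H332 Vale.Agent.P146.H325
open Vale.Agent.P146.R1 Vale.Agent.P146.H767 Vale.Agent.P146.H432

set_option linter.unusedSectionVars false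

/-- the level `ρ`: `ρ² = 4 D_x / (β² n s)` -/
noncomputable def rho (n : ℕ) (β x s : ℝ) : ℝ := √(4 * Gn n β x s / (β ^ 2 * n * s))

/-- the value `c = 4 D / (β² n s x)` -/
noncomputable def cD (n : ℕ) (β x s : ℝ) : ℝ := 4 * Dn n β x s / (β ^ 2 * n * s * x)

section reg

variable {n : ℕ} {β e σ d w θ x s : ℝ}

lemma Reg.x0 (h : Reg n β e σ d w θ x s) (hn : 0 < n) : 0 < x :=
  (Real.rpow_pos_of_pos (Nat.cast_pos.2 hn) _).trans_le h.x_lo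

lemma Reg.s0 (h : Reg n β e σ d w θ x s) (hn : 0 < n) : 0 < s := by
  have := h.x0 hn
  have h1 : 0 < (n : ℝ) ^ (-(w + σ)) := Real.rpow_pos_of_pos (Nat.cast_pos.2 hn) _
  exact lt_of_lt_of_le (by positivity) h.s_lo

lemma Reg.le1 (h : Reg n β e σ d w θ x s) (hn : 0 < n) (hσ : 0 ≤ σ) : x ≤ 1 := by
  have hn1 : (1 : ℝ) ≤ n := by exact_mod_cast hn
  exact h.x_up.trans (Real.rpow_le_one_of_one_le_of_nonpos hn1 (by linarith))

lemma Reg.s1 (h : Reg n β e σ d w θ x s) (hn : 0 < n) (hσ : 0 ≤ σ) (hw : 0 ≤ w) : s ≤ 1 := by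
  have hn1 : (1 : ℝ) ≤ n := by exact_mod_cast hn
  have hn0 : (0 : ℝ) < n := by linarith
  have h1 : (n : ℝ) ^ (-w) ≤ 1 := Real.rpow_le_one_of_one_le_of_nonpos hn1 (by linarith)
  have h2 : x ^ 2 ≤ 1 := pow_le_one₀ (h.x0 hn).le (h.le1 hn hσ)
  refine h.s_up.trans ?_
  calc (n : ℝ) ^ (-w) * x ^ 2 ≤ 1 * 1 := mul_le_mul h1 h2 (by positivity) (by norm_num)
    _ = 1 := by norm_num

/-- the slope is at least `n^(1-(d+σ)) s x²` -/
lemma Reg.slope (h : Reg n β e σ d w θ x s) (hn : 0 < n) (hθ : θ ≤ 1) :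
    (n : ℝ) ^ (1 - (d + σ)) * s * x ^ 2 ≤ Gn n β x s := by
  have hx := h.x0 hn
  have hs := h.s0 hn
  have h1 := h.low.trans h.val
  have h2 := Gn_nonneg n β hx hs.le
  have h3 : θ * (x * Gn n β x s) ≤ 1 * (x * Gn n β x s) :=
    mul_le_mul_of_nonneg_right hθ (mul_nonneg hx.le h2)
  have h4 : x * ((n : ℝ) ^ (1 - (d + σ)) * s * x ^ 2) ≤ x * Gn n β x s := by
    calc x * ((n : ℝ) ^ (1 - (d + σ)) * s * x ^ 2) = (n : ℝ) ^ (1 - (d + σ)) * s * x ^ 3 := by ring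
      _ ≤ _ := by linarith
  exact le_of_mul_le_mul_left h4 hx

lemma Reg.G0 (h : Reg n β e σ d w θ x s) (hn : 0 < n) (hθ : θ ≤ 1) : 0 < Gn n β x s := by
  have hx := h.x0 hn
  have hs := h.s0 hn
  have h1 : 0 < (n : ℝ) ^ (1 - (d + σ)) := Real.rpow_pos_of_pos (Nat.cast_pos.2 hn) _
  exact lt_of_lt_of_le (by positivity) (h.slope hn hθ)

lemma rho_sq (hn : 0 < n) (hβ : 0 < β) (hx : 0 < x) (hs : 0 < s) :
    rho n β x s ^ 2 = 4 * Gn n β x s / (β ^ 2 * n * s) := by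
  have hn' : (0 : ℝ) < n := Nat.cast_pos.2 hn
  unfold rho
  rw [Real.sq_sqrt]
  have := Gn_nonneg n β hx hs.le
  positivity

lemma Reg.rho_pos (h : Reg n β e σ d w θ x s) (hn : 0 < n) (hβ : 0 < β) (hθ : θ ≤ 1) :
    0 < rho n β x s := by
  have hn' : (0 : ℝ) < n := Nat.cast_pos.2 hn
  have h1 := h.G0 hn hθ
  have h2 := h.s0 hn
  exact Real.sqrt_pos.2 (by positivity)

/-- `c ≤ θ ρ²` -/
lemma Reg.c_le (h : Reg n β e σ d w θ x s) (hn : 0 < n) (hβ : 0 < β) :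
    cD n β x s ≤ θ * rho n β x s ^ 2 := by
  have hn' : (0 : ℝ) < n := Nat.cast_pos.2 hn
  have hx := h.x0 hn
  have hs := h.s0 hn
  rw [rho_sq hn hβ hx hs]
  unfold cD
  rw [div_le_iff₀ (by positivity)]
  have h1 := h.val
  have e1 : θ * (4 * Gn n β x s / (β ^ 2 * n * s)) * (β ^ 2 * n * s * x) =
      4 * (θ * (x * Gn n β x s)) := by field_simp
  rw [e1]
  linarith

/-- the level from below -/
lemma Reg.rho_ge (h : Reg n β e σ d w θ x s) (hn : 0 < n) (hβ : 0 < β) (hθ : θ ≤ 1) :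
    4 / β ^ 2 * ((n : ℝ) ^ (-(d + σ)) * x ^ 2) ≤ rho n β x s ^ 2 := by
  have hn' : (0 : ℝ) < n := Nat.cast_pos.2 hn
  have hx := h.x0 hn
  have hs := h.s0 hn
  rw [rho_sq hn hβ hx hs, le_div_iff₀ (by positivity)]
  have h1 := h.slope hn hθ
  have e1 : (n : ℝ) ^ (1 - (d + σ)) = n * (n : ℝ) ^ (-(d + σ)) := by
    rw [sub_eq_add_neg, Real.rpow_add hn', Real.rpow_one]
  have e2 : 4 / β ^ 2 * ((n : ℝ) ^ (-(d + σ)) * x ^ 2) * (β ^ 2 * n * s) =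
      4 * (n * (n : ℝ) ^ (-(d + σ)) * s * x ^ 2) := by field_simp
  rw [e2, ← e1]
  linarith

end reg

/-- an upper bound of the slope as a bound of the level -/
lemma rho_le_of {n : ℕ} {β a x s : ℝ} (hn : 0 < n) (hβ : 0 < β) (hx : 0 < x) (hs : 0 < s)
    (h : Gn n β x s ≤ (n : ℝ) ^ (1 - 2 * a) * s * x ^ 2) :
    rho n β x s ≤ 2 / β * (n : ℝ) ^ (-a) * x := by
  have hn' : (0 : ℝ) < n := Nat.cast_pos.2 hn
  have hp : 0 < (n : ℝ) ^ (-a) := Real.rpow_pos_of_pos hn' _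
  refine abs_le_of_sq_le_sq' ?_ (by positivity) |>.2
  rw [rho_sq hn hβ hx hs, div_le_iff₀ (by positivity)]
  have e1 : (n : ℝ) ^ (1 - 2 * a) = n * ((n : ℝ) ^ (-a)) ^ 2 := by
    rw [← Real.rpow_natCast ((n : ℝ) ^ (-a)), ← Real.rpow_mul hn'.le]
    nth_rewrite 2 [← Real.rpow_one (n : ℝ)]
    rw [← Real.rpow_add hn']
    congr 1
    push_cast
    ring
  have e2 : (2 / β * (n : ℝ) ^ (-a) * x) ^ 2 * (β ^ 2 * n * s) =
      4 * (n * ((n : ℝ) ^ (-a)) ^ 2 * s * x ^ 2) := by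
    field_simp
    norm_num
  rw [e2, ← e1]
  linarith

/-- a lower bound of the slope as a bound of the level -/
lemma rho_ge_of {n : ℕ} {β a x s : ℝ} (hn : 0 < n) (hβ : 0 < β) (hx : 0 < x) (hs : 0 < s)
    (h : (n : ℝ) ^ (1 - 2 * a) * s * x ^ 2 ≤ Gn n β x s) :
    2 / β * (n : ℝ) ^ (-a) * x ≤ rho n β x s := by
  have hn' : (0 : ℝ) < n := Nat.cast_pos.2 hn
  have hp : 0 < (n : ℝ) ^ (-a) := Real.rpow_pos_of_pos hn' _
  have hr : 0 ≤ rho n β x s := Real.sqrt_nonneg _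
  refine abs_le_of_sq_le_sq' ?_ hr |>.2
  rw [rho_sq hn hβ hx hs, le_div_iff₀ (by positivity)]
  have e1 : (n : ℝ) ^ (1 - 2 * a) = n * ((n : ℝ) ^ (-a)) ^ 2 := by
    rw [← Real.rpow_natCast ((n : ℝ) ^ (-a)), ← Real.rpow_mul hn'.le]
    nth_rewrite 2 [← Real.rpow_one (n : ℝ)]
    rw [← Real.rpow_add hn']
    congr 1
    push_cast
    ring
  have e2 : (2 / β * (n : ℝ) ^ (-a) * x) ^ 2 * (β ^ 2 * n * s) =
      4 * (n * ((n : ℝ) ^ (-a)) ^ 2 * s * x ^ 2) := by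
    field_simp
    norm_num
  rw [e2, ← e1]
  linarith

/-! ### the rows as numbers -/

/-- **Case N, two layers** (masses `1/4`, `3/4`), the numbers at a regular point. -/
def RowN2 (β e σ d w : ℝ) : Prop := ∀ᶠ n : ℕ in atTop, ∀ x s : ℝ,
  Reg n β e σ d w (1 / 3 + 1 / 1000) x s → Gn n β x s ≤ (n : ℝ) ^ (1 - 10 * σ) * s * x ^ 2 →
  ∃ A R A3 Ja Jw Ka Kw NL : ℝ, Num3 (1 / 4) (β * x / n) R A3 Ja Jw Ka Kw NL (1 / 100000) ∧
    0 < A ∧ 7 / 10 * (n * rho n β x s) * A ≤ R ∧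
    Ka ^ 2 ≤ (1 + 1 / 100) * (4 / 3) * cD n β x s * n ^ 2 * A ^ 2 ∧
    NL ≤ (n : ℝ) ^ (3 * σ) * rho n β x s * (R / n)

/-- **Case N, one layer**. -/
def RowN1 (β e σ d w : ℝ) : Prop := ∀ᶠ n : ℕ in atTop, ∀ x s : ℝ,
  Reg n β e σ d w (1 / 3 + 1 / 1000) x s → Gn n β x s ≤ (n : ℝ) ^ (1 - 10 * σ) * s * x ^ 2 →
  ∃ A R A3 J J' K K' NL : ℝ, Num3 1 (β * x / n) R A3 J J' K K' NL (1 / 1000) ∧
    0 < A ∧ 7 / 10 * (n * rho n β x s) * A ≤ R ∧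
    K ^ 2 * rho n β x s ≤ (1 + 1 / 10) * cD n β x s * (n * A * A3) ∧
    NL ≤ (n : ℝ) ^ (3 * σ) * rho n β x s * (R / n)

/-- **Case K, two layers** (masses `19/20`, `1/20`), the numbers at a regular point. -/
def RowK2 (β e σ : ℝ) : Prop := ∀ᶠ n : ℕ in atTop, ∀ x s : ℝ,
  Reg n β e σ (127 * σ) (25 * σ) ((n : ℝ) ^ (-(50 * σ))) x s →
  (n : ℝ) ^ (1 - 38 * σ) * s * x ^ 2 ≤ Gn n β x s →
  ∃ A R A3 Ja Jw Ka Kw NL : ℝ, Num3 (19 / 20) (β * x / n) R A3 Ja Jw Ka Kw NL (1 / 100000) ∧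
    0 < A ∧ 7 / 10 * (n * rho n β x s) * A ≤ R ∧
    Ka ^ 2 ≤ (1 + 1 / 100) * 20 * cD n β x s * n ^ 2 * A ^ 2 ∧
    2 * NL ≤ 47 / 25 * (β * x / n * R) + 1 / 100000 * (β * x / n * R)

/-- **Case K, one layer**. -/
def RowK1 (β e σ : ℝ) : Prop := ∀ᶠ n : ℕ in atTop, ∀ x s : ℝ,
  Reg n β e σ (127 * σ) (25 * σ) ((n : ℝ) ^ (-(50 * σ))) x s →
  (n : ℝ) ^ (1 - 38 * σ) * s * x ^ 2 ≤ Gn n β x s →
  ∃ A R A3 J J' K K' NL : ℝ, Num3 1 (β * x / n) R A3 J J' K K' NL (1 / 1000) ∧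
    0 < A ∧ 7 / 10 * (n * rho n β x s) * A ≤ R ∧
    K ^ 2 * rho n β x s ≤ (1 + 1 / 10) * cD n β x s * (n * A * A3) ∧
    2 * NL ≤ 47 / 25 * (β * x / n * R) + 1 / 1000 * (β * x / n * R)

/-- the loss of KAP against the level in case N -/
lemma kap_num {β σ e₁ : ℝ} (hβ : 0 < β) (hσ : 0 < σ) (he : 0 < e₁) :
    ∀ᶠ n : ℕ in atTop, ∀ x s : ℝ, 0 < x → 0 < s →
      Gn n β x s ≤ (n : ℝ) ^ (1 - 10 * σ) * s * x ^ 2 →
      (n : ℝ) ^ (3 * σ) * rho n β x s ≤ e₁ * (β * x) := by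
  filter_upwards [ev_small (a := 2 * σ) (δ := e₁ * β ^ 2 / 2) (by positivity) (by positivity),
    eventually_ge_atTop 1] with n h1 hn x s hx hs hG
  have hn' : (0 : ℝ) < n := by exact_mod_cast hn
  have e0 : (1 - 10 * σ : ℝ) = 1 - 2 * (5 * σ) := by ring
  rw [e0] at hG
  have h2 := rho_le_of (a := 5 * σ) hn hβ hx hs hG
  have hp : 0 < (n : ℝ) ^ (3 * σ) := Real.rpow_pos_of_pos hn' _
  calc (n : ℝ) ^ (3 * σ) * rho n β x s ≤
        (n : ℝ) ^ (3 * σ) * (2 / β * (n : ℝ) ^ (-(5 * σ)) * x) :=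
        mul_le_mul_of_nonneg_left h2 hp.le
    _ = 2 / β * ((n : ℝ) ^ (3 * σ) * (n : ℝ) ^ (-(5 * σ))) * x := by ring
    _ = 2 / β * (n : ℝ) ^ (-(2 * σ)) * x := by
        rw [← Real.rpow_add hn']; congr 3; ring
    _ ≤ 2 / β * (e₁ * β ^ 2 / 2) * x := by gcongr
    _ = e₁ * (β * x) := by field_simp

/-- **Case N from the numbers, two layers.** -/
theorem noN_of_two {β e σ d w : ℝ} (hβ : 0 < β) (hσ : 0 < σ) (h : RowN2 β e σ d w) :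
    NoN β e σ d w := by
  filter_upwards [h, kap_num (e₁ := 1 / 100000) hβ hσ (by norm_num), eventually_ge_atTop 1]
    with n h1 h2 hn x s hR hG
  have hn' : (0 : ℝ) < n := by exact_mod_cast hn
  obtain ⟨A, R, A3, Ja, Jw, Ka, Kw, NL, a1, a2, a3, a4, a5⟩ := h1 x s hR hG
  exact false_N2 a1 hn' rfl (hR.rho_pos hn hβ (by norm_num)) a2 (by norm_num) le_rfl
    (hR.c_le hn hβ) le_rfl a3 a4 a5 (h2 x s (hR.x0 hn) (hR.s0 hn) hG)

/-- **Case N from the numbers, one layer.** -/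
theorem noN_of_one {β e σ d w : ℝ} (hβ : 0 < β) (hσ : 0 < σ) (h : RowN1 β e σ d w) :
    NoN β e σ d w := by
  filter_upwards [h, kap_num (e₁ := 1 / 1000) hβ hσ (by norm_num), eventually_ge_atTop 1]
    with n h1 h2 hn x s hR hG
  have hn' : (0 : ℝ) < n := by exact_mod_cast hn
  obtain ⟨A, R, A3, Ja, Jw, Ka, Kw, NL, a1, a2, a3, a4, a5⟩ := h1 x s hR hG
  exact false_N1 a1 hn' rfl (hR.rho_pos hn hβ (by norm_num)) a2 (by norm_num) le_rfl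
    (hR.c_le hn hβ) le_rfl a3 a4 a5 (h2 x s (hR.x0 hn) (hR.s0 hn) hG)

/-- **Case K from the numbers, two layers.** -/
theorem noK_of_two {β e σ : ℝ} (hβ : 0 < β) (hσ : 0 < σ) (h : RowK2 β e σ) : NoK β e σ := by
  filter_upwards [h, ev_small (a := 50 * σ) (δ := 1 / 10 ^ 12) (by positivity) (by norm_num),
    eventually_ge_atTop 1] with n h1 h2 hn x s hR hG
  have hn' : (0 : ℝ) < n := by exact_mod_cast hn
  obtain ⟨A, R, A3, Ja, Jw, Ka, Kw, NL, a1, a2, a3, a4, a5⟩ := h1 x s hR hG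
  exact false_K2 a1 hn' rfl (hR.rho_pos hn hβ (h2.le.trans (by norm_num))) a2 (by norm_num) le_rfl
    (hR.c_le hn hβ) h2.le le_rfl a3 a4 a5

/-- **Case K from the numbers, one layer.** -/
theorem noK_of_one {β e σ : ℝ} (hβ : 0 < β) (hσ : 0 < σ) (h : RowK1 β e σ) : NoK β e σ := by
  filter_upwards [h, ev_small (a := 50 * σ) (δ := 1 / 10 ^ 8) (by positivity) (by norm_num),
    eventually_ge_atTop 1] with n h1 h2 hn x s hR hG
  have hn' : (0 : ℝ) < n := by exact_mod_cast hn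
  obtain ⟨A, R, A3, Ja, Jw, Ka, Kw, NL, a1, a2, a3, a4, a5⟩ := h1 x s hR hG
  exact false_K1 a1 hn' rfl (hR.rho_pos hn hβ (h2.le.trans (by norm_num))) a2 (by norm_num) le_rfl
    (hR.c_le hn hβ) h2.le le_rfl a3 a4 a5

/-- **The assembly.**  For every `e > e0` the three rows, each with one or two layers, give
`n^(1/3 - 2 e0 - ε) ≤ Var F_n`. -/
theorem var_of_rows {β : ℝ} (hβ : 1 < β) (hA : ∀ᶠ n : ℕ in atTop, AntiN n β) {e0 : ℝ}
    (he0 : 0 ≤ e0) (he1 : e0 < 1 / 12)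
    (hr : ∀ e σ : ℝ, e0 < e → e ≤ 1 / 12 → 0 < σ → σ ≤ e / 1000 →
      (RowN2 β e σ (100 * σ) (52 * σ) ∨ RowN1 β e σ (100 * σ) (52 * σ)) ∧
      (RowN2 β e σ (278 * σ) (141 * σ) ∨ RowN1 β e σ (278 * σ) (141 * σ)) ∧
      (RowK2 β e σ ∨ RowK1 β e σ)) :
    (∀ e, e0 < e → e ≤ 1 / 12 → LoE β e) ∧
    ∀ γ : ℝ, γ < 1 / 3 - 2 * e0 → ∀ᶠ n : ℕ in atTop,
      (n : ℝ) ^ γ ≤ Var[freeEnergy n β; disorder n] := by
  have hβ0 : 0 < β := by linarith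
  have main : ∀ e, e0 < e → e ≤ 1 / 12 → LoE β e := fun e h1 h2 =>
    lo_of_rows hβ hA (by linarith) h2 fun σ h3 h4 => by
      obtain ⟨a, b, c⟩ := hr e σ h1 h2 h3 h4
      exact ⟨a.elim (noN_of_two hβ0 h3) (noN_of_one hβ0 h3),
        b.elim (noN_of_two hβ0 h3) (noN_of_one hβ0 h3),
        c.elim (noK_of_two hβ0 h3) (noK_of_one hβ0 h3)⟩
  refine ⟨main, fun γ hγ => ?_⟩
  obtain ⟨e, he⟩ : ∃ e, e = min ((1 / 3 - γ) / 4 + e0 / 2) (1 / 12) := ⟨_, rfl⟩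
  have h1 : e ≤ (1 / 3 - γ) / 4 + e0 / 2 := by rw [he]; exact min_le_left _ _
  have h2 : e ≤ 1 / 12 := by rw [he]; exact min_le_right _ _
  have h3 : e0 < e := by rw [he]; exact lt_min (by linarith) he1
  exact var_of_loE (by linarith) h2 (main e h3 h2) γ (by linarith)

end Vale.Agent.P146.H522
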