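import Vale.Agent.P146.H522.Rot

/-!
The deterministic rotation inequality on the good set.
-/

open Matrix Vale.Agent.P146.H332

namespace Vale.Agent.P146.H522

set_option linter.unusedSectionVars false
set_option linter.unusedDecidableInType false

private lemma num1 {a b c r R y δ : ℝ} (ha : 0 < a) (hb : 0 ≤ b) (hc : 0 ≤ c) (hr : 0 < r)
    (haR : a ≤ R) (hbR : b ≤ R) (har : a ^ 2 ≤ r)
    (hcR : c * R ≤ a ^ 3) (hδ : 0 ≤ δ) (hba : (b - a) * (a + b) = δ + 2 * y) :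
    c * δ - 4 * r * |y| ≤ 2 * a ^ 3 * (b - a) := by
  have hab : 0 < a + b := by linarith
  have hba' : b - a = (δ + 2 * y) / (a + b) := by rw [eq_div_iff hab.ne']; exact hba
  rw [hba', mul_div_assoc', le_div_iff₀ hab]
  have h5 : c * (a + b) ≤ 2 * a ^ 3 := by
    have : c * (a + b) ≤ c * (R + R) := mul_le_mul_of_nonneg_left (by linarith) hc
    linarith
  have h6 : c * δ * (a + b) ≤ 2 * a ^ 3 * δ := by
    calc c * δ * (a + b) = c * (a + b) * δ := by ring
      _ ≤ 2 * a ^ 3 * δ := mul_le_mul_of_nonneg_right h5 hδ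
  have h7 : -(4 * r * |y| * (a + b)) ≤ 2 * a ^ 3 * (2 * y) := by
    have h8 : -|y| ≤ y := neg_abs_le y
    have h9 : a ^ 3 ≤ r * (a + b) := by
      have : a ^ 3 = a ^ 2 * a := by ring
      rw [this]
      exact mul_le_mul har (by linarith) ha.le hr.le
    have h10 : 0 ≤ a ^ 3 := by positivity
    have h11 := mul_le_mul_of_nonneg_right h9 (abs_nonneg y)
    have h12 := mul_le_mul_of_nonneg_left h8 h10
    linarith
  calc (c * δ - 4 * r * |y|) * (a + b) = c * δ * (a + b) - 4 * r * |y| * (a + b) := by ring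
    _ ≤ 2 * a ^ 3 * δ + 2 * a ^ 3 * (2 * y) := by linarith
    _ = 2 * a ^ 3 * (δ + 2 * y) := by ring

private lemma num2 {a b r R y : ℝ} (ha : 0 < a) (hb : 0 ≤ b)
    (hR : 0 < R) (hR2 : R ^ 2 = r) (haR : a ≤ R) (hbR : b ≤ R) :
    6 * a * |y| * (a + b) ≤ 12 * r * |y| := by
  have h4 : a * (a + b) ≤ 2 * r := by
    have : a * (a + b) ≤ R * (R + R) := mul_le_mul haR (by linarith) (by linarith) hR.le
    linarith [sq R]
  have h5 := mul_le_mul_of_nonneg_right h4 (abs_nonneg y)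
  calc 6 * a * |y| * (a + b) = 6 * (a * (a + b) * |y|) := by ring
    _ ≤ 6 * (2 * r * |y|) := by linarith
    _ = 12 * r * |y| := by ring

private lemma num4 {a c r R y : ℝ} (ha : 0 < a) (hc : 0 ≤ c) (hr : 0 < r)
    (hR : 0 < R) (haR : a ≤ R) (har : a ^ 2 ≤ r)
    (hcR : c * R ≤ a ^ 3) : c * (2 * y) ≤ 2 * r * |y| := by
  have h4 : c ≤ r := by
    have h5 : c * R ≤ r * R := by
      calc c * R ≤ a ^ 3 := hcR
        _ = a ^ 2 * a := by ring
        _ ≤ r * R := mul_le_mul har haR ha.le hr.le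
    exact le_of_mul_le_mul_right h5 hR
  have h6 : y ≤ |y| := le_abs_self y
  have h7 := mul_le_mul_of_nonneg_right h4 (abs_nonneg y)
  have h8 := mul_le_mul_of_nonneg_left h6 hc
  linarith

variable {q : Type} [Fintype q] [DecidableEq q]

/-- `|A - B|² = |B|² - |A|² - 2 (⟨A, B⟩ - |A|²)` -/
lemma fr_sub_eq (A B : Matrix q q ℝ) :
    fr (B - A) = fr B - fr A - 2 * (ip A B - fr A) := by
  simp only [fr, ip, Matrix.sub_apply]
  simp only [Finset.mul_sum, ← Finset.sum_sub_distrib]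
  exact Finset.sum_congr rfl fun i _ => Finset.sum_congr rfl fun j _ => by ring

/-- `|Y|² ≥ |X|² + 2 ⟨X, Y - X⟩` -/
lemma fr_lin (X Y : Matrix q q ℝ) : fr X + 2 * ip X (Y - X) ≤ fr Y := by
  have h := fr_nonneg (Y - X)
  rw [fr_sub_eq] at h
  have e : ip X (Y - X) = ip X Y - fr X := by rw [ip_sub_right, ip_self]
  rw [e]
  linarith

/-- The rotation lemma on the good set. -/
theorem rot_point {A B : Matrix q q ℝ} (hA : Psd A) (hB : Psd B) {p r c : ℝ} (hp : 0 < p)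
    (hc : 0 ≤ c) (hcp : c ^ 2 * r ≤ p ^ 3) (h1 : p ≤ fr A) (h2 : fr A ≤ r) (h3 : fr B ≤ r) :
    c * (fr B - fr A) - 18 * r * |ip A B - fr A| - 2 * r * (√(dfc A) + √(dfc B)) ≤
      fr (A * B - B * A) := by
  have hg := rot_growth hA hB
  have hδe : fr B - fr A = fr (B - A) + 2 * (ip A B - fr A) := by rw [fr_sub_eq]; ring
  have hδ0 : 0 ≤ fr (B - A) := fr_nonneg _
  have ha2 : nf A ^ 2 = fr A := nf_sq A
  have hb2 : nf B ^ 2 = fr B := nf_sq B
  have ha0 : 0 ≤ nf A := nf_nonneg A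
  have hb0 : 0 ≤ nf B := nf_nonneg B
  rw [ha2, hb2] at hg
  generalize ip A B - fr A = y at *
  generalize fr (B - A) = δ at *
  have hr : 0 < r := hp.trans_le (h1.trans h2)
  have hapos : 0 < nf A := by
    rcases ha0.lt_or_eq with h | h
    · exact h
    · rw [← h] at ha2; norm_num at ha2; linarith
  have hR0 : 0 < √r := Real.sqrt_pos.2 hr
  have hR2 : √r ^ 2 = r := Real.sq_sqrt hr.le
  have haR : nf A ≤ √r := Real.le_sqrt_of_sq_le (by rw [ha2]; exact h2)
  have hbR : nf B ≤ √r := Real.le_sqrt_of_sq_le (by rw [hb2]; exact h3)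
  have har : nf A ^ 2 ≤ r := by rw [ha2]; exact h2
  have hcR : c * √r ≤ nf A ^ 3 := by
    have h4 : (c * √r) ^ 2 ≤ (nf A ^ 3) ^ 2 := by
      calc (c * √r) ^ 2 = c ^ 2 * r := by rw [mul_pow, hR2]
        _ ≤ p ^ 3 := hcp
        _ ≤ (fr A) ^ 3 := pow_le_pow_left₀ hp.le h1 3
        _ = (nf A ^ 3) ^ 2 := by rw [← ha2]; ring
    exact le_of_sq_le_sq h4 (by positivity)
  have hba : (nf B - nf A) * (nf A + nf B) = δ + 2 * y := by
    rw [← hδe, ← ha2, ← hb2]; ring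
  have m1 := num1 hapos hb0 hc hr haR hbR har hcR hδ0 hba
  have m2 := num2 (y := y) hapos hb0 hR0 hR2 haR hbR
  have m4 := num4 (y := y) hapos hc hr hR0 haR har hcR
  have hd1 : 0 ≤ √(dfc A) := Real.sqrt_nonneg _
  have hd2 : 0 ≤ √(dfc B) := Real.sqrt_nonneg _
  have m5 := mul_le_mul_of_nonneg_right h3 hd1
  have m6 := mul_le_mul_of_nonneg_right h2 hd2
  rw [hδe]
  linarith

end Vale.Agent.P146.H522
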