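import Vale.Agent.P146.H432.XReg

/-!
P146, lower side: the bound `D(m, σ) ≤ n^(1+a) σ m³` for short windows, deterministic part.

If it fails at one pair `(m0, σ0)`, take a maximiser (up to a factor) of `D(m, σ) / (σ^p m^q)`
among `m ≥ m0`, `σ ≤ σ0`.  At this point (`KPt`) the bound still fails, the functional is large,
and it has a regular growth in both variables.
-/

open MeasureTheory ProbabilityTheory Filter Topology

namespace Vale.Agent.P146.H522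

open Vale.Agent.P157.Lv Vale.Agent.P146.H425 Vale.Agent.P146.H332 Vale.Agent.P146.H325
open Vale.Agent.P146.R1 Vale.Agent.P146.H767 Vale.Agent.P146.H432
open Vale.Agent.P146.H946 (Dz Hz)

set_option linter.unusedSectionVars false

/-! ### the crude bound -/

lemma Q0_sk_le {n : ℕ} (hn : 0 < n) (β x s : ℝ) :
    Q0 x s (lz (β / √n) (SkS (n := n))) (Dz (β / √n)) ≤ β ^ 2 * n / 2 := by
  have hn' : (0 : ℝ) < n := Nat.cast_pos.2 hn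
  unfold Q0
  by_cases hI : Integrable (fun z : Pair n → ℝ =>
      sq x (1 - s) (lz (β / √n) (SkS (n := n))) (Dz (β / √n)) (√(1 - s) • z)) (gI (Pair n))
  · have := integral_mono (μ := gI (Pair n)) hI (integrable_const (β ^ 2 * n / 2))
      fun z => sq_le hn β x (1 - s) (√(1 - s) • z)
    simpa using this
  · rw [integral_undef hI]
    positivity

/-- **The crude bound**: `D(x, s) ≤ β²/4 · n s x`. -/
theorem Dn_le {n : ℕ} (hn : 0 < n) (β : ℝ) {x s : ℝ} (hx : 0 < x) (hs : 0 ≤ s) (hs1 : s ≤ 1) :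
    Dn n β x s ≤ β ^ 2 / 4 * (n * s * x) := by
  have h := c11_lz (β / √n) (SkS (n := n))
  have h0 : DD x 0 (lz (β / √n) (SkS (n := n))) = 0 := by
    rw [DD_eq]
    simp only [Real.sqrt_zero, sub_zero, Real.sqrt_one, one_smul]
    simp_rw [W_zero hx]
    ring
  have h1 := DD_int_s (D := Dz (β / √n)) h hx le_rfl hs hs1
  rw [h0, sub_zero] at h1
  have h2 : ‖∫ σ in (0 : ℝ)..s, x / 2 * Q0 x σ (lz (β / √n) (SkS (n := n))) (Dz (β / √n))‖ ≤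
      x / 2 * (β ^ 2 * n / 2) * |s - 0| := by
    refine intervalIntegral.norm_integral_le_of_norm_le_const fun σ _ => ?_
    rw [Real.norm_of_nonneg (mul_nonneg (by linarith) Q0_nonneg)]
    exact mul_le_mul_of_nonneg_left (Q0_sk_le hn β x σ) (by linarith)
  unfold Dn
  rw [h1]
  refine (Real.le_norm_self _).trans (h2.trans (le_of_eq ?_))
  rw [sub_zero, abs_of_nonneg hs]
  ring

/-- the value is at most `x` times the slope -/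
theorem Dn_le_Gn {n : ℕ} (hn : 0 < n) (β : ℝ) {x s : ℝ} (hx : 0 < x) (hs : 0 ≤ s) (hs1 : s ≤ 1) :
    Dn n β x s ≤ x * Gn n β x s := by
  have hG := Gn_nonneg n β hx hs
  have hn' : (0 : ℝ) < n := Nat.cast_pos.2 hn
  refine le_of_forall_pos_le_add fun ε hε => ?_
  obtain ⟨y, hy0, hy1⟩ : ∃ y : ℝ, 0 < y ∧ β ^ 2 / 4 * (n * s * y) ≤ ε := by
    refine ⟨ε / (β ^ 2 / 4 * (n * s) + 1), by positivity, ?_⟩
    have h1 : 0 ≤ β ^ 2 / 4 * (n * s) := by positivity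
    calc β ^ 2 / 4 * (n * s * (ε / (β ^ 2 / 4 * (n * s) + 1)))
        = β ^ 2 / 4 * (n * s) / (β ^ 2 / 4 * (n * s) + 1) * ε := by ring
      _ ≤ 1 * ε := mul_le_mul_of_nonneg_right
          ((div_le_one (by linarith)).2 (by linarith)) hε.le
      _ = ε := one_mul _
  have h1 := Dn_tan' n β hx hy0 hs hs1
  have h2 := Dn_le hn β hy0 hs hs1
  nlinarith [mul_nonneg hy0.le hG]

/-! ### the maximiser -/

/-- **A maximiser of `D(m, σ) / (σ^p m^q)` up to a factor `lam > 1`.** -/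
theorem max_gen {D : ℝ → ℝ → ℝ} {C p lam m0 M σ0 : ℝ} {q : ℕ} (hp : p < 1) (hlam : 1 < lam)
    (hm0 : 0 < m0) (hM : m0 ≤ M) (hσ0 : 0 < σ0)
    (hD : ∀ m σ, m0 ≤ m → m ≤ M → 0 < σ → σ ≤ σ0 → D m σ ≤ C * (σ * m))
    (hpos : 0 < D m0 σ0) :
    ∃ m σ, m0 ≤ m ∧ m ≤ M ∧ 0 < σ ∧ σ ≤ σ0 ∧ 0 < D m σ ∧
      ∀ m' σ', m0 ≤ m' → m' ≤ M → 0 < σ' → σ' ≤ σ0 →
        D m' σ' ≤ lam * (σ' / σ) ^ p * (m' / m) ^ q * D m σ := by
  have hC : 0 < C := by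
    have h1 := hD m0 σ0 le_rfl hM hσ0 le_rfl
    by_contra hcon
    push Not at hcon
    have : C * (σ0 * m0) ≤ 0 := mul_nonpos_of_nonpos_of_nonneg hcon (by positivity)
    linarith
  have hM0 : 0 < M := hm0.trans_le hM
  let S : Set ℝ := {v | ∃ m σ, m0 ≤ m ∧ m ≤ M ∧ 0 < σ ∧ σ ≤ σ0 ∧ v = D m σ / (σ ^ p * m ^ q)}
  have hb : BddAbove S := by
    refine ⟨C * σ0 ^ (1 - p) * (M / m0 ^ q), ?_⟩
    rintro v ⟨m, σ, h1, h2, h3, h4, rfl⟩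
    have hm : 0 < m := hm0.trans_le h1
    have hσp : 0 < σ ^ p := Real.rpow_pos_of_pos h3 _
    rw [div_le_iff₀ (by positivity)]
    refine (hD m σ h1 h2 h3 h4).trans ?_
    have e1 : σ = σ ^ (1 - p) * σ ^ p := by
      rw [← Real.rpow_add h3]; simp
    have k1 : σ ^ (1 - p) ≤ σ0 ^ (1 - p) := Real.rpow_le_rpow h3.le h4 (by linarith)
    have k2 : m ≤ M / m0 ^ q * m ^ q := by
      rw [div_mul_eq_mul_div, le_div_iff₀ (by positivity)]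
      exact mul_le_mul h2 (pow_le_pow_left₀ hm0.le h1 q) (by positivity) hM0.le
    calc C * (σ * m) = C * (σ ^ (1 - p) * σ ^ p * m) := by rw [← e1]
      _ ≤ C * (σ0 ^ (1 - p) * σ ^ p * (M / m0 ^ q * m ^ q)) := by gcongr
      _ = C * σ0 ^ (1 - p) * (M / m0 ^ q) * (σ ^ p * m ^ q) := by ring
  have h0 : D m0 σ0 / (σ0 ^ p * m0 ^ q) ∈ S := ⟨m0, σ0, le_rfl, hM, hσ0, le_rfl, rfl⟩
  have hv0 : 0 < D m0 σ0 / (σ0 ^ p * m0 ^ q) :=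
    div_pos hpos (mul_pos (Real.rpow_pos_of_pos hσ0 _) (by positivity))
  have hV : 0 < sSup S := hv0.trans_le (le_csSup hb h0)
  obtain ⟨v, ⟨m, σ, h1, h2, h3, h4, rfl⟩, hv⟩ := exists_lt_of_lt_csSup ⟨_, h0⟩
    (show sSup S / lam < sSup S from div_lt_self hV hlam)
  have hm : 0 < m := hm0.trans_le h1
  have hσp : 0 < σ ^ p := Real.rpow_pos_of_pos h3 _
  have hDm : 0 < D m σ := by
    have h5 : 0 < D m σ / (σ ^ p * m ^ q) := (div_pos hV (by linarith)).trans hv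
    exact (div_pos_iff_of_pos_right (by positivity)).1 h5
  refine ⟨m, σ, h1, h2, h3, h4, hDm, fun m' σ' g1 g2 g3 g4 => ?_⟩
  have hm' : 0 < m' := hm0.trans_le g1
  have hσp' : 0 < σ' ^ p := Real.rpow_pos_of_pos g3 _
  have k1 : D m' σ' / (σ' ^ p * m' ^ q) ≤ sSup S := le_csSup hb ⟨m', σ', g1, g2, g3, g4, rfl⟩
  have k2 : sSup S ≤ lam * (D m σ / (σ ^ p * m ^ q)) := by
    rw [div_lt_iff₀ (by linarith)] at hv
    linarith
  have k3 := k1.trans k2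
  rw [div_le_iff₀ (by positivity)] at k3
  refine k3.trans (le_of_eq ?_)
  rw [Real.div_rpow g3.le h3.le, div_pow]
  field_simp

/-- **The point at which the rows are used.** -/
structure KPt (n : ℕ) (β e b c κ a p lam τ c5 c6 : ℝ) (q : ℕ) (m σ : ℝ) : Prop where
  m_lo : (n : ℝ) ^ (-(1 / 6) + e) ≤ m
  m_up : m ≤ (n : ℝ) ^ (-(b + c))
  s_lo : (n : ℝ) ^ (-(1 : ℝ)) ≤ σ
  s_up : σ ≤ (n : ℝ) ^ (-τ)
  /-- the bound fails -/
  viol : (n : ℝ) ^ (1 + a) * σ * m ^ 3 ≤ lam * Dn n β m σ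
  /-- the functional is larger than the fluctuations of the free energy -/
  size : (n : ℝ) ^ (1 / 6 + κ) ≤ Dn n β m σ
  /-- the functional is larger than the error of the row -/
  half : (n : ℝ) ^ κ * (m * √(n * σ)) ≤ Dn n β m σ
  /-- growth in the exponent and in the length of the window -/
  grow : ∀ m' σ', m ≤ m' → m' ≤ (n : ℝ) ^ (-b) → 0 < σ' → σ' ≤ σ →
    Dn n β m' σ' ≤ lam * (σ' / σ) ^ p * (m' / m) ^ q * Dn n β m σ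
  /-- the slope is regular -/
  reg : Gn n β ((1 + (n : ℝ) ^ (-c5)) * m) σ ≤
    (1 + (n : ℝ) ^ (-c6)) * Gn n β ((1 - (n : ℝ) ^ (-c5)) * m) σ

/-- the numbers of the maximiser: `u = σ/σ0`, `v = m/m0` -/
lemma max_num {a p lam C N m0 σ0 u v K R : ℝ} {q : ℕ} (hp : p ≤ 1 / 10) (hlam : 0 < lam)
    (hN : 0 < N) (hC : 0 ≤ C) (hm0 : 0 < m0) (hσ0 : 0 < σ0) (hu : 0 < u)
    (hv : 1 ≤ v) (hK : N ^ (1 + a) * σ0 * m0 ^ 3 ≤ K)
    (hR : u ^ p * v ^ (q + 1) * K ≤ lam * R) (hR2 : R ≤ C * (N * (u * σ0) * (v * m0))) :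
    N ^ a * m0 ^ 2 * v ^ q ≤ lam * C * u ^ (1 - p) := by
  have hup : 0 < u ^ p := Real.rpow_pos_of_pos hu _
  have h1 : u ^ p * v ^ (q + 1) * (N ^ (1 + a) * σ0 * m0 ^ 3) ≤
      lam * (C * (N * (u * σ0) * (v * m0))) :=
    (mul_le_mul_of_nonneg_left hK (by positivity)).trans
      (hR.trans (mul_le_mul_of_nonneg_left hR2 hlam.le))
  have e1 : u = u ^ (1 - p) * u ^ p := by
    rw [← Real.rpow_add hu]; simp
  have e2 : N ^ (1 + a) = N * N ^ a := by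
    rw [Real.rpow_add hN, Real.rpow_one]
  have e3 : u ^ p * v ^ (q + 1) * (N ^ (1 + a) * σ0 * m0 ^ 3) =
      u ^ p * v * N * σ0 * m0 * (N ^ a * m0 ^ 2 * v ^ q) := by rw [e2]; ring
  have e4 : lam * (C * (N * (u * σ0) * (v * m0))) =
      u ^ p * v * N * σ0 * m0 * (lam * C * u ^ (1 - p)) := by
    conv_lhs => rw [e1]
    ring
  rw [e3, e4] at h1
  exact le_of_mul_le_mul_left h1 (by positivity)

/-- `m` is small -/
lemma uv_v {N c C L u v p : ℝ} {q : ℕ} (hn1 : 1 ≤ N) (hv : 0 < v) (hLC : 0 ≤ L * C)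
    (k4 : N ^ (-(1 / 3) : ℝ) * v ^ q ≤ L * C * u ^ (1 - p)) (hu1p : u ^ (1 - p) ≤ 1)
    (t2 : L * C * 2 ^ q < N ^ (c * q - 1 / 3)) : 2 * v ≤ N ^ c := by
  have hn0 : 0 < N := by linarith
  by_contra hcon
  push Not at hcon
  have h1 : (N ^ c) ^ q ≤ (2 * v) ^ q :=
    pow_le_pow_left₀ (Real.rpow_nonneg hn0.le _) hcon.le q
  have h2 : v ^ q ≤ L * C * N ^ (1 / 3 : ℝ) := by
    have h3 : N ^ (-(1 / 3) : ℝ) * v ^ q ≤ L * C * 1 :=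
      k4.trans (mul_le_mul_of_nonneg_left hu1p hLC)
    have h4 : N ^ (1 / 3 : ℝ) * N ^ (-(1 / 3) : ℝ) = 1 := by
      rw [← Real.rpow_add hn0]; norm_num
    have h5 := mul_le_mul_of_nonneg_left h3 (Real.rpow_nonneg hn0.le (1 / 3 : ℝ))
    calc v ^ q = N ^ (1 / 3 : ℝ) * N ^ (-(1 / 3) : ℝ) * v ^ q := by rw [h4, one_mul]
      _ = N ^ (1 / 3 : ℝ) * (N ^ (-(1 / 3) : ℝ) * v ^ q) := by ring
      _ ≤ N ^ (1 / 3 : ℝ) * (L * C * 1) := h5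
      _ = _ := by ring
  have e1 : (N ^ c) ^ q = N ^ (c * q - 1 / 3) * N ^ (1 / 3 : ℝ) := by
    rw [← Real.rpow_natCast, ← Real.rpow_mul hn0.le, ← Real.rpow_add hn0]
    congr 1; ring
  rw [e1, mul_pow] at h1
  have h6 : L * C * 2 ^ q * N ^ (1 / 3 : ℝ) < N ^ (c * q - 1 / 3) * N ^ (1 / 3 : ℝ) :=
    mul_lt_mul_of_pos_right t2 (Real.rpow_pos_of_pos hn0 _)
  have h7 : 2 ^ q * v ^ q ≤ 2 ^ q * (L * C * N ^ (1 / 3 : ℝ)) :=
    mul_le_mul_of_nonneg_left h2 (by positivity)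
  have h8 : (2 : ℝ) ^ q * (L * C * N ^ (1 / 3 : ℝ)) = L * C * 2 ^ q * N ^ (1 / 3 : ℝ) := by
    ring
  linarith

/-- `σ` is not too short -/
lemma uv_u {N C L u v p : ℝ} {q : ℕ} (hn1 : 1 ≤ N) (hu0 : 0 < u) (hv : 1 ≤ v)
    (hLC : 0 ≤ L * C) (hp : p ≤ 1 / 10)
    (k4 : N ^ (-(1 / 3) : ℝ) * v ^ q ≤ L * C * u ^ (1 - p)) (t3 : L * C < N ^ (2 / 75 : ℝ)) :
    N ^ (-(2 / 5) : ℝ) ≤ u := by
  have hn0 : 0 < N := by linarith
  by_contra hcon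
  push Not at hcon
  have h1 : u ^ (1 - p) ≤ (N ^ (-(2 / 5) : ℝ)) ^ (1 - p) :=
    Real.rpow_le_rpow hu0.le hcon.le (by linarith)
  have h2 : (N ^ (-(2 / 5) : ℝ)) ^ (1 - p) ≤ N ^ (-(9 / 25) : ℝ) := by
    rw [← Real.rpow_mul hn0.le]
    exact Real.rpow_le_rpow_of_exponent_le hn1 (by nlinarith)
  have h3 : N ^ (-(1 / 3) : ℝ) ≤ L * C * N ^ (-(9 / 25) : ℝ) := by
    calc N ^ (-(1 / 3) : ℝ) = N ^ (-(1 / 3) : ℝ) * 1 := (mul_one _).symm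
      _ ≤ N ^ (-(1 / 3) : ℝ) * v ^ q :=
          mul_le_mul_of_nonneg_left (one_le_pow₀ hv) (Real.rpow_nonneg hn0.le _)
      _ ≤ _ := k4.trans (mul_le_mul_of_nonneg_left (h1.trans h2) hLC)
  have h4 : N ^ (-(1 / 3) : ℝ) = N ^ (2 / 75 : ℝ) * N ^ (-(9 / 25) : ℝ) := by
    rw [← Real.rpow_add hn0]; norm_num
  rw [h4] at h3
  have h5 := le_of_mul_le_mul_right h3 (Real.rpow_pos_of_pos hn0 _)
  linarith

/-- the functional is large -/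
lemma uv_size {N L u v p a e w κ m0 σ0 : ℝ} {q : ℕ} (hn1 : 1 ≤ N) (hu0 : 0 < u) (hv : 1 ≤ v)
    (hp0 : 0 ≤ p) (hm0 : 0 < m0) (b1 : N ^ (-(1 / 6) + e) ≤ m0) (b3 : N ^ (-w) * m0 ^ 2 ≤ σ0)
    (k6 : N ^ (-(2 / 5) : ℝ) ≤ u) (t4 : L < N ^ (5 * e + a - w - p - κ)) :
    L * N ^ (1 / 6 + κ) ≤ u ^ p * v ^ (q + 1) * (N ^ (1 + a) * σ0 * m0 ^ 3) := by
  have hn0 : 0 < N := by linarith
  have h2 : N ^ (-(2 / 5) * p) ≤ u ^ p := by
    rw [Real.rpow_mul hn0.le]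
    exact Real.rpow_le_rpow (Real.rpow_nonneg hn0.le _) k6 hp0
  have h2' : N ^ (-p) ≤ u ^ p :=
    (Real.rpow_le_rpow_of_exponent_le hn1 (by nlinarith)).trans h2
  have h3 : (1 : ℝ) ≤ v ^ (q + 1) := one_le_pow₀ hv
  have h4 : N ^ (-w) * m0 ^ 5 ≤ σ0 * m0 ^ 3 := by
    have := mul_le_mul_of_nonneg_right b3 (show 0 ≤ m0 ^ 3 by positivity)
    refine le_trans (le_of_eq ?_) this
    ring
  have h5 : N ^ (5 * (-(1 / 6) + e)) ≤ m0 ^ 5 := by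
    have := pow_le_pow_left₀ (Real.rpow_nonneg hn0.le _) b1 5
    refine le_trans (le_of_eq ?_) this
    rw [← Real.rpow_natCast, ← Real.rpow_mul hn0.le]
    congr 1; push_cast; ring
  calc L * N ^ (1 / 6 + κ) ≤ N ^ (5 * e + a - w - p - κ) * N ^ (1 / 6 + κ) :=
        mul_le_mul_of_nonneg_right t4.le (Real.rpow_nonneg hn0.le _)
    _ = N ^ (-p) * 1 * (N ^ (1 + a) * (N ^ (-w) * N ^ (5 * (-(1 / 6) + e)))) := by
        rw [mul_one, ← Real.rpow_add hn0, ← Real.rpow_add hn0, ← Real.rpow_add hn0,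
          ← Real.rpow_add hn0]
        congr 1; ring
    _ ≤ u ^ p * v ^ (q + 1) * (N ^ (1 + a) * (N ^ (-w) * m0 ^ 5)) := by gcongr
    _ ≤ u ^ p * v ^ (q + 1) * (N ^ (1 + a) * (σ0 * m0 ^ 3)) := by gcongr
    _ = _ := by ring

/-- the functional is larger than the error of the row -/
lemma uv_half {N L u v p a e w κ m0 σ0 m σ : ℝ} {q : ℕ} (hn1 : 1 ≤ N) (hL : 0 < L) (hu0 : 0 < u)
    (hu1 : u ≤ 1) (hv1 : 1 ≤ v) (hp : p ≤ 1 / 10) (hm0 : 0 < m0) (hσ0 : 0 < σ0)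
    (b1 : N ^ (-(1 / 6) + e) ≤ m0) (b3 : N ^ (-w) * m0 ^ 2 ≤ σ0) (eσ : σ = u * σ0)
    (r6 : m ≤ 2 * v * m0) (t5 : 2 * L < N ^ (3 * e + a - w / 2 - κ)) :
    L * (N ^ κ * (m * √(N * σ))) ≤ u ^ p * v ^ (q + 1) * (N ^ (1 + a) * σ0 * m0 ^ 3) := by
  have hn0 : 0 < N := by linarith
  have hv0 : 0 < v := by linarith
  have hsu : √u ≤ u ^ p := by
    rw [Real.sqrt_eq_rpow]
    exact Real.rpow_le_rpow_of_exponent_ge hu0 hu1 (by linarith)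
  have hvv : v ≤ v ^ (q + 1) := by
    have := pow_le_pow_right₀ hv1 (show 1 ≤ q + 1 by omega)
    rwa [pow_one] at this
  have hs0 : N ^ (-(w / 2)) * m0 ≤ √σ0 := by
    refine Real.le_sqrt_of_sq_le ?_
    refine le_trans (le_of_eq ?_) b3
    rw [mul_pow, ← Real.rpow_natCast, ← Real.rpow_mul hn0.le]
    congr 2; push_cast; ring
  have hm3 : N ^ (3 * (-(1 / 6) + e)) ≤ m0 ^ 3 := by
    have := pow_le_pow_left₀ (Real.rpow_nonneg hn0.le _) b1 3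
    refine le_trans (le_of_eq ?_) this
    rw [← Real.rpow_natCast, ← Real.rpow_mul hn0.le]
    congr 1; push_cast; ring
  have hs00 : 0 ≤ √σ0 := Real.sqrt_nonneg _
  have hsu0 : 0 ≤ √u := Real.sqrt_nonneg _
  have e1 : √(N * σ) = N ^ (1 / 2 : ℝ) * √u * √σ0 := by
    rw [eσ, Real.sqrt_mul hn0.le, Real.sqrt_mul hu0.le, Real.sqrt_eq_rpow N]
    ring
  have e2 : √σ0 * √σ0 = σ0 := Real.mul_self_sqrt hσ0.le
  have hNκ : 0 ≤ N ^ κ := Real.rpow_nonneg hn0.le _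
  have hNa' : 0 ≤ N ^ (1 + a) := Real.rpow_nonneg hn0.le _
  have h1 : 2 * L * N ^ κ * N ^ (1 / 2 : ℝ) ≤ N ^ (1 + a) * √σ0 * m0 ^ 2 := by
    calc 2 * L * N ^ κ * N ^ (1 / 2 : ℝ)
        ≤ N ^ (3 * e + a - w / 2 - κ) * N ^ κ * N ^ (1 / 2 : ℝ) :=
          mul_le_mul_of_nonneg_right (mul_le_mul_of_nonneg_right t5.le
            (Real.rpow_nonneg hn0.le _)) (Real.rpow_nonneg hn0.le _)
      _ = N ^ (1 + a) * (N ^ (-(w / 2)) * N ^ (3 * (-(1 / 6) + e))) := by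
          rw [← Real.rpow_add hn0, ← Real.rpow_add hn0, ← Real.rpow_add hn0,
            ← Real.rpow_add hn0]
          congr 1; ring
      _ ≤ N ^ (1 + a) * (N ^ (-(w / 2)) * m0 ^ 3) := by gcongr
      _ = N ^ (1 + a) * (N ^ (-(w / 2)) * m0) * m0 ^ 2 := by ring
      _ ≤ N ^ (1 + a) * √σ0 * m0 ^ 2 := by gcongr
  calc L * (N ^ κ * (m * √(N * σ)))
      ≤ L * (N ^ κ * (2 * v * m0 * √(N * σ))) := by gcongr
    _ = √u * v * m0 * √σ0 * (2 * L * N ^ κ * N ^ (1 / 2 : ℝ)) := by rw [e1]; ring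
    _ ≤ √u * v * m0 * √σ0 * (N ^ (1 + a) * √σ0 * m0 ^ 2) := by gcongr
    _ = √u * v * (N ^ (1 + a) * (√σ0 * √σ0) * m0 ^ 3) := by ring
    _ = √u * v * (N ^ (1 + a) * σ0 * m0 ^ 3) := by rw [e2]
    _ ≤ u ^ p * v ^ (q + 1) * (N ^ (1 + a) * σ0 * m0 ^ 3) := by gcongr

/-- the bound fails also at the maximiser -/
lemma uv_viol {N L lam u v p a δ m0 σ0 m σ m1 K R R' : ℝ} {q : ℕ} (hn0 : 0 < N)
    (hu0 : 0 < u) (hu1 : u ≤ 1) (hv1 : 1 ≤ v) (hp : p ≤ 1 / 10) (hq : 3 ≤ q + 1) (hm0 : 0 < m0)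
    (hσ0 : 0 < σ0) (hδ0 : 0 < δ) (hL : 0 ≤ L) (eσ : σ = u * σ0) (em : m1 = v * m0) (hm : 0 < m)
    (r5 : m ≤ (1 + δ) * m1) (b5 : N ^ (1 + a) * σ0 * m0 ^ 3 ≤ K)
    (k1 : u ^ p * v ^ (q + 1) * K ≤ L * R) (hRD : R ≤ R') (hR' : 0 ≤ R')
    (t1 : (1 + δ) ^ (q + 1) * L ≤ lam) : N ^ (1 + a) * σ * m ^ 3 ≤ lam * R' := by
  have hup : 0 < u ^ p := Real.rpow_pos_of_pos hu0 _
  have hv0 : 0 < v := by linarith
  have hNa' : 0 < N ^ (1 + a) := Real.rpow_pos_of_pos hn0 _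
  have h1 : u * v ^ 3 ≤ u ^ p * v ^ (q + 1) := by
    have h2 : u ≤ u ^ p := by
      have := Real.rpow_le_rpow_of_exponent_ge hu0 hu1 (show p ≤ 1 by linarith)
      rwa [Real.rpow_one] at this
    exact mul_le_mul h2 (pow_le_pow_right₀ hv1 hq) (by positivity) hup.le
  have h3 : N ^ (1 + a) * σ * m1 ^ 3 ≤ L * R' := by
    calc N ^ (1 + a) * σ * m1 ^ 3 = u * v ^ 3 * (N ^ (1 + a) * σ0 * m0 ^ 3) := by
          rw [eσ, em]; ring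
      _ ≤ u ^ p * v ^ (q + 1) * (N ^ (1 + a) * σ0 * m0 ^ 3) :=
          mul_le_mul_of_nonneg_right h1 (by positivity)
      _ ≤ u ^ p * v ^ (q + 1) * K := mul_le_mul_of_nonneg_left b5 (by positivity)
      _ ≤ L * R := k1
      _ ≤ L * R' := mul_le_mul_of_nonneg_left hRD hL
  have h4 : m ^ 3 ≤ (1 + δ) ^ (q + 1) * m1 ^ 3 := by
    have hm1 : 0 < m1 := by rw [em]; positivity
    calc m ^ 3 ≤ ((1 + δ) * m1) ^ 3 := pow_le_pow_left₀ hm.le r5 3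
      _ = (1 + δ) ^ 3 * m1 ^ 3 := by ring
      _ ≤ (1 + δ) ^ (q + 1) * m1 ^ 3 := by
          refine mul_le_mul_of_nonneg_right ?_ (by positivity)
          exact pow_le_pow_right₀ (by linarith) hq
  have hσ : 0 < σ := by rw [eσ]; positivity
  calc N ^ (1 + a) * σ * m ^ 3 ≤ N ^ (1 + a) * σ * ((1 + δ) ^ (q + 1) * m1 ^ 3) :=
        mul_le_mul_of_nonneg_left h4 (by positivity)
    _ = (1 + δ) ^ (q + 1) * (N ^ (1 + a) * σ * m1 ^ 3) := by ring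
    _ ≤ (1 + δ) ^ (q + 1) * (L * R') := mul_le_mul_of_nonneg_left h3 (by positivity)
    _ = (1 + δ) ^ (q + 1) * L * R' := by ring
    _ ≤ lam * R' := mul_le_mul_of_nonneg_right t1 hR'

/-- **The maximiser with its numbers**, before regularity. -/
theorem kpt_max {β : ℝ} {e b c κ a p L w : ℝ} {q n : ℕ} (he : 0 ≤ e) (ha : 0 ≤ a)
    (hp0 : 0 ≤ p) (hp : p ≤ 1 / 10) (hb : 0 ≤ b) (hc : 0 ≤ c)
    (hL : 1 < L) (hn : 0 < n) (hn1 : (1 : ℝ) ≤ n)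
    (t2 : L * (β ^ 2 / 4) * 2 ^ q < (n : ℝ) ^ (c * q - 1 / 3))
    (t3 : L * (β ^ 2 / 4) < (n : ℝ) ^ (2 / 75 : ℝ))
    (t4 : L < (n : ℝ) ^ (5 * e + a - w - p - κ))
    {m0 σ0 : ℝ} (b1 : (n : ℝ) ^ (-(1 / 6) + e) ≤ m0) (b2 : m0 ≤ (n : ℝ) ^ (-(b + 2 * c)))
    (b3 : (n : ℝ) ^ (-w) * m0 ^ 2 ≤ σ0) (b4 : σ0 ≤ 1)
    (b5 : (n : ℝ) ^ (1 + a) * σ0 * m0 ^ 3 < Dn n β m0 σ0) :
    ∃ m1 σ u v, m0 ≤ m1 ∧ m1 ≤ (n : ℝ) ^ (-b) ∧ 0 < σ ∧ σ ≤ σ0 ∧ 0 < u ∧ u ≤ 1 ∧ 1 ≤ v ∧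
      σ = u * σ0 ∧ m1 = v * m0 ∧ 2 * v ≤ (n : ℝ) ^ c ∧ (n : ℝ) ^ (-(2 / 5) : ℝ) ≤ u ∧
      u ^ p * v ^ (q + 1) * Dn n β m0 σ0 ≤ L * Dn n β m1 σ ∧ 0 < Dn n β m1 σ ∧
      (n : ℝ) ^ (1 / 6 + κ) ≤ Dn n β m1 σ ∧
      ∀ m' σ', m0 ≤ m' → m' ≤ (n : ℝ) ^ (-b) → 0 < σ' → σ' ≤ σ0 →
        Dn n β m' σ' ≤ L * (σ' / σ) ^ p * (m' / m1) ^ (q + 1) * Dn n β m1 σ := by
  have hn0 : (0 : ℝ) < n := by linarith
  have hm0 : 0 < m0 := (Real.rpow_pos_of_pos hn0 _).trans_le b1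
  have hσ0 : 0 < σ0 := (mul_pos (Real.rpow_pos_of_pos hn0 _) (by positivity)).trans_le b3
  have hM : m0 ≤ (n : ℝ) ^ (-b) :=
    b2.trans (Real.rpow_le_rpow_of_exponent_le hn1 (by linarith))
  have hK0 : 0 < (n : ℝ) ^ (1 + a) * σ0 * m0 ^ 3 := by
    have := Real.rpow_pos_of_pos hn0 (1 + a)
    positivity
  obtain ⟨m1, σ, g1, g2, g3, g4, g5, g6⟩ := max_gen (D := Dn n β) (C := β ^ 2 / 4 * n) (p := p)
    (lam := L) (M := (n : ℝ) ^ (-b)) (q := q + 1) (by linarith) hL hm0 hM hσ0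
    (fun m σ r1 r2 r3 r4 => by
      have := Dn_le hn β (hm0.trans_le r1) r3.le (r4.trans b4)
      refine this.trans (le_of_eq ?_)
      ring) (hK0.trans b5)
  have hm1 : 0 < m1 := hm0.trans_le g1
  obtain ⟨u, hu⟩ : ∃ u, u = σ / σ0 := ⟨_, rfl⟩
  obtain ⟨v, hv⟩ : ∃ v, v = m1 / m0 := ⟨_, rfl⟩
  have eσ : σ = u * σ0 := by rw [hu]; field_simp
  have em : m1 = v * m0 := by rw [hv]; field_simp
  have hu0 : 0 < u := by rw [hu]; positivity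
  have hu1 : u ≤ 1 := by rw [hu]; exact (div_le_one hσ0).2 g4
  have hv1 : 1 ≤ v := by rw [hv]; exact (one_le_div hm0).2 g1
  have hv0 : 0 < v := by linarith
  have hup : 0 < u ^ p := Real.rpow_pos_of_pos hu0 _
  have hL0 : 0 < L := by linarith
  have k0 := g6 m0 σ0 le_rfl hM hσ0 le_rfl
  have k1 : u ^ p * v ^ (q + 1) * Dn n β m0 σ0 ≤ L * Dn n β m1 σ := by
    have e1 : (σ0 / σ) ^ p = (u ^ p)⁻¹ := by
      rw [← Real.inv_rpow hu0.le, hu, inv_div]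
    have e2 : (m0 / m1) ^ (q + 1) = (v ^ (q + 1))⁻¹ := by
      rw [← inv_pow, hv, inv_div]
    rw [e1, e2] at k0
    have h7 := mul_le_mul_of_nonneg_left k0 (show 0 ≤ u ^ p * v ^ (q + 1) by positivity)
    refine h7.trans (le_of_eq ?_)
    field_simp
  have k2 : Dn n β m1 σ ≤ β ^ 2 / 4 * (n * (u * σ0) * (v * m0)) := by
    rw [← eσ, ← em]
    exact Dn_le hn β hm1 g3.le (g4.trans b4)
  have k3 := max_num (q := q) hp hL0 hn0 (show 0 ≤ β ^ 2 / 4 by positivity) hm0 hσ0 hu0 hv1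
    b5.le k1 k2
  have hNa : 1 ≤ (n : ℝ) ^ a := Real.one_le_rpow hn1 ha
  have hm2 : (n : ℝ) ^ (-(1 / 3) : ℝ) ≤ m0 ^ 2 := by
    have h1 : (n : ℝ) ^ (-(1 / 6) : ℝ) ≤ m0 :=
      (Real.rpow_le_rpow_of_exponent_le hn1 (by linarith)).trans b1
    have h2 := pow_le_pow_left₀ (Real.rpow_nonneg hn0.le _) h1 2
    refine le_trans (le_of_eq ?_) h2
    rw [← Real.rpow_natCast, ← Real.rpow_mul hn0.le]
    norm_num
  have k4 : (n : ℝ) ^ (-(1 / 3) : ℝ) * v ^ q ≤ L * (β ^ 2 / 4) * u ^ (1 - p) := by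
    refine le_trans ?_ k3
    refine mul_le_mul_of_nonneg_right ?_ (by positivity)
    calc (n : ℝ) ^ (-(1 / 3) : ℝ) ≤ m0 ^ 2 := hm2
      _ = 1 * m0 ^ 2 := (one_mul _).symm
      _ ≤ (n : ℝ) ^ a * m0 ^ 2 := mul_le_mul_of_nonneg_right hNa (by positivity)
  have hu1p : u ^ (1 - p) ≤ 1 := Real.rpow_le_one hu0.le hu1 (by linarith)
  have hLb : 0 ≤ L * (β ^ 2 / 4) := by positivity
  have k5 := uv_v hn1 hv0 hLb k4 hu1p t2
  have k6 := uv_u hn1 hu0 hv1 hLb hp k4 t3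
  have k7 := (uv_size (q := q) hn1 hu0 hv1 hp0 hm0 b1 b3 k6 t4).trans
    ((mul_le_mul_of_nonneg_left b5.le (by positivity)).trans k1)
  exact ⟨m1, σ, u, v, g1, g2, g3, g4, hu0, hu1, hv1, eσ, em, k5, k6, k1, g5,
    le_of_mul_le_mul_left k7 hL0, g6⟩

end Vale.Agent.P146.H522
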