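import Vale.Agent.P146.H522.MaxPt

/-!
P146, lower side: `ub_of_krow`, the bound `D(m, σ) ≤ n^(1+a) σ m³` for all short windows from the
row at the points `KPt`.
-/

open MeasureTheory ProbabilityTheory Filter Topology

namespace Vale.Agent.P146.H522

open Vale.Agent.P157.Lv Vale.Agent.P146.H425 Vale.Agent.P146.H332 Vale.Agent.P146.H325
open Vale.Agent.P146.R1 Vale.Agent.P146.H767 Vale.Agent.P146.H432
open Vale.Agent.P146.H946 (Dz Hz)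

set_option linter.unusedSectionVars false

/-- the short window is not too short -/
lemma s_lo_num {N w m0 σ0 u σ : ℝ} (hn1 : 1 ≤ N) (hw : w ≤ 1 / 4)
    (b1 : N ^ (-(1 / 6) : ℝ) ≤ m0) (b3 : N ^ (-w) * m0 ^ 2 ≤ σ0) (hu0 : 0 < u)
    (k6 : N ^ (-(2 / 5) : ℝ) ≤ u) (eσ : σ = u * σ0) : N ^ (-(1 : ℝ)) ≤ σ := by
  have hn0 : 0 < N := by linarith
  have hm2 : N ^ (-(1 / 3) : ℝ) ≤ m0 ^ 2 := by
    have h2 := pow_le_pow_left₀ (Real.rpow_nonneg hn0.le _) b1 2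
    refine le_trans (le_of_eq ?_) h2
    rw [← Real.rpow_natCast, ← Real.rpow_mul hn0.le]
    norm_num
  have hN3 : 0 ≤ N ^ (-(1 / 3) : ℝ) := Real.rpow_nonneg hn0.le _
  have hN4 : 0 ≤ N ^ (-(1 / 4) : ℝ) := Real.rpow_nonneg hn0.le _
  rw [eσ]
  have h1 : N ^ (-(1 / 4) : ℝ) * N ^ (-(1 / 3) : ℝ) ≤ σ0 := by
    refine le_trans ?_ b3
    exact mul_le_mul (Real.rpow_le_rpow_of_exponent_le hn1 (by linarith)) hm2 hN3
      (Real.rpow_nonneg hn0.le _)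
  calc N ^ (-(1 : ℝ)) ≤ N ^ (-(2 / 5) + (-(1 / 4) + -(1 / 3)) : ℝ) :=
        Real.rpow_le_rpow_of_exponent_le hn1 (by norm_num)
    _ = N ^ (-(2 / 5) : ℝ) * (N ^ (-(1 / 4) : ℝ) * N ^ (-(1 / 3) : ℝ)) := by
        rw [Real.rpow_add hn0, Real.rpow_add hn0]
    _ ≤ u * σ0 := mul_le_mul k6 h1 (by positivity) hu0.le

/-- the growth, from the maximiser to the regular point -/
lemma grow_num {L lam δ A m' m m1 K R R' : ℝ} {q : ℕ} (hm1 : 0 < m1) (hm : 0 < m) (hm' : 0 < m')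
    (r5 : m / m1 ≤ 1 + δ) (hA : 0 ≤ A) (hL : 0 ≤ L) (hR : 0 ≤ R) (hRR : R ≤ R')
    (t1 : (1 + δ) ^ (q + 1) * L ≤ lam)
    (h1 : K ≤ L * A * (m' / m1) ^ (q + 1) * R) : K ≤ lam * A * (m' / m) ^ (q + 1) * R' := by
  have hδq : (m / m1) ^ (q + 1) ≤ (1 + δ) ^ (q + 1) :=
    pow_le_pow_left₀ (by positivity) r5 _
  have e1 : (m' / m1) ^ (q + 1) = (m' / m) ^ (q + 1) * (m / m1) ^ (q + 1) := by
    rw [← mul_pow]; congr 1; field_simp
  have hR' : 0 ≤ R' := hR.trans hRR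
  have hδ' : 0 ≤ (1 + δ) ^ (q + 1) := le_trans (by positivity) hδq
  calc K ≤ L * A * (m' / m1) ^ (q + 1) * R := h1
    _ ≤ L * A * ((m' / m) ^ (q + 1) * (1 + δ) ^ (q + 1)) * R' := by
        rw [e1]
        refine mul_le_mul ?_ hRR hR (by positivity)
        exact mul_le_mul_of_nonneg_left (mul_le_mul_of_nonneg_left hδq (by positivity))
          (by positivity)
    _ = (1 + δ) ^ (q + 1) * L * (A * (m' / m) ^ (q + 1) * R') := by ring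
    _ ≤ lam * (A * (m' / m) ^ (q + 1) * R') :=
        mul_le_mul_of_nonneg_right t1 (by positivity)
    _ = lam * A * (m' / m) ^ (q + 1) * R' := by ring

/-- **One violation gives a point.** -/
theorem kpt_of_viol (β : ℝ) {e b c κ a p lam w τ c5 c6 : ℝ} {q : ℕ} (he : 0 ≤ e) (ha : 0 ≤ a)
    (hp0 : 0 ≤ p) (hp : p ≤ 1 / 10) (hq : 3 ≤ q) (hc : 0 < c) (hb : 0 ≤ b)
    (hcq : 1 / 3 < c * ((q : ℝ) - 1)) (hlam : 1 < lam) (hw : w ≤ 1 / 4) (hτ : 0 ≤ τ)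
    (h6 : 0 < c6) (h5 : c6 < c5) (hκ0 : 0 ≤ κ) (hκ : κ < 5 * e + a - w - p)
    (hκ2 : κ < 3 * e + a - w / 2) :
    ∀ᶠ n : ℕ in atTop, ∀ m0 σ0 : ℝ, (n : ℝ) ^ (-(1 / 6) + e) ≤ m0 →
      m0 ≤ (n : ℝ) ^ (-(b + 2 * c)) → (n : ℝ) ^ (-w) * m0 ^ 2 ≤ σ0 → σ0 ≤ (n : ℝ) ^ (-τ) →
      (n : ℝ) ^ (1 + a) * σ0 * m0 ^ 3 < Dn n β m0 σ0 →
      ∃ m σ, KPt n β e b c κ a p lam τ c5 c6 q m σ ∧ m0 ≤ m ∧ m ≤ (n : ℝ) ^ c * m0 ∧ σ ≤ σ0 := by
  obtain ⟨q, rfl⟩ : ∃ q', q = q' + 1 := ⟨q - 1, by omega⟩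
  have hcq' : 1 / 3 < c * q := by push_cast at hcq; linarith
  have hl1 : 1 < (1 + lam) / 2 := by linarith
  have hl2 : (1 + lam) / 2 < lam := by linarith
  have hc1 : 0 < (c5 - c6) / 2 := by linarith
  have hT : Tendsto (fun n : ℕ => (1 + (n : ℝ) ^ (-((c5 - c6) / 2))) ^ (q + 1) *
      ((1 + lam) / 2)) atTop (𝓝 ((1 + 0) ^ (q + 1) * ((1 + lam) / 2))) :=
    (((tendsto_rpow_neg_atTop hc1).comp tendsto_natCast_atTop_atTop).const_add 1).pow (q + 1)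
      |>.mul_const _
  have hT' : ∀ᶠ n : ℕ in atTop, (1 + (n : ℝ) ^ (-((c5 - c6) / 2))) ^ (q + 1) *
      ((1 + lam) / 2) < lam := by
    refine hT.eventually (gt_mem_nhds ?_)
    rw [add_zero, one_pow, one_mul]
    exact hl2
  filter_upwards [hT', ev_big (a := c * q - 1 / 3) (C := (1 + lam) / 2 * (β ^ 2 / 4) * 2 ^ q)
    (by linarith), ev_big (a := 2 / 75) (C := (1 + lam) / 2 * (β ^ 2 / 4)) (by norm_num),
    ev_big (a := 5 * e + a - w - p - κ) (C := (1 + lam) / 2) (by linarith),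
    ev_big (a := 3 * e + a - w / 2 - κ) (C := 2 * ((1 + lam) / 2)) (by linarith),
    regular β (c1 := (c5 - c6) / 2) (c5 := c5) (c6 := c6) 1 hc1 h6 (by linarith),
    eventually_ge_atTop 1] with n t1 t2 t3 t4 t5 hreg hn m0 σ0 b1 b2 b3 b4 b5
  have hn1 : (1 : ℝ) ≤ n := by exact_mod_cast hn
  have hn0 : (0 : ℝ) < n := by linarith
  have hσ01 : σ0 ≤ 1 := b4.trans (Real.rpow_le_one_of_one_le_of_nonpos hn1 (by linarith))
  have hm0 : 0 < m0 := (Real.rpow_pos_of_pos hn0 _).trans_le b1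
  have hσ0 : 0 < σ0 := (mul_pos (Real.rpow_pos_of_pos hn0 _) (by positivity)).trans_le b3
  obtain ⟨m1, σ, u, v, g1, g2, g3, g4, hu0, hu1, hv1, eσ, em, k5, k6, k1, g5, hD1, g6⟩ :=
    kpt_max (q := q) (L := (1 + lam) / 2) he ha hp0 hp hb hc.le hl1 hn hn1 t2 t3 t4 b1 b2 b3 hσ01
      b5
  have hm1 : 0 < m1 := hm0.trans_le g1
  have hσ1 : σ ≤ 1 := g4.trans hσ01
  have hM1 : (n : ℝ) ^ (-b) ≤ 1 := Real.rpow_le_one_of_one_le_of_nonpos hn1 (by linarith)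
  have hL0 : 0 < (1 + lam) / 2 := by linarith
  obtain ⟨δ, hδ⟩ : ∃ δ, δ = (n : ℝ) ^ (-((c5 - c6) / 2)) := ⟨_, rfl⟩
  have hδ0 : 0 < δ := by rw [hδ]; exact Real.rpow_pos_of_pos hn0 _
  have hδ1 : δ ≤ 1 := by
    rw [hδ]; exact Real.rpow_le_one_of_one_le_of_nonpos hn1 (by linarith)
  rw [← hδ] at t1
  have hG1 : (n : ℝ) ^ (-(1 : ℝ)) ≤ Gn n β m1 σ := by
    have h1 := Dn_le_Gn hn β hm1 g3.le hσ1
    have h2 : m1 ≤ 1 := g2.trans hM1
    have h3 : 1 ≤ (n : ℝ) ^ (1 / 6 + κ) := Real.one_le_rpow hn1 (by linarith)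
    have h4 : (n : ℝ) ^ (-(1 : ℝ)) ≤ 1 :=
      Real.rpow_le_one_of_one_le_of_nonpos hn1 (by norm_num)
    have h5 := Gn_nonneg n β hm1 g3.le
    have h6 : m1 * Gn n β m1 σ ≤ 1 * Gn n β m1 σ := mul_le_mul_of_nonneg_right h2 h5
    linarith
  obtain ⟨m, r1, r2, r3⟩ := hreg m1 σ hm1 g3.le hσ1 hG1
  rw [← hδ] at r2
  have hc50 : 0 ≤ (n : ℝ) ^ (-c5) := Real.rpow_nonneg hn0.le _
  have hc51 : (n : ℝ) ^ (-c5) ≤ 1 :=
    Real.rpow_le_one_of_one_le_of_nonpos hn1 (by linarith)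
  have hm : 0 < m := by
    by_contra hcon
    push Not at hcon
    have : (1 - (n : ℝ) ^ (-c5)) * m ≤ 0 := mul_nonpos_of_nonneg_of_nonpos (by linarith) hcon
    linarith
  have hcm := mul_nonneg hc50 hm.le
  have r4 : m1 ≤ m := r1.trans (by linarith)
  have r5 : m ≤ (1 + δ) * m1 := le_trans (by linarith) r2
  have r6 : m ≤ 2 * v * m0 := by
    rw [mul_assoc, ← em]
    have : δ * m1 ≤ 1 * m1 := mul_le_mul_of_nonneg_right hδ1 hm1.le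
    linarith
  have r7 : m ≤ (n : ℝ) ^ c * m0 := r6.trans (mul_le_mul_of_nonneg_right k5 hm0.le)
  have r8 : m ≤ (n : ℝ) ^ (-(b + c)) := by
    refine r7.trans ((mul_le_mul_of_nonneg_left b2 (Real.rpow_nonneg hn0.le _)).trans
      (le_of_eq ?_))
    rw [← Real.rpow_add hn0]
    congr 1; ring
  have hRD : Dn n β m1 σ ≤ Dn n β m σ := Dn_mono n β hm1 r4 g3.le hσ1
  have hD0 : 0 < Dn n β m σ := g5.trans_le hRD
  have hN6 : (n : ℝ) ^ (-(1 / 6) : ℝ) ≤ m0 :=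
    (Real.rpow_le_rpow_of_exponent_le hn1 (by linarith)).trans b1
  refine ⟨m, σ, ⟨b1.trans (g1.trans r4), r8, s_lo_num hn1 hw hN6 b3 hu0 k6 eσ, g4.trans b4, ?_,
    hD1.trans hRD, ?_, ?_, r3⟩, g1.trans r4, r7, g4⟩
  · exact uv_viol hn0 hu0 hu1 hv1 hp hq hm0 hσ0 hδ0 hL0.le eσ em hm r5 b5.le k1 hRD hD0.le t1.le
  · have h1 := uv_half (q := q) hn1 hL0 hu0 hu1 hv1 hp hm0 hσ0 b1 b3 eσ r6 t5
    have hu : 0 ≤ u ^ p * v ^ (q + 1) :=
      mul_nonneg (Real.rpow_nonneg hu0.le _) (pow_nonneg (by linarith) _)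
    have h2 := h1.trans ((mul_le_mul_of_nonneg_left b5.le hu).trans
      (k1.trans (mul_le_mul_of_nonneg_left hRD hL0.le)))
    exact le_of_mul_le_mul_left h2 hL0
  · intro m' σ' q1 q2 q3 q4
    exact grow_num hm1 hm (hm.trans_le q1) ((div_le_iff₀ hm1).2 r5)
      (Real.rpow_nonneg (div_nonneg q3.le g3.le) p) hL0.le g5.le hRD t1.le
      (g6 m' σ' (g1.trans (r4.trans q1)) q2 q3 (q4.trans g4))

/-! ### the contradiction -/

/-- the numbers of the contradiction -/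
lemma kfalse_num {N a a1 a2 κ lam m σ D r : ℝ} (hN : 0 < N) (hlam : 0 < lam) (hm : 0 < m)
    (hσ : 0 < σ) (viol : N ^ (1 + a) * σ * m ^ 3 ≤ lam * D)
    (half : N ^ κ * (m * √(N * σ)) ≤ D) (hD : D ≤ N ^ a1 * (N * σ * m * r ^ 2)) (hr : 0 ≤ r)
    (row : r ^ 2 ≤ N ^ a2 * (m * r + 1 / √(N * σ)))
    (t1 : 4 * lam < N ^ (a - a1 - 2 * a2)) (t2 : 2 < N ^ (κ - a1 - a2)) : False := by
  have hs : 0 < √(N * σ) := Real.sqrt_pos.2 (by positivity)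
  have hss : √(N * σ) ^ 2 = N * σ := Real.sq_sqrt (by positivity)
  generalize √(N * σ) = S at *
  have hA1 : 0 < N ^ a1 := Real.rpow_pos_of_pos hN _
  have hA2 : 0 < N ^ a2 := Real.rpow_pos_of_pos hN _
  rcases le_total (1 / S) (m * r) with h | h
  · -- `r ≤ 2 n^a2 m`
    have h1 : r ^ 2 ≤ N ^ a2 * (2 * (m * r)) :=
      row.trans (mul_le_mul_of_nonneg_left (by linarith) hA2.le)
    have hr0 : 0 < r := by
      rcases hr.eq_or_lt with h0 | h0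
      · rw [← h0, mul_zero] at h
        have : 0 < 1 / S := by positivity
        linarith
      · exact h0
    have h2 : r ≤ N ^ a2 * (2 * m) := by
      have h3 : r * r ≤ N ^ a2 * (2 * m) * r := by nlinarith
      exact le_of_mul_le_mul_right h3 hr0
    have h3 : r ^ 2 ≤ N ^ (2 * a2) * (4 * m ^ 2) := by
      have h4 := pow_le_pow_left₀ hr h2 2
      refine h4.trans (le_of_eq ?_)
      have e : N ^ (2 * a2) = N ^ a2 * N ^ a2 := by rw [← Real.rpow_add hN]; congr 1; ring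
      rw [e]; ring
    have h5 : N ^ (1 + a) * σ * m ^ 3 ≤
        lam * (N ^ a1 * (N * σ * m * (N ^ (2 * a2) * (4 * m ^ 2)))) := by
      refine viol.trans (mul_le_mul_of_nonneg_left (hD.trans ?_) hlam.le)
      refine mul_le_mul_of_nonneg_left ?_ hA1.le
      exact mul_le_mul_of_nonneg_left h3 (by positivity)
    have e1 : N ^ (1 + a) * σ * m ^ 3 =
        N * σ * m ^ 3 * N ^ a1 * N ^ (2 * a2) * N ^ (a - a1 - 2 * a2) := by
      have e2 : N ^ (1 + a) = N * (N ^ a1 * N ^ (2 * a2) * N ^ (a - a1 - 2 * a2)) := by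
        rw [← Real.rpow_add hN, ← Real.rpow_add hN, Real.rpow_add hN, Real.rpow_one]
        congr 2; ring
      rw [e2]; ring
    have e3 : lam * (N ^ a1 * (N * σ * m * (N ^ (2 * a2) * (4 * m ^ 2)))) =
        N * σ * m ^ 3 * N ^ a1 * N ^ (2 * a2) * (4 * lam) := by ring
    rw [e1, e3] at h5
    have hB := Real.rpow_pos_of_pos hN (2 * a2)
    have h6 := le_of_mul_le_mul_left h5 (by positivity)
    linarith
  · have h1 : r ^ 2 ≤ N ^ a2 * (2 * (1 / S)) :=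
      row.trans (mul_le_mul_of_nonneg_left (by linarith) hA2.le)
    have h2 : N ^ κ * (m * S) ≤
        N ^ a1 * (N * σ * m * (N ^ a2 * (2 * (1 / S)))) := by
      refine half.trans (hD.trans ?_)
      refine mul_le_mul_of_nonneg_left ?_ hA1.le
      exact mul_le_mul_of_nonneg_left h1 (by positivity)
    have e1 : N ^ κ = N ^ a1 * N ^ a2 * N ^ (κ - a1 - a2) := by
      rw [← Real.rpow_add hN, ← Real.rpow_add hN]; congr 1; ring
    have e2 : N ^ a1 * (N * σ * m * (N ^ a2 * (2 * (1 / S)))) =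
        N ^ a1 * N ^ a2 * (m * S) * 2 := by
      rw [← hss]; field_simp
    rw [e1, e2] at h2
    have h3 : N ^ a1 * N ^ a2 * (m * S) * N ^ (κ - a1 - a2) ≤
        N ^ a1 * N ^ a2 * (m * S) * 2 := by
      refine le_trans (le_of_eq ?_) h2
      ring
    have h4 := le_of_mul_le_mul_left h3 (by positivity)
    linarith

/-- **The bound for all short windows from the row at the points.** -/
theorem ub_of_krow (β : ℝ) {e b c κ a p lam w τ c5 c6 a1 a2 : ℝ} {q : ℕ} (he : 0 ≤ e)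
    (ha : 0 ≤ a) (hp0 : 0 ≤ p) (hp : p ≤ 1 / 10) (hq : 3 ≤ q) (hc : 0 < c) (hb : 0 ≤ b)
    (hcq : 1 / 3 < c * ((q : ℝ) - 1)) (hlam : 1 < lam) (hw : w ≤ 1 / 4) (hτ : 0 ≤ τ)
    (h6 : 0 < c6) (h5 : c6 < c5) (hκ0 : 0 ≤ κ) (hκ : κ < 5 * e + a - w - p)
    (hκ2 : κ < 3 * e + a - w / 2) (h1 : a1 + 2 * a2 < a) (h2 : a1 + a2 < κ)
    (hK : ∀ᶠ n : ℕ in atTop, ∀ m σ : ℝ, KPt n β e b c κ a p lam τ c5 c6 q m σ →
      ∃ r : ℝ, 0 ≤ r ∧ Dn n β m σ ≤ (n : ℝ) ^ a1 * (n * σ * m * r ^ 2) ∧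
        r ^ 2 ≤ (n : ℝ) ^ a2 * (m * r + 1 / √(n * σ))) :
    ∀ᶠ n : ℕ in atTop, ∀ m σ : ℝ, (n : ℝ) ^ (-(1 / 6) + e) ≤ m →
      m ≤ (n : ℝ) ^ (-(b + 2 * c)) → (n : ℝ) ^ (-w) * m ^ 2 ≤ σ → σ ≤ (n : ℝ) ^ (-τ) →
      Dn n β m σ ≤ (n : ℝ) ^ (1 + a) * σ * m ^ 3 := by
  filter_upwards [hK, kpt_of_viol β he ha hp0 hp hq hc hb hcq hlam hw hτ h6 h5 hκ0 hκ hκ2,
    ev_big (a := a - a1 - 2 * a2) (C := 4 * lam) (by linarith),
    ev_big (a := κ - a1 - a2) (C := 2) (by linarith), eventually_ge_atTop 1] with n k1 k2 t1 t2 hn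
    m0 σ0 b1 b2 b3 b4
  by_contra hcon
  push Not at hcon
  have hn1 : (1 : ℝ) ≤ n := by exact_mod_cast hn
  have hn0 : (0 : ℝ) < n := by linarith
  obtain ⟨m, σ, h, -, -, -⟩ := k2 m0 σ0 b1 b2 b3 b4 hcon
  obtain ⟨r, r1, r2, r3⟩ := k1 m σ h
  exact kfalse_num hn0 (by linarith) ((Real.rpow_pos_of_pos hn0 _).trans_le h.m_lo)
    ((Real.rpow_pos_of_pos hn0 _).trans_le h.s_lo) h.viol h.half r2 r1 r3 t1 t2

end Vale.Agent.P146.H522
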