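import Mathlib

/-!
Numerical lemmas for the rotation estimates.
-/

namespace Vale.Agent.P146.H522

/-! ### numerical lemmas -/

/-- `(2ρ/k²)² A / √Y`-type bound for the radial term -/
lemma num_rad {A ρ T Y x k E2 W S : ℝ} (hA : 1 ≤ A) (hρ : 0 < ρ) (hT : 0 < T) (hx : 0 < x)
    (hk : 0 < k ^ 2) (hY : Y = x ^ 2 * ρ * T) (hYA : 10 ^ 12 * A ^ 20 ≤ Y)
    (hS : S ^ 2 ≤ (A * ρ ^ 2) * (A * ρ / T)) (hW : x * W ≤ S)
    (hE2 : E2 ^ 2 ≤ (2 / k ^ 2) ^ 2 * W) :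
    E2 ≤ 2 * ρ / k ^ 2 / (1000 * A ^ 4) := by
  have hA0 : 0 < A := by linarith
  -- `S ≤ x ρ² / (10^6 A^9)`
  have hS1 : S ≤ x * ρ ^ 2 / (10 ^ 6 * A ^ 9) := by
    have h1 : S ^ 2 ≤ (x * ρ ^ 2 / (10 ^ 6 * A ^ 9)) ^ 2 := by
      refine hS.trans ?_
      have h2 : (A * ρ ^ 2) * (A * ρ / T) = A ^ 2 * x ^ 2 * ρ ^ 4 / Y := by
        rw [hY]; field_simp
      have h3 : (x * ρ ^ 2 / (10 ^ 6 * A ^ 9)) ^ 2 = x ^ 2 * ρ ^ 4 / (10 ^ 12 * A ^ 18) := by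
        rw [div_pow]; ring_nf
      have hYp : 0 < Y := by rw [hY]; positivity
      rw [h2, h3, div_le_div_iff₀ hYp (by positivity)]
      have h4 : A ^ 2 * (10 ^ 12 * A ^ 18) ≤ Y := by nlinarith
      calc A ^ 2 * x ^ 2 * ρ ^ 4 * (10 ^ 12 * A ^ 18)
          = x ^ 2 * ρ ^ 4 * (A ^ 2 * (10 ^ 12 * A ^ 18)) := by ring
        _ ≤ x ^ 2 * ρ ^ 4 * Y := mul_le_mul_of_nonneg_left h4 (by positivity)
    exact le_of_sq_le_sq h1 (by positivity)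
  have hW1 : W ≤ ρ ^ 2 / (10 ^ 6 * A ^ 9) := by
    have h1 : x * W ≤ x * (ρ ^ 2 / (10 ^ 6 * A ^ 9)) := by
      refine (hW.trans hS1).trans (le_of_eq ?_)
      ring
    exact le_of_mul_le_mul_left h1 hx
  have h2 : E2 ^ 2 ≤ (2 * ρ / k ^ 2 / (1000 * A ^ 4)) ^ 2 := by
    refine hE2.trans ?_
    have h3 : (2 * ρ / k ^ 2 / (1000 * A ^ 4)) ^ 2 = (2 / k ^ 2) ^ 2 * (ρ ^ 2 / (10 ^ 6 * A ^ 8)) := by
      rw [div_pow, div_pow, div_pow]; ring_nf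
    rw [h3]
    refine mul_le_mul_of_nonneg_left (hW1.trans ?_) (by positivity)
    refine div_le_div_of_nonneg_left (by positivity) (by positivity) ?_
    have h4 : A ^ 8 ≤ A ^ 9 := pow_le_pow_right₀ hA (by norm_num)
    linarith
  exact le_of_sq_le_sq h2 (by positivity)

/-- bound of the defect terms -/
lemma num_def {A ρ T Y x k E3 : ℝ} (hA : 1 ≤ A) (hρ : 0 < ρ) (hT : 0 < T) (hx : 0 < x)
    (hk : 0 < k ^ 2) (hY : Y = x ^ 2 * ρ * T) (hYA : 10 ^ 12 * A ^ 20 ≤ Y)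
    (hE3 : E3 ^ 2 ≤ 8 / (k ^ 4 * x ^ 2) * (A * ρ / T)) :
    E3 ≤ 2 * ρ / k ^ 2 / (10 ^ 5 * A ^ 4) := by
  have hA0 : 0 < A := by linarith
  have hYp : 0 < Y := by rw [hY]; positivity
  have h2 : E3 ^ 2 ≤ (2 * ρ / k ^ 2 / (10 ^ 5 * A ^ 4)) ^ 2 := by
    refine hE3.trans ?_
    have h1 : 8 / (k ^ 4 * x ^ 2) * (A * ρ / T) = (2 * ρ / k ^ 2) ^ 2 * (2 * A / Y) := by
      rw [hY]
      have e4 : k ^ 4 = (k ^ 2) ^ 2 := by ring
      rw [e4]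
      generalize k ^ 2 = K at *
      field_simp
      ring
    rw [h1, div_pow (2 * ρ / k ^ 2) (10 ^ 5 * A ^ 4), div_eq_mul_inv ((2 * ρ / k ^ 2) ^ 2)]
    refine mul_le_mul_of_nonneg_left ?_ (by positivity)
    rw [inv_eq_one_div, div_le_div_iff₀ hYp (by positivity)]
    have h3 : 2 * A * (10 ^ 5 * A ^ 4) ^ 2 ≤ 10 ^ 12 * A ^ 20 := by
      have h4 : A ^ 9 ≤ A ^ 20 := pow_le_pow_right₀ hA (by norm_num)
      have h5 : 0 < A ^ 9 := by positivity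
      calc 2 * A * (10 ^ 5 * A ^ 4) ^ 2 = 2 * 10 ^ 10 * A ^ 9 := by ring
        _ ≤ 10 ^ 12 * A ^ 9 := by nlinarith
        _ ≤ 10 ^ 12 * A ^ 20 := by nlinarith
    linarith
  exact le_of_sq_le_sq h2 (by positivity)

lemma num_fin {A N E1 E2 E3 E4 P n2 f : ℝ} (hA : 1 ≤ A) (hN : 0 < N)
    (h1 : N / A ≤ E1) (h2 : E2 ≤ N / (1000 * A ^ 4)) (h3 : E3 ≤ N / (10 ^ 5 * A ^ 4))
    (h4 : E4 ≤ N / (10 ^ 5 * A ^ 4)) (hP : 8 * A * (n2 * P) ≤ N)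
    (hf : N / (2 * A ^ 2) * E1 - 18 * (2 * A * N) * E2 - 2 * (2 * A * N) * (E3 + E4) -
      N / (2 * A ^ 2) * n2 * P ≤ f) : N ^ 2 / (4 * A ^ 3) ≤ f := by
  have hA0 : 0 < A := by linarith
  refine le_trans ?_ hf
  have b1 : N ^ 2 / (2 * A ^ 3) ≤ N / (2 * A ^ 2) * E1 := by
    have := mul_le_mul_of_nonneg_left h1 (by positivity : 0 ≤ N / (2 * A ^ 2))
    refine le_trans (le_of_eq ?_) this
    field_simp
  have b2 : 18 * (2 * A * N) * E2 ≤ 36 / 1000 * (N ^ 2 / A ^ 3) := by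
    have := mul_le_mul_of_nonneg_left h2 (by positivity : 0 ≤ 18 * (2 * A * N))
    refine this.trans (le_of_eq ?_)
    field_simp
    ring
  have b3 : 2 * (2 * A * N) * (E3 + E4) ≤ 8 / 10 ^ 5 * (N ^ 2 / A ^ 3) := by
    have := mul_le_mul_of_nonneg_left (add_le_add h3 h4) (by positivity : 0 ≤ 2 * (2 * A * N))
    refine this.trans (le_of_eq ?_)
    field_simp
    ring
  have b4 : N / (2 * A ^ 2) * n2 * P ≤ 1 / 16 * (N ^ 2 / A ^ 3) := by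
    have h5 : n2 * P ≤ N / (8 * A) := by
      rw [le_div_iff₀ (by positivity)]
      linarith
    have := mul_le_mul_of_nonneg_left h5 (by positivity : 0 ≤ N / (2 * A ^ 2))
    refine le_trans (le_of_eq (by ring)) (this.trans (le_of_eq ?_))
    field_simp
    ring
  have e1 : N ^ 2 / (2 * A ^ 3) = 1 / 2 * (N ^ 2 / A ^ 3) := by field_simp
  have e2 : N ^ 2 / (4 * A ^ 3) = 1 / 4 * (N ^ 2 / A ^ 3) := by field_simp
  have h6 : 0 < N ^ 2 / A ^ 3 := by positivity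
  rw [e1] at b1
  rw [e2]
  linarith


end Vale.Agent.P146.H522
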