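import Vale.Agent.P146.H522.Pout2
import Vale.Agent.P146.H325.Fo
import Vale.Agent.P146.H332.CPos

/-!
Macroscopic rotation, in the form of the output `Fo` of the block F: with `A1 = AM s1 (P2 w)`,
`A2 = AM s2 (P3 w)`, `N = NN n β ρ`,

* `po1_fo` : `N² / (2 A²) ≤ En |A1 A2|²`;
* `po2_fo` : if `T ≤ 1/A`, `N² / (4 A³) ≤ En |[A1, A2]|²`.
-/

open MeasureTheory ProbabilityTheory Matrix

namespace Vale.Agent.P146.H522

open Vale.Agent.P157.Lv Vale.Agent.P146.H425 Vale.Agent.P146.H332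
open Vale.Agent.P146.H325 hiding fr_nonneg C2
open Vale.Agent.P146.R1C (Par P0 P1 P2 P3 En Fo NN kk rt kk_NN DC)

set_option linter.unusedSectionVars false
set_option linter.unusedDecidableInType false

variable {n : ℕ} {k x : ℝ} {F : (Pair n → ℝ) → ℝ} {D : Pair n → (Pair n → ℝ) → ℝ}
  {B L β A δ T ρ : ℝ} {q : Par}
  {C : ℝ → (Pair n → ℝ) → Matrix (Fin n) (Fin n) ℝ}
  {DM : ℝ → Pair n → (Pair n → ℝ) → Matrix (Fin n) (Fin n) ℝ}

/-- Matrix functions representing the gradient of the value function, with their derivatives. -/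
structure MR (k x : ℝ) (F : (Pair n → ℝ) → ℝ) (D : Pair n → (Pair n → ℝ) → ℝ)
    (C : ℝ → (Pair n → ℝ) → Matrix (Fin n) (Fin n) ℝ)
    (DM : ℝ → Pair n → (Pair n → ℝ) → Matrix (Fin n) (Fin n) ℝ) : Prop extends
    MRb k x F D C where
  egr : ∀ t, EG fun z => rt DM t z
  sw : ∀ t, 0 < t → ∀ z, dfc (C t z) ≤ 4 / (k ^ 2 * x ^ 2) * rt DM t z
  rad : ∀ t t', 0 < t → t ≤ t' → t' ≤ 1 → ∀ v z : Pair n → ℝ,
    x * R1.cw x t t' F (fun w => (R1.vD v (R1.dd x t' F D) w - R1.vD v (R1.dd x t F D) z) ^ 2) z ≤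
      (∑ e, v e ^ 2) * √(k ^ 2 / 2 * rt DM t z)

lemma rt_nonneg (t : ℝ) (z : Pair n → ℝ) : 0 ≤ rt DM t z :=
  Finset.sum_nonneg fun _ _ => fr_nonneg _

/-- The indicator of `f < c`, as a function. -/
lemma eg_ind_lt {ι : Type} [Fintype ι] {f : (ι → ℝ) → ℝ} (hf : EG f) (c : ℝ) :
    EG fun y => if f y < c then (1 : ℝ) else 0 := by
  refine EG.of_bdd (C := 1) (Measurable.ite ?_ measurable_const measurable_const) fun y => ?_
  · exact measurableSet_lt hf.meas measurable_const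
  · split_ifs <;> simp

lemma eg_ind_gt {ι : Type} [Fintype ι] {f : (ι → ℝ) → ℝ} (hf : EG f) (c : ℝ) :
    EG fun y => if c < f y then (1 : ℝ) else 0 := by
  refine EG.of_bdd (C := 1) (Measurable.ite ?_ measurable_const measurable_const) fun y => ?_
  · exact measurableSet_lt measurable_const hf.meas
  · split_ifs <;> simp

/-- **The radial bound.** -/
theorem MR.radial (h : MR k x F D C DM) (hC : C11 F D B L) (hx : 0 < x) {s1 s2 : ℝ} (h0 : 0 < s1)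
    (h1 : s1 ≤ s2) (hs : s2 ≤ 1) (θ t0 t1 : ℝ) :
    x * R1.Et4 x θ t0 t1 s1 s2 F (fun _ _ z2 z3 => (∑ e, R1.dd x s1 F D e z2 *
      (R1.dd x s2 F D e z3 - R1.dd x s1 F D e z2)) ^ 2) ≤
    R1.Et4 x θ t0 t1 s1 s2 F (fun _ _ z2 _ => R1.sq x s1 F D z2 *
      √(k ^ 2 / 2 * rt DM s1 z2)) := by
  have ed1 : ∀ e, R1.E4 fun _ _ z2 _ => R1.dd x s1 F D e z2 := fun e =>
    R1.E4.of2 (R1.eg_dd hC x s1 e)
  have ed2 : ∀ e, R1.E4 fun _ _ _ z3 => R1.dd x s2 F D e z3 := fun e =>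
    R1.E4.of3 (R1.eg_dd hC x s2 e)
  have eΨ : R1.E4 fun _ _ z2 z3 => (∑ e, R1.dd x s1 F D e z2 *
      (R1.dd x s2 F D e z3 - R1.dd x s1 F D e z2)) ^ 2 := by
    refine R1.E4.pow ?_ 2
    exact EG.sum _ fun e _ => (ed1 e).mul ((ed2 e).sub (ed1 e))
  have eΨ' : R1.E4 fun _ _ z2 _ => R1.sq x s1 F D z2 * √(k ^ 2 / 2 * rt DM s1 z2) :=
    R1.E4.of2 ((eg_sq hC x s1).mul (EG_sqrt ((h.egr s1).const_mul _)))
  rw [← R1.Et4_const_mul]
  refine Et4_le_cond hC hx (eΨ.const_mul x) eΨ' fun z0 z1 z2 => ?_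
  rw [R1.cw_const_mul, R1.cw_const hC hx h1 hs]
  set v : Pair n → ℝ := fun e => R1.dd x s1 F D e z2 with hv
  have h3 := h.rad s1 s2 h0 h1 hs v z2
  have e1 : (fun w => (R1.vD v (R1.dd x s2 F D) w - R1.vD v (R1.dd x s1 F D) z2) ^ 2) =
      fun z3 => (∑ e, R1.dd x s1 F D e z2 *
        (R1.dd x s2 F D e z3 - R1.dd x s1 F D e z2)) ^ 2 := by
    funext w
    unfold R1.vD
    rw [← Finset.sum_sub_distrib]
    congr 1
    exact Finset.sum_congr rfl fun e _ => by rw [hv]; ring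
  rw [e1] at h3
  exact h3

/-! ### numbers -/

lemma num_rad' {A ρ T Y x k E2 W S : ℝ} (hA : 1 ≤ A) (hρ : 0 < ρ) (hT : 0 < T) (hx : 0 < x)
    (hk : 0 < k ^ 2) (hY : Y = x ^ 2 * ρ * T) (hYA : 10 ^ 13 * A ^ 21 ≤ Y)
    (hS : S ^ 2 ≤ (2 * A ^ 2 * ρ ^ 2) * (A * ρ / T)) (hW : x * W ≤ S)
    (hE2 : E2 ^ 2 ≤ (2 / k ^ 2) ^ 2 * W) :
    E2 ≤ 2 * ρ / k ^ 2 / (1000 * A ^ 4) := by
  have hA0 : 0 < A := by linarith
  have hS1 : S ≤ x * ρ ^ 2 / (10 ^ 6 * A ^ 9) := by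
    have h1 : S ^ 2 ≤ (x * ρ ^ 2 / (10 ^ 6 * A ^ 9)) ^ 2 := by
      refine hS.trans ?_
      have h2 : (2 * A ^ 2 * ρ ^ 2) * (A * ρ / T) = 2 * A ^ 3 * x ^ 2 * ρ ^ 4 / Y := by
        rw [hY]; field_simp
      have h3 : (x * ρ ^ 2 / (10 ^ 6 * A ^ 9)) ^ 2 = x ^ 2 * ρ ^ 4 / (10 ^ 12 * A ^ 18) := by
        rw [div_pow]; ring_nf
      have hYp : 0 < Y := by rw [hY]; positivity
      rw [h2, h3, div_le_div_iff₀ hYp (by positivity)]
      have h4 : 2 * A ^ 3 * (10 ^ 12 * A ^ 18) ≤ Y := by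
        have : 0 < A ^ 21 := by positivity
        nlinarith
      calc 2 * A ^ 3 * x ^ 2 * ρ ^ 4 * (10 ^ 12 * A ^ 18)
          = x ^ 2 * ρ ^ 4 * (2 * A ^ 3 * (10 ^ 12 * A ^ 18)) := by ring
        _ ≤ x ^ 2 * ρ ^ 4 * Y := mul_le_mul_of_nonneg_left h4 (by positivity)
    exact le_of_sq_le_sq h1 (by positivity)
  have hW1 : W ≤ ρ ^ 2 / (10 ^ 6 * A ^ 9) := by
    have h1 : x * W ≤ x * (ρ ^ 2 / (10 ^ 6 * A ^ 9)) := by
      refine (hW.trans hS1).trans (le_of_eq ?_)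
      ring
    exact le_of_mul_le_mul_left h1 hx
  have h2 : E2 ^ 2 ≤ (2 * ρ / k ^ 2 / (1000 * A ^ 4)) ^ 2 := by
    refine hE2.trans ?_
    have h3 : (2 * ρ / k ^ 2 / (1000 * A ^ 4)) ^ 2 = (2 / k ^ 2) ^ 2 * (ρ ^ 2 / (10 ^ 6 * A ^ 8)) := by
      rw [div_pow, div_pow, div_pow]; ring_nf
    rw [h3]
    refine mul_le_mul_of_nonneg_left (hW1.trans ?_) (by positivity)
    refine div_le_div_of_nonneg_left (by positivity) (by positivity) ?_
    have h4 : A ^ 8 ≤ A ^ 9 := pow_le_pow_right₀ hA (by norm_num)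
    linarith
  exact le_of_sq_le_sq h2 (by positivity)

section main

variable (h : MR k q.x F D C DM) (hC : C11 F D B L) (hf : Fo n β A δ T ρ q F C DM)
  (hk : k = kk n β)

include hf hk in
lemma NN_k : NN n β ρ = 2 * ρ / k ^ 2 := by
  have h1 := kk_NN hf
  have h2 : kk n β ^ 2 ≠ 0 := by
    intro h0
    rw [h0, zero_mul] at h1
    have := hf.ρ1
    linarith
  rw [hk, eq_div_iff h2, mul_comm]
  exact h1

include h hC hf hk in
/-- **(PO1)** -/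
theorem po1_fo (hA : 2 ≤ A) : NN n β ρ ^ 2 / (2 * A ^ 2) ≤
    En q F (fun w => fr (C q.s1 (P2 q w) * C q.s2 (P3 q w))) := by
  have hx := hf.ok.x0
  have h1 := hf.ok.h12
  have hs := hf.ok.h2
  have hρ : 0 < ρ := by linarith [hf.ρ1]
  have hT := hf.Tp
  have h0s : 0 < q.s1 := by
    have := hf.hs1
    have := hf.ok.h0
    have := hf.ok.h01
    linarith
  refine le_trans ?_ (h.jensen hC hx h1 hs q.θ q.t0 q.t1)
  have hk2 := h.ksq
  have hA0 : 0 < A := by linarith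
  have hNk := NN_k hf hk
  have hN0 := hf.N0
  set N := NN n β ρ with hN
  have e1 : R1.E4 fun _ _ z2 _ => fr (C q.s1 z2 * C q.s1 z2) :=
    R1.E4.of2 (eg_frM (eg_mulM (h.eg q.s1) (h.eg q.s1)))
  have hpt : ∀ z : Pair n → ℝ, (N / A) ^ 2 - (N / A) ^ 2 *
      (if fr (C q.s1 z) < N / A then (1 : ℝ) else 0) -
        4 / (k ^ 2 * q.x ^ 2) * rt DM q.s1 z ≤ fr (C q.s1 z * C q.s1 z) := by
    intro z
    have a1 := h.sw q.s1 h0s z
    unfold dfc at a1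
    have a3 : (N / A) ^ 2 - (N / A) ^ 2 *
      (if fr (C q.s1 z) < N / A then (1 : ℝ) else 0) ≤ fr (C q.s1 z) ^ 2 := by
      split_ifs with hz
      · rw [mul_one, sub_self]; positivity
      · rw [mul_zero, sub_zero]
        push Not at hz
        exact pow_le_pow_left₀ (by positivity) hz 2
    linarith
  have ei : R1.E4 fun _ _ z2 _ => if fr (C q.s1 z2) < N / A then (1 : ℝ) else 0 :=
    R1.E4.of2 (eg_ind_lt (eg_frM (h.eg q.s1)) _)
  have er : R1.E4 fun _ _ z2 _ => rt DM q.s1 z2 := R1.E4.of2 (h.egr q.s1)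
  have hmono := R1.Et4_mono (x := q.x) (θ := q.θ) (t0 := q.t0) (t1 := q.t1) (s1 := q.s1)
    (s2 := q.s2) hC hx (((R1.E4.const _).sub (ei.const_mul _)).sub (er.const_mul _)) e1
    fun _ _ z _ => hpt z
  rw [R1.Et4_sub hC hx ((R1.E4.const _).sub (ei.const_mul _)) (er.const_mul _),
    R1.Et4_sub hC hx (R1.E4.const _) (ei.const_mul _), R1.Et4_const hC hx, R1.Et4_const_mul,
    R1.Et4_const_mul] at hmono
  refine le_trans ?_ hmono
  have hlo : R1.Et4 q.x q.θ q.t0 q.t1 q.s1 q.s2 F (fun _ _ z2 _ =>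
      if fr (C q.s1 z2) < N / A then (1 : ℝ) else 0) ≤ δ := hf.lo2
  have hrt : R1.Et4 q.x q.θ q.t0 q.t1 q.s1 q.s2 F (fun _ _ z2 _ => rt DM q.s1 z2) ≤
      A * N / T := hf.rt2
  have hδ : δ ≤ 1 / 4 := by
    have h5 := hf.δn
    have h6 := hf.n0
    have h7 : (4 : ℝ) ≤ (n : ℝ) ^ 200 := by
      calc (4 : ℝ) ≤ 2 ^ 200 := by norm_num
        _ ≤ _ := pow_le_pow_left₀ (by norm_num) h6 200
    have h8 := mul_le_mul_of_nonneg_right h7 hf.δ0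
    linarith
  have b1 := mul_le_mul_of_nonneg_left (hlo.trans hδ) (by positivity : 0 ≤ (N / A) ^ 2)
  have b2 := mul_le_mul_of_nonneg_left hrt (by positivity : 0 ≤ 4 / (k ^ 2 * q.x ^ 2))
  have hY : 8 * A ^ 3 ≤ q.x ^ 2 * ρ * T := by
    refine le_trans ?_ hf.xrT
    calc 8 * A ^ 3 = 2 ^ 3 * A ^ 3 := by norm_num
      _ ≤ A ^ 3 * A ^ 3 := mul_le_mul_of_nonneg_right (pow_le_pow_left₀ (by norm_num) hA 3)
          (by positivity)
      _ = A ^ 6 := by ring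
      _ ≤ A ^ 40 := pow_le_pow_right₀ (by linarith) (by norm_num)
  have b3 : 4 / (k ^ 2 * q.x ^ 2) * (A * N / T) ≤ 1 / 4 * (N / A) ^ 2 := by
    have hYp : 0 < q.x ^ 2 * ρ * T := by positivity
    have c1 : 4 / (k ^ 2 * q.x ^ 2) * (A * N / T) = N ^ 2 * (2 * A / (q.x ^ 2 * ρ * T)) := by
      rw [hNk]
      generalize k ^ 2 = K at *
      field_simp
      ring
    have c2 : 1 / 4 * (N / A) ^ 2 = N ^ 2 * (1 / (4 * A ^ 2)) := by
      rw [div_pow]; ring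
    rw [c1, c2]
    refine mul_le_mul_of_nonneg_left ?_ (by positivity)
    rw [div_le_div_iff₀ hYp (by positivity)]
    nlinarith
  have b4 : N ^ 2 / (2 * A ^ 2) = 1 / 2 * (N / A) ^ 2 := by rw [div_pow]; ring
  rw [b4]
  linarith

include h hC hf hk in
/-- **(PO2)** -/
theorem po2_fo (hA : 10 ≤ A) (hTA : T ≤ 1 / A) : NN n β ρ ^ 2 / (4 * A ^ 3) ≤
    En q F (fun w => fr (C q.s1 (P2 q w) * C q.s2 (P3 q w) -
      C q.s2 (P3 q w) * C q.s1 (P2 q w))) := by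
  have hx := hf.ok.x0
  have h1 := hf.ok.h12
  have hs := hf.ok.h2
  have h01 := hf.ok.h1
  have hρ : 0 < ρ := by linarith [hf.ρ1]
  have hT := hf.Tp
  have h0s : 0 < q.s1 := by
    have := hf.hs1
    have := hf.ok.h0
    have := hf.ok.h01
    linarith
  have h0s2 : 0 < q.s2 := by linarith
  have hk2 := h.ksq
  have hA0 : 0 < A := by linarith
  have hA1 : 1 ≤ A := by linarith
  have hNk := NN_k hf hk
  have hN0 := hf.N0
  have hk0 : k ≠ 0 := h.k0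
  have hmom := hf.mom hC (f := fun w => fr (C q.s1 (P2 q w)))
    ((R1.E4.of2 (κ := Pair n) (eg_frM (h.eg q.s1))).eg_p q.t0 q.t1 q.s1 q.s2)
    (fun w => fr_nonneg _) (fun w => h.fr_le q.s1 _) hf.up2 2 (by norm_num)
  have hY40 := hf.xrT
  have hup2' := hf.up2
  have hup3' := hf.up3
  have hlo' := hf.lo2
  have hr2' := hf.rt2
  have hr3' := hf.rt3
  have hgr' := hf.gr hTA
  have hN1 : 1 ≤ NN n β ρ := by
    have h3 := hf.β0
    unfold R1C.NN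
    rw [le_div_iff₀ (by positivity)]
    have h5 := hf.ρ1
    have h8 := hf.βn
    have := hf.n0
    nlinarith
  have hAn : 24 * A * ((n : ℝ) ^ 2 * δ) ≤ NN n β ρ := by
    have a1 : A ≤ (n : ℝ) ^ 2 / 2 := by
      have b1 : A ≤ A ^ 40 := le_self_pow₀ hA1 (by norm_num)
      have b2 := hf.ρA
      have b3 := hf.ρn
      have b4 := mul_le_mul_of_nonneg_right hf.βn (Nat.cast_nonneg (α := ℝ) n)
      nlinarith
    have a2 := hf.n0
    have a3 := hf.δ0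
    have a4 : (12 : ℝ) ≤ (n : ℝ) ^ 196 := by
      calc (12 : ℝ) ≤ 2 ^ 196 := by norm_num
        _ ≤ _ := pow_le_pow_left₀ (by norm_num) a2 196
    have a5 := hf.δn
    calc 24 * A * ((n : ℝ) ^ 2 * δ) ≤ 24 * ((n : ℝ) ^ 2 / 2) * ((n : ℝ) ^ 2 * δ) :=
          mul_le_mul_of_nonneg_right (mul_le_mul_of_nonneg_left a1 (by norm_num)) (by positivity)
      _ = 12 * ((n : ℝ) ^ 4 * δ) := by ring
      _ ≤ (n : ℝ) ^ 196 * ((n : ℝ) ^ 4 * δ) := mul_le_mul_of_nonneg_right a4 (by positivity)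
      _ = (n : ℝ) ^ 200 * δ := by ring
      _ ≤ 1 := a5
      _ ≤ NN n β ρ := hN1
  set N := NN n β ρ with hN
  set s1 := q.s1 with hs1
  set s2 := q.s2 with hs2
  set E : R1.Fn4 (Pair n) → ℝ := R1.Et4 q.x q.θ q.t0 q.t1 s1 s2 F with hE
  -- the functions
  set χ1 : (Pair n → ℝ) → ℝ := fun z => if fr (C s1 z) < N / A then (1 : ℝ) else 0 with hχ1
  set χ2 : (Pair n → ℝ) → ℝ := fun z => if A * N < fr (C s1 z) then (1 : ℝ) else 0 with hχ2
  set χ3 : (Pair n → ℝ) → ℝ := fun z => if A * N < fr (C s2 z) then (1 : ℝ) else 0 with hχ3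
  set y : (Pair n → ℝ) → (Pair n → ℝ) → ℝ := fun z2 z3 => ∑ e, R1.dd q.x s1 F D e z2 *
      (R1.dd q.x s2 F D e z3 - R1.dd q.x s1 F D e z2) with hy
  have w1 : E (fun _ _ z2 _ => χ1 z2) ≤ δ := hlo'
  have w2 : E (fun _ _ z2 _ => χ2 z2) ≤ δ := hup2'
  have w3 : E (fun _ _ _ z3 => χ3 z3) ≤ δ := hup3'
  have u1 : E (fun _ _ z2 _ => rt DM s1 z2) ≤ A * N / T := hr2'
  have u2 : E (fun _ _ _ z3 => rt DM s2 z3) ≤ A * N / T := hr3'
  have um : E (fun _ _ z2 _ => fr (C s1 z2) ^ 2) ≤ 2 * (A * N) ^ 2 := hmom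
  have ug : N / A ≤ E (fun _ _ _ z3 => fr (C s2 z3)) - E (fun _ _ z2 _ => fr (C s1 z2)) := hgr'
  have eχ1 : R1.E4 fun _ _ z _ : Pair n → ℝ => χ1 z := R1.E4.of2 (eg_ind_lt (eg_frM (h.eg s1)) _)
  have eχ2 : R1.E4 fun _ _ z _ : Pair n → ℝ => χ2 z := R1.E4.of2 (eg_ind_gt (eg_frM (h.eg s1)) _)
  have eχ3 : R1.E4 fun _ _ _ z : Pair n → ℝ => χ3 z := R1.E4.of3 (eg_ind_gt (eg_frM (h.eg s2)) _)
  have ed1 : ∀ e, R1.E4 fun _ _ z2 _ => R1.dd q.x s1 F D e z2 := fun e =>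
    R1.E4.of2 (R1.eg_dd hC q.x s1 e)
  have ed2 : ∀ e, R1.E4 fun _ _ _ z3 => R1.dd q.x s2 F D e z3 := fun e =>
    R1.E4.of3 (R1.eg_dd hC q.x s2 e)
  have ey : R1.E4 fun _ _ z2 z3 => y z2 z3 :=
    EG.sum _ fun e _ => (ed1 e).mul ((ed2 e).sub (ed1 e))
  have ef1 : R1.E4 fun _ _ z2 _ => fr (C s1 z2) := R1.E4.of2 (eg_frM (h.eg s1))
  have ef2 : R1.E4 fun _ _ _ z3 => fr (C s2 z3) := R1.E4.of3 (eg_frM (h.eg s2))
  have eg_dfc' : ∀ s, EG fun z => dfc (C s z) := fun s => by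
    unfold dfc
    exact ((eg_frM (h.eg s)).pow 2).sub (eg_frM (eg_mulM (h.eg s) (h.eg s)))
  have edf1 : R1.E4 fun _ _ z2 _ => √(dfc (C s1 z2)) := R1.E4.of2 (EG_sqrt (eg_dfc' s1))
  have edf2 : R1.E4 fun _ _ _ z3 => √(dfc (C s2 z3)) := R1.E4.of3 (EG_sqrt (eg_dfc' s2))
  -- pointwise inequality
  have hpt : ∀ z2 z3 : Pair n → ℝ,
      N / (2 * A ^ 2) * (fr (C s2 z3) - fr (C s1 z2)) -
        18 * (2 * A * N) * (2 / k ^ 2 * |y z2 z3|) -
        2 * (2 * A * N) * (√(dfc (C s1 z2)) + √(dfc (C s2 z3))) -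
        N / (2 * A ^ 2) * (n : ℝ) ^ 2 * (χ1 z2 + χ2 z2 + χ3 z3) ≤
      fr (C s1 z2 * C s2 z3 - C s2 z3 * C s1 z2) := by
    intro z2 z3
    have f4 : 2 / k ^ 2 * |y z2 z3| = |ip (C s1 z2) (C s2 z3) - fr (C s1 z2)| := by
      rw [h.ip_sub, abs_mul, abs_of_pos (by positivity : 0 < 2 / k ^ 2)]
    rw [f4]
    have g1 : 0 ≤ χ1 z2 := by simp only [hχ1]; split_ifs <;> norm_num
    have g2 : 0 ≤ χ2 z2 := by simp only [hχ2]; split_ifs <;> norm_num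
    have g3 : 0 ≤ χ3 z3 := by simp only [hχ3]; split_ifs <;> norm_num
    have hc0 : 0 ≤ N / (2 * A ^ 2) := by positivity
    have d1 : 0 ≤ √(dfc (C s1 z2)) := Real.sqrt_nonneg _
    have d2 : 0 ≤ √(dfc (C s2 z3)) := Real.sqrt_nonneg _
    have d3 : 0 ≤ |ip (C s1 z2) (C s2 z3) - fr (C s1 z2)| := abs_nonneg _
    by_cases hgood : χ1 z2 + χ2 z2 + χ3 z3 < 1
    · have k1 : N / A ≤ fr (C s1 z2) := by
        by_contra hcon
        push Not at hcon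
        have : χ1 z2 = 1 := by simp only [hχ1]; rw [if_pos hcon]
        linarith
      have k2 : fr (C s1 z2) ≤ A * N := by
        by_contra hcon
        push Not at hcon
        have : χ2 z2 = 1 := by simp only [hχ2]; rw [if_pos hcon]
        linarith
      have k3 : fr (C s2 z3) ≤ A * N := by
        by_contra hcon
        push Not at hcon
        have : χ3 z3 = 1 := by simp only [hχ3]; rw [if_pos hcon]
        linarith
      have hAN : 0 ≤ A * N := by positivity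
      have l2 : fr (C s1 z2) ≤ 2 * A * N := by linarith
      have l3 : fr (C s2 z3) ≤ 2 * A * N := by linarith
      have l4 : (N / (2 * A ^ 2)) ^ 2 * (2 * A * N) ≤ (N / A) ^ 3 := by
        have e1 : (N / (2 * A ^ 2)) ^ 2 * (2 * A * N) = 1 / 2 * (N / A) ^ 3 := by
          field_simp
        rw [e1]
        have : 0 ≤ (N / A) ^ 3 := by positivity
        linarith
      have key := rot_point (h.psd s1 z2) (h.psd s2 z3) (by positivity : 0 < N / A) hc0 l4 k1 l2 l3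
      have h5 : 0 ≤ N / (2 * A ^ 2) * (n : ℝ) ^ 2 * (χ1 z2 + χ2 z2 + χ3 z3) := by positivity
      linarith
    · push Not at hgood
      have l1 : fr (C s2 z3) - fr (C s1 z2) ≤ (n : ℝ) ^ 2 := by
        have := h.fr_le s2 z3
        have h6 : 0 ≤ fr (C s1 z2) := fr_nonneg _
        linarith
      have l2 : N / (2 * A ^ 2) * (fr (C s2 z3) - fr (C s1 z2)) ≤
          N / (2 * A ^ 2) * (n : ℝ) ^ 2 * (χ1 z2 + χ2 z2 + χ3 z3) := by
        calc N / (2 * A ^ 2) * (fr (C s2 z3) - fr (C s1 z2)) ≤ N / (2 * A ^ 2) * (n : ℝ) ^ 2 :=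
              mul_le_mul_of_nonneg_left l1 hc0
          _ = N / (2 * A ^ 2) * (n : ℝ) ^ 2 * 1 := (mul_one _).symm
          _ ≤ _ := mul_le_mul_of_nonneg_left hgood (by positivity)
      have l3 : 0 ≤ fr (C s1 z2 * C s2 z3 - C s2 z3 * C s1 z2) := fr_nonneg _
      have l4 : 0 ≤ 18 * (2 * A * N) * |ip (C s1 z2) (C s2 z3) - fr (C s1 z2)| := by positivity
      have l5 : 0 ≤ 2 * (2 * A * N) * (√(dfc (C s1 z2)) + √(dfc (C s2 z3))) := by positivity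
      linarith
  -- the expectations
  have eA : R1.E4 fun _ _ z2 z3 => N / (2 * A ^ 2) * (fr (C s2 z3) - fr (C s1 z2)) :=
    (ef2.sub ef1).const_mul _
  have eB : R1.E4 fun _ _ z2 z3 => 18 * (2 * A * N) * (2 / k ^ 2 * |y z2 z3|) :=
    (ey.abs.const_mul _).const_mul _
  have eCC : R1.E4 fun _ _ z2 z3 => 2 * (2 * A * N) * (√(dfc (C s1 z2)) + √(dfc (C s2 z3))) :=
    (edf1.add edf2).const_mul _
  have eD : R1.E4 fun _ _ z2 z3 => N / (2 * A ^ 2) * (n : ℝ) ^ 2 * (χ1 z2 + χ2 z2 + χ3 z3) :=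
    ((eχ1.add eχ2).add eχ3).const_mul _
  have hmono := R1.Et4_mono (x := q.x) (θ := q.θ) (t0 := q.t0) (t1 := q.t1) (s1 := s1) (s2 := s2)
    hC hx (((eA.sub eB).sub eCC).sub eD) (h.e4_comm s1 s2) fun _ _ z2 z3 => hpt z2 z3
  rw [R1.Et4_sub hC hx ((eA.sub eB).sub eCC) eD, R1.Et4_sub hC hx (eA.sub eB) eCC,
    R1.Et4_sub hC hx eA eB] at hmono
  rw [← hE] at hmono
  have vA : E (fun _ _ z2 z3 => N / (2 * A ^ 2) * (fr (C s2 z3) - fr (C s1 z2))) =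
      N / (2 * A ^ 2) * (E (fun _ _ _ z3 => fr (C s2 z3)) - E (fun _ _ z2 _ => fr (C s1 z2))) := by
    rw [hE, R1.Et4_const_mul (Ψ := fun _ _ z2 z3 => fr (C s2 z3) - fr (C s1 z2)),
      R1.Et4_sub hC hx ef2 ef1]
  have vB : E (fun _ _ z2 z3 => 18 * (2 * A * N) * (2 / k ^ 2 * |y z2 z3|)) =
      18 * (2 * A * N) * (2 / k ^ 2 * E (fun _ _ z2 z3 => |y z2 z3|)) := by
    rw [hE, R1.Et4_const_mul (Ψ := fun _ _ z2 z3 => 2 / k ^ 2 * |y z2 z3|),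
      R1.Et4_const_mul (Ψ := fun _ _ z2 z3 => |y z2 z3|)]
  have vC : E (fun _ _ z2 z3 => 2 * (2 * A * N) * (√(dfc (C s1 z2)) + √(dfc (C s2 z3)))) =
      2 * (2 * A * N) * (E (fun _ _ z2 _ => √(dfc (C s1 z2))) +
        E (fun _ _ _ z3 => √(dfc (C s2 z3)))) := by
    rw [hE, R1.Et4_const_mul (Ψ := fun _ _ z2 z3 => √(dfc (C s1 z2)) + √(dfc (C s2 z3))),
      R1.Et4_add hC hx edf1 edf2]
  have vD : E (fun _ _ z2 z3 => N / (2 * A ^ 2) * (n : ℝ) ^ 2 * (χ1 z2 + χ2 z2 + χ3 z3)) =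
      N / (2 * A ^ 2) * (n : ℝ) ^ 2 * (E (fun _ _ z2 _ => χ1 z2) + E (fun _ _ z2 _ => χ2 z2) +
        E (fun _ _ _ z3 => χ3 z3)) := by
    rw [hE, R1.Et4_const_mul (Ψ := fun _ _ z2 z3 => χ1 z2 + χ2 z2 + χ3 z3),
      R1.Et4_add hC hx (eχ1.add eχ2) eχ3, R1.Et4_add hC hx eχ1 eχ2]
  rw [vA, vB, vC, vD] at hmono
  -- Cauchy-Schwarz with the function 1
  have cs1 : ∀ {Ψ : R1.Fn4 (Pair n)}, R1.E4 Ψ →
      E Ψ ^ 2 ≤ E (fun z0 z1 z2 z3 => Ψ z0 z1 z2 z3 ^ 2) := by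
    intro Ψ hΨ
    have := R1.Et4_cs (x := q.x) (θ := q.θ) (t0 := q.t0) (t1 := q.t1) (s1 := s1) (s2 := s2)
      hC hx hΨ (R1.E4.const 1)
    simp only [mul_one, one_pow] at this
    rwa [R1.Et4_const hC hx, mul_one] at this
  -- radial term
  set W : ℝ := E (fun _ _ z2 z3 => y z2 z3 ^ 2) with hW
  set S : ℝ := E (fun _ _ z2 _ => R1.sq q.x s1 F D z2 * √(k ^ 2 / 2 * rt DM s1 z2)) with hSS
  have hrad : q.x * W ≤ S := h.radial hC hx h0s h1 hs q.θ q.t0 q.t1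
  have er1 : R1.E4 fun _ _ z2 _ => rt DM s1 z2 := R1.E4.of2 (h.egr s1)
  have er2 : R1.E4 fun _ _ _ z3 => rt DM s2 z3 := R1.E4.of3 (h.egr s2)
  have esq : R1.E4 fun _ _ z2 _ => R1.sq q.x s1 F D z2 := R1.E4.of2 (eg_sq hC q.x s1)
  have u3 : E (fun _ _ z2 _ => R1.sq q.x s1 F D z2 ^ 2) ≤ 2 * A ^ 2 * ρ ^ 2 := by
    have c1 := R1.Et4_mono (x := q.x) (θ := q.θ) (t0 := q.t0) (t1 := q.t1) (s1 := s1) (s2 := s2)
      (Ψ := fun _ _ z2 _ => R1.sq q.x s1 F D z2 ^ 2)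
      (Ψ' := fun _ _ z2 _ => (k ^ 2 / 2) ^ 2 * fr (C s1 z2) ^ 2)
      hC hx (esq.pow 2) ((ef1.pow 2).const_mul _) fun _ _ z2 _ => by
        have d1 := h.fr_rep s1 z2
        have d2 : 0 ≤ R1.sq q.x s1 F D z2 := sq_nonneg' z2
        have d3 : R1.sq q.x s1 F D z2 ≤ k ^ 2 / 2 * fr (C s1 z2) := by
          rw [d1]
          have : k ^ 2 / 2 * ((n : ℝ) + 2 / k ^ 2 * R1.sq q.x s1 F D z2) =
              k ^ 2 / 2 * n + R1.sq q.x s1 F D z2 := by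
            rw [mul_add, ← mul_assoc, div_mul_div_comm, mul_comm (k ^ 2) 2, div_self (by positivity),
              one_mul]
          rw [this]
          have : 0 ≤ k ^ 2 / 2 * (n : ℝ) := by positivity
          linarith
        calc R1.sq q.x s1 F D z2 ^ 2 ≤ (k ^ 2 / 2 * fr (C s1 z2)) ^ 2 :=
              pow_le_pow_left₀ d2 d3 2
          _ = _ := by ring
    rw [R1.Et4_const_mul, ← hE] at c1
    refine c1.trans ((mul_le_mul_of_nonneg_left um (by positivity)).trans (le_of_eq ?_))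
    rw [hNk]
    field_simp
  have u4 : E (fun _ _ z2 _ => k ^ 2 / 2 * rt DM s1 z2) ≤ A * ρ / T := by
    rw [hE, R1.Et4_const_mul, ← hE]
    refine (mul_le_mul_of_nonneg_left u1 (by positivity)).trans (le_of_eq ?_)
    rw [hNk]
    field_simp
  have hS2 : S ^ 2 ≤ (2 * A ^ 2 * ρ ^ 2) * (A * ρ / T) := by
    have c1 := R1.Et4_cs (x := q.x) (θ := q.θ) (t0 := q.t0) (t1 := q.t1) (s1 := s1) (s2 := s2)
      hC hx (Ψ := fun _ _ z2 _ => R1.sq q.x s1 F D z2)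
      (Ψ' := fun _ _ z2 _ => √(k ^ 2 / 2 * rt DM s1 z2))
      esq (R1.E4.of2 (EG_sqrt ((h.egr s1).const_mul _)))
    have c2 : ∀ z2 : Pair n → ℝ, √(k ^ 2 / 2 * rt DM s1 z2) ^ 2 = k ^ 2 / 2 * rt DM s1 z2 :=
      fun z2 => Real.sq_sqrt (mul_nonneg (by positivity) (rt_nonneg _ _))
    simp only [c2] at c1
    refine c1.trans ?_
    have c3 : 0 ≤ E (fun _ _ z2 _ => k ^ 2 / 2 * rt DM s1 z2) :=
      R1.Et4_nonneg hC hx fun _ _ z2 _ => mul_nonneg (by positivity) (rt_nonneg _ _)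
    exact mul_le_mul u3 u4 c3 (by positivity)
  have hE2 : (2 / k ^ 2 * E (fun _ _ z2 z3 => |y z2 z3|)) ^ 2 ≤ (2 / k ^ 2) ^ 2 * W := by
    rw [mul_pow]
    refine mul_le_mul_of_nonneg_left ?_ (by positivity)
    have := cs1 ey.abs
    simp only [sq_abs] at this
    exact this
  have hA20 : (10 : ℝ) ^ 19 * A ^ 21 ≤ A ^ 40 := by
    calc (10 : ℝ) ^ 19 * A ^ 21 ≤ A ^ 19 * A ^ 21 :=
          mul_le_mul_of_nonneg_right (pow_le_pow_left₀ (by norm_num) hA 19) (by positivity)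
      _ = A ^ 40 := by ring
  have hYA : 10 ^ 13 * A ^ 21 ≤ q.x ^ 2 * ρ * T := by
    refine le_trans ?_ hY40
    have : 0 < A ^ 21 := by positivity
    linarith
  have hYA' : 10 ^ 12 * A ^ 20 ≤ q.x ^ 2 * ρ * T := by
    refine le_trans ?_ hYA
    have : A ^ 20 ≤ A ^ 21 := pow_le_pow_right₀ hA1 (by norm_num)
    have : 0 < A ^ 20 := by positivity
    linarith
  have r2 := num_rad' hA1 hρ hT hx hk2 rfl hYA hS2 hrad hE2
  -- defects
  have edd1 : R1.E4 fun _ _ z2 _ => dfc (C s1 z2) := R1.E4.of2 (eg_dfc' s1)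
  have edd2 : R1.E4 fun _ _ _ z3 => dfc (C s2 z3) := R1.E4.of3 (eg_dfc' s2)
  have hcon : 4 / (k ^ 2 * q.x ^ 2) * (A * N / T) = 8 / (k ^ 4 * q.x ^ 2) * (A * ρ / T) := by
    rw [hNk]
    have e4 : k ^ 4 = k ^ 2 * k ^ 2 := by ring
    rw [e4]
    generalize k ^ 2 = K at *
    field_simp
    ring
  have hE3 : E (fun _ _ z2 _ => √(dfc (C s1 z2))) ^ 2 ≤
      8 / (k ^ 4 * q.x ^ 2) * (A * ρ / T) := by
    have c1 := cs1 edf1
    have c2 : ∀ z2 : Pair n → ℝ, √(dfc (C s1 z2)) ^ 2 = dfc (C s1 z2) := fun z2 =>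
      Real.sq_sqrt (dfc_nonneg (h.psd s1 z2))
    simp only [c2] at c1
    refine c1.trans ?_
    have c3 := R1.Et4_mono (x := q.x) (θ := q.θ) (t0 := q.t0) (t1 := q.t1) (s1 := s1) (s2 := s2)
      hC hx edd1 (er1.const_mul (4 / (k ^ 2 * q.x ^ 2))) fun _ _ z2 _ => h.sw s1 h0s z2
    rw [R1.Et4_const_mul] at c3
    refine c3.trans ?_
    rw [← hcon]
    exact mul_le_mul_of_nonneg_left u1 (by positivity)
  have hE4 : E (fun _ _ _ z3 => √(dfc (C s2 z3))) ^ 2 ≤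
      8 / (k ^ 4 * q.x ^ 2) * (A * ρ / T) := by
    have c1 := cs1 edf2
    have c2 : ∀ z2 : Pair n → ℝ, √(dfc (C s2 z2)) ^ 2 = dfc (C s2 z2) := fun z2 =>
      Real.sq_sqrt (dfc_nonneg (h.psd s2 z2))
    simp only [c2] at c1
    refine c1.trans ?_
    have c3 := R1.Et4_mono (x := q.x) (θ := q.θ) (t0 := q.t0) (t1 := q.t1) (s1 := s1) (s2 := s2)
      hC hx edd2 (er2.const_mul (4 / (k ^ 2 * q.x ^ 2))) fun _ _ _ z3 => h.sw s2 h0s2 z3
    rw [R1.Et4_const_mul] at c3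
    refine c3.trans ?_
    rw [← hcon]
    exact mul_le_mul_of_nonneg_left u2 (by positivity)
  have r3 := num_def hA1 hρ hT hx hk2 rfl hYA' hE3
  have r4 := num_def hA1 hρ hT hx hk2 rfl hYA' hE4
  rw [← hNk] at r2 r3 r4
  have r5 : 8 * A * ((n : ℝ) ^ 2 * (E (fun _ _ z2 _ => χ1 z2) + E (fun _ _ z2 _ => χ2 z2) +
        E (fun _ _ _ z3 => χ3 z3))) ≤ N := by
    have : E (fun _ _ z2 _ => χ1 z2) + E (fun _ _ z2 _ => χ2 z2) +
        E (fun _ _ _ z3 => χ3 z3) ≤ 3 * δ := by linarith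
    have h7 := mul_le_mul_of_nonneg_left this (by positivity : 0 ≤ 8 * A * (n : ℝ) ^ 2)
    linarith
  exact num_fin hA1 hN0 ug r2 r3 r4 r5 hmono

end main

end Vale.Agent.P146.H522
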