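import Vale.Agent.P146.H522.Rad
import Vale.Agent.P146.H522.SkDic
import Vale.Agent.P146.H522.Det

/-!
Macroscopic rotation of the matrices `C_1`, `C_2` at two times: lower bounds of
`E_θ |C_1 C_2|²` and of `E_θ |[C_1, C_2]|²`.
-/

open MeasureTheory ProbabilityTheory Matrix

namespace Vale.Agent.P146.H522

open Vale.Agent.P157.Lv Vale.Agent.P146.H425 Vale.Agent.P146.H332
open Vale.Agent.P146.H325 hiding fr_nonneg C2

set_option linter.unusedSectionVars false
set_option linter.unusedDecidableInType false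

variable {n : ℕ} {k x : ℝ} {F : (Pair n → ℝ) → ℝ} {D : Pair n → (Pair n → ℝ) → ℝ}
  {H T : Pair n → Pair n → (Pair n → ℝ) → ℝ} {B L M θ t0 t1 s1 s2 t t' : ℝ}
  {C : ℝ → (Pair n → ℝ) → Matrix (Fin n) (Fin n) ℝ}

/-- Matrix functions representing the gradient of the value function. -/
structure MRb (k x : ℝ) (F : (Pair n → ℝ) → ℝ) (D : Pair n → (Pair n → ℝ) → ℝ)
    (C : ℝ → (Pair n → ℝ) → Matrix (Fin n) (Fin n) ℝ) : Prop where
  k0 : k ≠ 0
  eg : ∀ t i j, EG fun z => C t z i j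
  psd : ∀ t z, Psd (C t z)
  diag : ∀ t z i, C t z i i = 1
  bd : ∀ t z i j, |C t z i j| ≤ 1
  off : ∀ t z (e : Pair n), R1.dd x t F D e z = k * C t z e.1.1 e.1.2

/-- Matrix functions representing the gradient of the value function, and a bound of the
distance to rank one. -/
structure MRep (k x : ℝ) (F : (Pair n → ℝ) → ℝ) (D : Pair n → (Pair n → ℝ) → ℝ)
    (H : Pair n → Pair n → (Pair n → ℝ) → ℝ)
    (C : ℝ → (Pair n → ℝ) → Matrix (Fin n) (Fin n) ℝ) : Prop extends MRb k x F D C where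
  dfc : ∀ t z, dfc (C t z) ≤ 8 / (k ^ 4 * x ^ 2) * R1.hq x t F D H z

namespace MRb

lemma symm (h : MRb k x F D C) (t : ℝ) (z : Pair n → ℝ) (i j : Fin n) :
    C t z i j = C t z j i := by
  have := (h.psd t z).1
  rw [← transpose_apply (C t z), this]

lemma ksq (h : MRb k x F D C) : 0 < k ^ 2 := by
  have := h.k0
  positivity

lemma ip_rep (h : MRb k x F D C) (t t' : ℝ) (z z' : Pair n → ℝ) :
    ip (C t z) (C t' z') =
      n + 2 / k ^ 2 * ∑ e, R1.dd x t F D e z * R1.dd x t' F D e z' := by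
  have h1 := sum_pairs (fun i j : Fin n => if i = j then 0 else C t z i j * C t' z' i j)
    (fun p q => by rw [h.symm t z p q, h.symm t' z' p q]; simp only [eq_comm]) (fun p => by simp)
  have h2 : ∀ e : Pair n, (if e.1.1 = e.1.2 then (0 : ℝ) else
      C t z e.1.1 e.1.2 * C t' z' e.1.1 e.1.2) = C t z e.1.1 e.1.2 * C t' z' e.1.1 e.1.2 :=
    fun e => by rw [if_neg e.2.ne]
  simp only [h2] at h1
  have h3 : ip (C t z) (C t' z') = ∑ i : Fin n, ∑ j : Fin n, ((if i = j then (1 : ℝ) else 0) +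
      (if i = j then 0 else C t z i j * C t' z' i j)) := by
    unfold ip
    refine Finset.sum_congr rfl fun i _ => Finset.sum_congr rfl fun j _ => ?_
    split_ifs with hij
    · rw [hij, h.diag, h.diag]; norm_num
    · rw [zero_add]
  rw [h3]
  simp only [Finset.sum_add_distrib]
  rw [h1]
  have h4 : 2 / k ^ 2 * ∑ e, R1.dd x t F D e z * R1.dd x t' F D e z' =
      2 * ∑ e : Pair n, C t z e.1.1 e.1.2 * C t' z' e.1.1 e.1.2 := by
    rw [Finset.mul_sum, Finset.mul_sum]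
    refine Finset.sum_congr rfl fun e _ => ?_
    rw [h.off, h.off]
    have := h.k0
    field_simp
  rw [h4]
  simp

lemma fr_rep (h : MRb k x F D C) (t : ℝ) (z : Pair n → ℝ) :
    fr (C t z) = n + 2 / k ^ 2 * R1.sq x t F D z := by
  rw [← ip_self, h.ip_rep]
  congr 2
  exact Finset.sum_congr rfl fun e _ => (sq _).symm

lemma fr_le (h : MRb k x F D C) (t : ℝ) (z : Pair n → ℝ) : fr (C t z) ≤ (n : ℝ) ^ 2 := by
  unfold fr
  calc ∑ i, ∑ j, C t z i j ^ 2 ≤ ∑ i : Fin n, ∑ j : Fin n, (1 : ℝ) := by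
        refine Finset.sum_le_sum fun i _ => Finset.sum_le_sum fun j _ => ?_
        have := h.bd t z i j
        rw [← sq_abs]
        nlinarith [abs_nonneg (C t z i j)]
    _ = (n : ℝ) ^ 2 := by simp [sq]

/-- `⟨C_1, C_2⟩ - |C_1|²` -/
lemma ip_sub (h : MRb k x F D C) (t t' : ℝ) (z z' : Pair n → ℝ) :
    ip (C t z) (C t' z') - fr (C t z) =
      2 / k ^ 2 * ∑ e, R1.dd x t F D e z * (R1.dd x t' F D e z' - R1.dd x t F D e z) := by
  rw [h.ip_rep, h.fr_rep]
  have : ∑ e, R1.dd x t F D e z * (R1.dd x t' F D e z' - R1.dd x t F D e z) =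
      ∑ e, R1.dd x t F D e z * R1.dd x t' F D e z' - R1.sq x t F D z := by
    simp only [mul_sub, Finset.sum_sub_distrib]
    congr 1
    exact Finset.sum_congr rfl fun e _ => (sq _).symm
  rw [this]
  ring

/-- the entries are martingales -/
lemma cw_C (h : MRb k x F D C) (hF : C11 F D B L) (hx : 0 < x) (ht : t ≤ t') (ht' : t' ≤ 1)
    (p q : Fin n) (z : Pair n → ℝ) : R1.cw x t t' F (fun w => C t' w p q) z = C t z p q := by
  have h1 : ∀ e : Pair n, R1.cw x t t' F (fun w => C t' w e.1.1 e.1.2) z =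
      C t z e.1.1 e.1.2 := by
    intro e
    have e1 : (fun w => C t' w e.1.1 e.1.2) = fun w => k⁻¹ * R1.dd x t' F D e w := by
      funext w
      rw [h.off, ← mul_assoc, inv_mul_cancel₀ h.k0, one_mul]
    rw [e1, R1.cw_const_mul, cw_dd hF hx ht ht', h.off, ← mul_assoc, inv_mul_cancel₀ h.k0,
      one_mul]
  rcases lt_trichotomy p q with hpq | hpq | hpq
  · exact h1 ⟨(p, q), hpq⟩
  · subst hpq
    have e1 : (fun w => C t' w p p) = fun _ => 1 := by funext w; exact h.diag t' w p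
    rw [e1, R1.cw_const hF hx ht ht', h.diag]
  · have e1 : (fun w => C t' w p q) = fun w => C t' w q p := by
      funext w; exact h.symm t' w p q
    rw [e1, h.symm t z p q]
    exact h1 ⟨(q, p), hpq⟩

lemma cw_lin (h : MRb k x F D C) (hF : C11 F D B L) (hx : 0 < x) (ht : t ≤ t') (ht' : t' ≤ 1)
    (A : Matrix (Fin n) (Fin n) ℝ) (z : Pair n → ℝ) :
    R1.cw x t t' F (fun w => ip A (C t' w)) z = ip A (C t z) := by
  unfold ip
  rw [cw_sum _ hF hx ht ht' (φ := fun i w => ∑ j, A i j * C t' w i j)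
    fun i _ => EG.sum _ fun j _ => (h.eg t' i j).const_mul _]
  refine Finset.sum_congr rfl fun i _ => ?_
  rw [cw_sum _ hF hx ht ht' (φ := fun j w => A i j * C t' w i j)
    fun j _ => (h.eg t' i j).const_mul _]
  refine Finset.sum_congr rfl fun j _ => ?_
  rw [R1.cw_const_mul, h.cw_C hF hx ht ht']

lemma e4_1 (h : MRb k x F D C) (s : ℝ) (i j : Fin n) :
    EG fun w : R1.K4 (Pair n) → ℝ => C s (R1.c2 w) i j := R1.E4.of2 (h.eg s i j)

lemma e4_2 (h : MRb k x F D C) (s : ℝ) (i j : Fin n) :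
    EG fun w : R1.K4 (Pair n) → ℝ => C s (R1.c3 w) i j := R1.E4.of3 (h.eg s i j)

lemma e4_fr11 (h : MRb k x F D C) (s : ℝ) :
    R1.E4 fun _ _ z2 _ => fr (C s z2 * C s z2) :=
  eg_frM (eg_mulM (h.e4_1 s) (h.e4_1 s))

lemma e4_fr12 (h : MRb k x F D C) (s s' : ℝ) :
    R1.E4 fun _ _ z2 z3 => fr (C s z2 * C s' z3) :=
  eg_frM (eg_mulM (h.e4_1 s) (h.e4_2 s'))

lemma e4_comm (h : MRb k x F D C) (s s' : ℝ) :
    R1.E4 fun _ _ z2 z3 => fr (C s z2 * C s' z3 - C s' z3 * C s z2) :=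
  eg_frM (eg_subM (eg_mulM (h.e4_1 s) (h.e4_2 s')) (eg_mulM (h.e4_2 s') (h.e4_1 s)))

/-- **Jensen** -/
theorem jensen (h : MRb k x F D C) (hF : C11 F D B L) (hx : 0 < x) (h1 : s1 ≤ s2)
    (hs : s2 ≤ 1) (θ t0 t1 : ℝ) :
    R1.Et4 x θ t0 t1 s1 s2 F (fun _ _ z2 _ => fr (C s1 z2 * C s1 z2)) ≤
      R1.Et4 x θ t0 t1 s1 s2 F (fun _ _ z2 z3 => fr (C s1 z2 * C s2 z3)) := by
  refine Et4_le_cond hF hx (h.e4_fr11 s1) (h.e4_fr12 s1 s2) fun z0 z1 z2 => ?_
  rw [R1.cw_const hF hx h1 hs]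
  set A := C s1 z2 with hA
  -- the linearised functional
  set G : Matrix (Fin n) (Fin n) ℝ := Aᵀ * (A * A) with hG
  have e1 : ∀ X : Matrix (Fin n) (Fin n) ℝ, ip (A * A) (A * X) = ip G X := by
    intro X
    have e0 : Gᵀ = (A * A)ᵀ * A := by rw [hG, transpose_mul, transpose_transpose]
    rw [ip_eq_trace, ip_eq_trace, e0, Matrix.mul_assoc]
  have e2 : ∀ w, fr (A * A) + 2 * (ip G (C s2 w) - ip G A) ≤ fr (A * C s2 w) := by
    intro w
    have h2 := fr_lin (A * A) (A * C s2 w)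
    rw [ip_sub_right, e1, e1] at h2
    exact h2
  have eG : EG fun w => ip G (C s2 w) := by
    unfold ip
    exact EG.sum _ fun i _ => EG.sum _ fun j _ => (h.eg s2 i j).const_mul _
  have e3 : R1.cw x s1 s2 F (fun w => fr (A * A) + 2 * (ip G (C s2 w) - ip G A)) z2 =
      fr (A * A) := by
    have e4 : (fun w => fr (A * A) + 2 * (ip G (C s2 w) - ip G A)) = fun w =>
        2 * ip G (C s2 w) + (fr (A * A) - 2 * ip G A) := by
      funext w; ring
    rw [e4, R1.cw_add hF hx (eG.const_mul 2) (EG.const _), R1.cw_const_mul,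
      h.cw_lin hF hx h1 hs, R1.cw_const hF hx h1 hs, ← hA]
    ring
  rw [← e3]
  exact R1.cw_mono hF hx ((EG.const _).add ((eG.sub (EG.const _)).const_mul 2))
    (E4_slice (h.e4_fr12 s1 s2) z0 z1 z2) e2 z2

end MRb

/-- the SK model -/
theorem mrep_sk (hk : k ≠ 0) (hx0 : 0 < x) (hx1 : x ≤ 1)
    {H : Pair n → Pair n → (Pair n → ℝ) → ℝ}
    (hH : ∀ e i u, H e i u = k * (k * (av k SkS (fun σ => SkS e σ * SkS i σ) u -
      av k SkS (SkS e) u * av k SkS (SkS i) u))) :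
    MRep k x (lz k SkS) (fun e u => k * av k SkS (SkS e) u) H (AA k x (n := n)) where
  k0 := hk
  eg t i j := eg_AA t i j
  psd t z := psd_AA k x t z
  diag t z i := AA_diag k x t z i
  bd t z i j := abs_AA t z i j
  off t z e := dd_sk k x t e z
  dfc t z := by
    have h1 := dfc_AA k x hk hx0 hx1 t z
    have e1 : ∀ e i, R1.hh x t (lz k SkS) (fun e u => k * av k SkS (SkS e) u) H e i z =
        hsk k SkS x t e i z := by
      intro e i
      rw [← hsk_eq]
      unfold R1.hh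
      have e2 : ∀ φ, R1.ew x t (lz k (SkS (n := n))) φ z =
          RR k SkS x (fun _ => √(1 - t)) φ z := fun φ => (RR_eq k SkS x t φ z).symm
      rw [e2, e2, dd_gen, dd_gen]
      have e3 : H e i = fun u => k * (k * (av k SkS (fun σ => SkS e σ * SkS i σ) u -
          av k SkS (SkS e) u * av k SkS (SkS i) u)) := funext (hH e i)
      rw [e3]
    unfold R1.hq
    simp only [e1]
    exact h1

end Vale.Agent.P146.H522
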