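import Vale.Agent.P146.H425.R1Def4
import Vale.Agent.P146.H713.Hess

/-!
The radial increments of the gradient of the value function: the conditional mean of
`(D_1 · (D_2 - D_1))²` given the past is at most `|D_1|² |Hs_1| / x`.
-/

open MeasureTheory ProbabilityTheory

namespace Vale.Agent.P146.H522

open Vale.Agent.P157.Lv Vale.Agent.P146.H425

set_option linter.unusedSectionVars false
set_option linter.unusedDecidableInType false

variable {κ : Type} [Fintype κ] {F : (κ → ℝ) → ℝ} {D : κ → (κ → ℝ) → ℝ}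
  {B L x θ t0 t1 s1 s2 t t' M : ℝ} {H T : κ → κ → (κ → ℝ) → ℝ} {Ψ Ψ' : R1.Fn4 κ}

/-! ### conditional means -/

lemma E4_slice (h : R1.E4 Ψ) (z0 z1 z2 : κ → ℝ) : EG (Ψ z0 z1 z2) :=
  R1.eg_elim (R1.eg_elim (R1.eg_elim h z0) z1) z2

lemma cw_sub (h : C11 F D B L) (hx : 0 < x) {φ ψ : (κ → ℝ) → ℝ} (hφ : EG φ) (hψ : EG ψ)
    (z : κ → ℝ) :
    R1.cw x t t' F (fun y => φ y - ψ y) z = R1.cw x t t' F φ z - R1.cw x t t' F ψ z := by
  have h1 := R1.cw_add (x := x) (t := t) (t' := t') h hx hφ (hψ.const_mul (-1)) z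
  rw [R1.cw_const_mul] at h1
  have e : (fun y => φ y - ψ y) = fun y => φ y + -1 * ψ y := by funext y; ring
  rw [e, h1]
  ring

lemma cw_sum {K : Type*} (S : Finset K) (h : C11 F D B L) (hx : 0 < x) (ht : t ≤ t')
    (ht' : t' ≤ 1) {φ : K → (κ → ℝ) → ℝ} (hφ : ∀ i ∈ S, EG (φ i)) (z : κ → ℝ) :
    R1.cw x t t' F (fun y => ∑ i ∈ S, φ i y) z = ∑ i ∈ S, R1.cw x t t' F (φ i) z := by
  classical
  induction S using Finset.induction_on with
  | empty => simpa using R1.cw_const (x := x) (t := t) (t' := t') h hx ht ht' 0 z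
  | insert a S ha ih =>
    simp only [Finset.sum_insert ha]
    rw [R1.cw_add h hx (hφ a (Finset.mem_insert_self a S))
      (EG.sum S fun i hi => hφ i (Finset.mem_insert_of_mem hi)),
      ih fun i hi => hφ i (Finset.mem_insert_of_mem hi)]

/-- the gradient is a martingale -/
lemma cw_dd (h : C11 F D B L) (hx : 0 < x) (ht : t ≤ t') (ht' : t' ≤ 1) (e : κ) (z : κ → ℝ) :
    R1.cw x t t' F (R1.dd x t' F D e) z = R1.dd x t F D e z :=
  R1.cw_tower h hx (h.eg_D e) ht ht' z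

/-- the numerator of `cw` -/
lemma cw_int (z : κ → ℝ) (φ : (κ → ℝ) → ℝ) :
    ∫ y, Real.exp (x * R1.uu x t' F (z + √(t' - t) • y)) * φ (z + √(t' - t) • y) ∂(gI κ) =
      Real.exp (x * R1.uu x t F z) * R1.cw x t t' F φ z := by
  unfold R1.cw
  rw [mul_div_cancel₀ _ (Real.exp_pos _).ne']

/-- A conditional inequality at the last step. -/
theorem Eu4_le_cond (h : C11 F D B L) (hx : 0 < x) (hΨ : R1.E4 Ψ) (hΨ' : R1.E4 Ψ')
    (hle : ∀ z0 z1 z2, R1.cw x s1 s2 F (Ψ z0 z1 z2) z2 ≤ R1.cw x s1 s2 F (Ψ' z0 z1 z2) z2) :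
    R1.Eu4 x θ t0 t1 s1 s2 F Ψ ≤ R1.Eu4 x θ t0 t1 s1 s2 F Ψ' := by
  have h1 : 0 ≤ R1.Eu4 x θ t0 t1 s1 s2 F
      (fun z0 z1 z2 z3 => Ψ' z0 z1 z2 z3 + -1 * Ψ z0 z1 z2 z3) := by
    rw [R1.Eu4_cond h hx (hΨ'.add (hΨ.const_mul (-1)))]
    refine integral_nonneg fun y0 => integral_nonneg fun y1 => integral_nonneg fun y2 => ?_
    refine mul_nonneg (Real.exp_pos _).le ?_
    set z0 := √t0 • y0
    set z1 := √t0 • y0 + √(t1 - t0) • y1
    set z2 := √t0 • y0 + √(t1 - t0) • y1 + √(s1 - t1) • y2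
    have e1 := cw_int (x := x) (t := s1) (t' := s2) (F := F) z2
      (fun z3 => Ψ' z0 z1 z2 z3 + -1 * Ψ z0 z1 z2 z3)
    refine le_of_le_of_eq ?_ e1.symm
    refine mul_nonneg (Real.exp_pos _).le ?_
    rw [R1.cw_add h hx (E4_slice hΨ' z0 z1 z2) ((E4_slice hΨ z0 z1 z2).const_mul (-1)),
      R1.cw_const_mul]
    linarith [hle z0 z1 z2]
  rw [R1.Eu4_add h hx hΨ' (hΨ.const_mul (-1)), R1.Eu4_const_mul] at h1
  linarith

/-- A conditional inequality at the last step. -/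
theorem Et4_le_cond (h : C11 F D B L) (hx : 0 < x) (hΨ : R1.E4 Ψ) (hΨ' : R1.E4 Ψ')
    (hle : ∀ z0 z1 z2, R1.cw x s1 s2 F (Ψ z0 z1 z2) z2 ≤ R1.cw x s1 s2 F (Ψ' z0 z1 z2) z2) :
    R1.Et4 x θ t0 t1 s1 s2 F Ψ ≤ R1.Et4 x θ t0 t1 s1 s2 F Ψ' :=
  div_le_div_of_nonneg_right (Eu4_le_cond h hx hΨ hΨ' hle) (R1.Eu4_one_pos h hx).le

/-! ### radial increments -/

/-- Cauchy–Schwarz -/
lemma vH_le (v : κ → ℝ) (G : κ → κ → (κ → ℝ) → ℝ) (z : κ → ℝ) :
    R1.vH v G z ≤ (∑ e, v e ^ 2) * √(∑ e, ∑ i, G e i z ^ 2) := by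
  have h1 : R1.vH v G z ^ 2 ≤ (∑ e, ∑ i, G e i z ^ 2) * (∑ e, v e ^ 2) ^ 2 := by
    have e1 : R1.vH v G z = ∑ p : κ × κ, G p.1 p.2 z * (v p.1 * v p.2) := by
      rw [Fintype.sum_prod_type]
      unfold R1.vH
      exact Finset.sum_congr rfl fun e _ => Finset.sum_congr rfl fun i _ => by ring
    have e2 : ∑ e, ∑ i, G e i z ^ 2 = ∑ p : κ × κ, G p.1 p.2 z ^ 2 := by
      rw [Fintype.sum_prod_type]
    have e3 : (∑ e, v e ^ 2) ^ 2 = ∑ p : κ × κ, (v p.1 * v p.2) ^ 2 := by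
      rw [Fintype.sum_prod_type, sq, Finset.sum_mul_sum]
      exact Finset.sum_congr rfl fun e _ => Finset.sum_congr rfl fun i _ => by ring
    rw [e1, e2, e3]
    exact Finset.sum_mul_sq_le_sq_mul_sq _ _ _
  have h2 : 0 ≤ ∑ e, v e ^ 2 := Finset.sum_nonneg fun _ _ => sq_nonneg _
  have h3 : 0 ≤ ∑ e, ∑ i, G e i z ^ 2 :=
    Finset.sum_nonneg fun _ _ => Finset.sum_nonneg fun _ _ => sq_nonneg _
  refine (Real.le_sqrt_of_sq_le h1).trans (le_of_eq ?_)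
  rw [Real.sqrt_mul h3, Real.sqrt_sq h2, mul_comm]

variable [DecidableEq κ]

/-- The conditional variance of `v · D_2` given the position at the time `t`. -/
theorem cw_radial (h : R1.Sm F D B L H T M) (hc : Cv F) (hx : 0 < x) (ht : t ≤ t')
    (ht' : t' ≤ 1) (v z : κ → ℝ) :
    x * R1.cw x t t' F (fun w => (R1.vD v (R1.dd x t' F D) w - R1.vD v (R1.dd x t F D) z) ^ 2) z ≤
      R1.vH v (R1.hh x t F D H) z := by
  have h1 := R1.hh_cov (x := x) (t := t) (t' := t') h hc hx ht ht' v z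
  set c := R1.vD v (R1.dd x t F D) z with hcdef
  have eV : EG fun w => R1.vD v (R1.dd x t' F D) w :=
    EG.sum _ fun e _ => (R1.eg_dd h.c11 x t' e).const_mul _
  have e0 : (fun w => (R1.vD v (R1.dd x t' F D) w - c) ^ 2) =
      fun w => R1.vD v (R1.dd x t' F D) w ^ 2 +
        ((-2 * c) * R1.vD v (R1.dd x t' F D) w + c ^ 2) := by
    funext w; ring
  have e1 : R1.cw x t t' F (fun w => R1.vD v (R1.dd x t' F D) w) z = c := by
    have : (fun w => R1.vD v (R1.dd x t' F D) w) = fun w => ∑ e, v e * R1.dd x t' F D e w := rfl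
    rw [this, cw_sum _ h.c11 hx ht ht' fun e _ => (R1.eg_dd h.c11 x t' e).const_mul _, hcdef]
    unfold R1.vD
    refine Finset.sum_congr rfl fun e _ => ?_
    rw [R1.cw_const_mul, cw_dd h.c11 hx ht ht']
  have e2 : R1.cw x t t' F (fun w => (R1.vD v (R1.dd x t' F D) w - c) ^ 2) z =
      R1.cw x t t' F (fun w => R1.vD v (R1.dd x t' F D) w ^ 2) z - c ^ 2 := by
    rw [e0, R1.cw_add h.c11 hx (eV.pow 2) ((eV.const_mul _).add (EG.const _)),
      R1.cw_add h.c11 hx (eV.const_mul _) (EG.const _), R1.cw_const_mul, e1,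
      R1.cw_const h.c11 hx ht ht']
    ring
  rw [e2]
  exact h1

lemma EG_sqrt {ι : Type} [Fintype ι] {f : (ι → ℝ) → ℝ} (hf : EG f) : EG fun y => √(f y) := by
  refine ((EG.const 1).add (hf.pow 2)).mono (Real.continuous_sqrt.measurable.comp hf.meas)
    fun y => ?_
  rw [abs_of_nonneg (Real.sqrt_nonneg _), abs_of_nonneg (by positivity)]
  rw [Real.sqrt_le_left (by positivity)]
  nlinarith [sq_nonneg (f y - 1), sq_nonneg (f y), sq_nonneg (f y ^ 2)]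

lemma eg_sq (h : C11 F D B L) (x t : ℝ) : EG (R1.sq x t F D) :=
  EG.sum _ fun e _ => (R1.eg_dd h x t e).pow 2

lemma sq_nonneg' (z : κ → ℝ) : 0 ≤ R1.sq x t F D z := Finset.sum_nonneg fun _ _ => sq_nonneg _

/-- **The radial bound.** -/
theorem radial (h : R1.Sm F D B L H T M) (hc : Cv F) (hx : 0 < x) (h1 : s1 ≤ s2)
    (hs : s2 ≤ 1) (θ t0 t1 : ℝ) :
    x * R1.Et4 x θ t0 t1 s1 s2 F (fun _ _ z2 z3 => (∑ e, R1.dd x s1 F D e z2 *
      (R1.dd x s2 F D e z3 - R1.dd x s1 F D e z2)) ^ 2) ≤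
    R1.Et4 x θ t0 t1 s1 s2 F (fun _ _ z2 _ => R1.sq x s1 F D z2 * √(R1.hq x s1 F D H z2)) := by
  have ed1 : ∀ e, R1.E4 fun _ _ z2 _ => R1.dd x s1 F D e z2 := fun e =>
    R1.E4.of2 (R1.eg_dd h.c11 x s1 e)
  have ed2 : ∀ e, R1.E4 fun _ _ _ z3 => R1.dd x s2 F D e z3 := fun e =>
    R1.E4.of3 (R1.eg_dd h.c11 x s2 e)
  have eΨ : R1.E4 fun _ _ z2 z3 => (∑ e, R1.dd x s1 F D e z2 *
      (R1.dd x s2 F D e z3 - R1.dd x s1 F D e z2)) ^ 2 := by
    refine R1.E4.pow ?_ 2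
    exact EG.sum _ fun e _ => (ed1 e).mul ((ed2 e).sub (ed1 e))
  have eΨ' : R1.E4 fun _ _ z2 _ => R1.sq x s1 F D z2 * √(R1.hq x s1 F D H z2) :=
    R1.E4.of2 ((eg_sq h.c11 x s1).mul (EG_sqrt (R1.eg_hq h x s1)))
  rw [← R1.Et4_const_mul]
  refine Et4_le_cond h.c11 hx (eΨ.const_mul x) eΨ' fun z0 z1 z2 => ?_
  rw [R1.cw_const_mul, R1.cw_const h.c11 hx h1 hs]
  set v : κ → ℝ := fun e => R1.dd x s1 F D e z2 with hv
  have h3 := cw_radial (x := x) (t := s1) (t' := s2) h hc hx h1 hs v z2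
  have e1 : (fun w => (R1.vD v (R1.dd x s2 F D) w - R1.vD v (R1.dd x s1 F D) z2) ^ 2) =
      fun z3 => (∑ e, R1.dd x s1 F D e z2 *
        (R1.dd x s2 F D e z3 - R1.dd x s1 F D e z2)) ^ 2 := by
    funext w
    unfold R1.vD
    rw [← Finset.sum_sub_distrib]
    congr 1
    exact Finset.sum_congr rfl fun e _ => by rw [hv]; ring
  rw [e1] at h3
  refine h3.trans ?_
  exact vH_le v (R1.hh x s1 F D H) z2

end Vale.Agent.P146.H522
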