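import Mathlib

set_option linter.all false

/-!
P146, lower side, the frame with two layers `(0 | y = 3x/5 on [w-h, w] | x on [w, 1])`.

The deterministic end: the numbers of the rows `F0 + F1`, `F2`, `KAP` in one law, the bracket of the
overlap at the start of the first layer and the slope at the crossing point are incompatible.

Letters (helper941): `A = E tr (Y C²)`, `A3 = E tr (Y C³)`, `Ja = E tr (Y C² C_a)`,
`Ka = E tr (Y C C_a C)` for the matrix `C_a` at the start `w - h` of the first layer, `Jw`, `Kw` the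
same for the matrix at the time `w`; `v = β x / n`.
-/

namespace Vale.Agent.P146.H522

/-- A square root form of `J² ≤ A K`. -/
lemma le_mul_of_sq {a k J : ℝ} (ha : 0 ≤ a) (hk : 0 ≤ k) (h : J ^ 2 ≤ a ^ 2 * k ^ 2) :
    J ≤ a * k := by
  have h4 : 0 ≤ a * k := mul_nonneg ha hk
  by_contra hh
  have h3 := not_le.1 hh
  nlinarith

/-- **The lower half of the end.** `F0 + F1` and `F2` (with the weak form `A3 - K + √(A3 K)` of the
change of the law) and the masses `3/5`, `2/5` give `Ka ≥ A3 / 400`; nothing is assumed on `Kw`. -/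
theorem end2_low {v A3 Ja Jw Ka Kw NL e : ℝ} (hv : 0 < v) (hA : 0 < A3)
    (hKa : 0 ≤ Ka) (hKw : 0 ≤ Kw) (hJa : Ja ^ 2 ≤ A3 * Ka) (hJw : Jw ^ 2 ≤ A3 * Kw)
    (h1 : v * (3 / 5 * (A3 - 2 * Ja + Ka) + 2 / 5 * (A3 - 2 * Jw + Kw)) ≤ NL + e * (v * A3))
    (h2 : 2 * NL ≤ v * (3 / 5 * (A3 - Ka + √(A3 * Ka)) + 2 / 5 * (A3 - Kw + √(A3 * Kw))) +
      e * (v * A3)) (he : e ≤ 1 / 1000) : A3 / 400 ≤ Ka := by
  obtain ⟨a, ha⟩ : ∃ a, a = √A3 := ⟨_, rfl⟩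
  obtain ⟨k, hk⟩ : ∃ k, k = √Ka := ⟨_, rfl⟩
  obtain ⟨l, hl⟩ : ∃ l, l = √Kw := ⟨_, rfl⟩
  have ha0 : 0 < a := by rw [ha]; exact Real.sqrt_pos.2 hA
  have hk0 : 0 ≤ k := by rw [hk]; exact Real.sqrt_nonneg _
  have hl0 : 0 ≤ l := by rw [hl]; exact Real.sqrt_nonneg _
  have ea : √(A3 * Ka) = a * k := by rw [Real.sqrt_mul hA.le, ← ha, ← hk]
  have ew : √(A3 * Kw) = a * l := by rw [Real.sqrt_mul hA.le, ← ha, ← hl]
  have ha2 : A3 = a ^ 2 := by rw [ha, Real.sq_sqrt hA.le]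
  have hk2 : Ka = k ^ 2 := by rw [hk, Real.sq_sqrt hKa]
  have hl2 : Kw = l ^ 2 := by rw [hl, Real.sq_sqrt hKw]
  rw [ea, ew] at h2
  rw [ha2, hk2] at hJa
  rw [ha2, hl2] at hJw
  have j1 : Ja ≤ a * k := le_mul_of_sq ha0.le hk0 hJa
  have j2 : Jw ≤ a * l := le_mul_of_sq ha0.le hl0 hJw
  rw [ha2, hk2, hl2] at h1 h2
  rw [ha2, hk2]
  -- `3/5 (3 k² - 5 a k + a²) + 2/5 (3 l² - 5 a l + a²) ≤ 3 e a²`
  have h3 : v * (3 / 5 * (3 * k ^ 2 - 4 * Ja - a * k + a ^ 2) +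
      2 / 5 * (3 * l ^ 2 - 4 * Jw - a * l + a ^ 2)) ≤ v * (3 * e * a ^ 2) := by linarith
  have h4 := le_of_mul_le_mul_left h3 hv
  have h5 : 3 * e * a ^ 2 ≤ 3 / 1000 * a ^ 2 :=
    mul_le_mul_of_nonneg_right (by linarith) (sq_nonneg a)
  have h6 : 3 / 5 * (3 * k ^ 2 - 5 * (a * k) + a ^ 2) +
      2 / 5 * (3 * l ^ 2 - 5 * (a * l) + a ^ 2) ≤ 3 / 1000 * a ^ 2 := by linarith
  have h7 : -(13 / 12) * a ^ 2 ≤ 3 * l ^ 2 - 5 * (a * l) + a ^ 2 := by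
    linarith [sq_nonneg (6 * l - 5 * a)]
  have h8 : 3 / 5 * (3 * k ^ 2 - 5 * (a * k) + a ^ 2) ≤ (3 / 1000 + 13 / 30) * a ^ 2 := by
    linarith
  have h9 : 1 / 20 * a ≤ k := by
    by_contra hh
    have h10 := not_le.1 hh
    have h11 : 0 < a ^ 2 := by positivity
    have h12 : a * k < a * (1 / 20 * a) := mul_lt_mul_of_pos_left h10 ha0
    linarith [sq_nonneg k]
  have h12 : (1 / 20 * a) ^ 2 ≤ k ^ 2 := pow_le_pow_left₀ (by positivity) h9 2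
  linarith

/-- **The upper half of the end.** `F0 + F1` and a small nonlinear part exclude
`Ka ≤ 23/25 A3`. -/
theorem end2_up {v A3 Ja Jw Ka Kw NL e : ℝ} (hv : 0 < v) (hA : 0 < A3)
    (hKa : 0 ≤ Ka) (hKw : 0 ≤ Kw) (hJa : Ja ^ 2 ≤ A3 * Ka) (hJw : Jw ^ 2 ≤ A3 * Kw)
    (h1 : v * (3 / 5 * (A3 - 2 * Ja + Ka) + 2 / 5 * (A3 - 2 * Jw + Kw)) ≤ NL + e * (v * A3))
    (h3 : NL ≤ e * (v * A3)) (he : e ≤ 1 / 3000) : 23 / 25 * A3 < Ka := by
  by_contra hcon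
  have hK6 := not_lt.1 hcon
  obtain ⟨a, ha⟩ : ∃ a, a = √A3 := ⟨_, rfl⟩
  obtain ⟨k, hk⟩ : ∃ k, k = √Ka := ⟨_, rfl⟩
  obtain ⟨l, hl⟩ : ∃ l, l = √Kw := ⟨_, rfl⟩
  have ha0 : 0 < a := by rw [ha]; exact Real.sqrt_pos.2 hA
  have hk0 : 0 ≤ k := by rw [hk]; exact Real.sqrt_nonneg _
  have hl0 : 0 ≤ l := by rw [hl]; exact Real.sqrt_nonneg _
  have ha2 : A3 = a ^ 2 := by rw [ha, Real.sq_sqrt hA.le]
  have hk2 : Ka = k ^ 2 := by rw [hk, Real.sq_sqrt hKa]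
  have hl2 : Kw = l ^ 2 := by rw [hl, Real.sq_sqrt hKw]
  rw [ha2, hk2] at hJa
  rw [ha2, hl2] at hJw
  have j1 : Ja ≤ a * k := le_mul_of_sq ha0.le hk0 hJa
  have j2 : Jw ≤ a * l := le_mul_of_sq ha0.le hl0 hJw
  rw [ha2, hk2] at hK6
  rw [ha2, hk2, hl2] at h1
  rw [ha2] at h3
  have h4 : v * (3 / 5 * (a ^ 2 - 2 * Ja + k ^ 2) + 2 / 5 * (a ^ 2 - 2 * Jw + l ^ 2)) ≤
      v * (2 * e * a ^ 2) := by linarith
  have h5 := le_of_mul_le_mul_left h4 hv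
  have h6 : 2 * e * a ^ 2 ≤ 2 / 3000 * a ^ 2 :=
    mul_le_mul_of_nonneg_right (by linarith) (sq_nonneg a)
  have h7 : 3 / 5 * (a - k) ^ 2 ≤ 2 / 3000 * a ^ 2 := by linarith [sq_nonneg (a - l)]
  have h0 : 0 < a ^ 2 := by positivity
  have h8 : k ≤ 24 / 25 * a := by
    by_contra h
    have h10 := not_le.1 h
    have h11 : (24 / 25 * a) ^ 2 ≤ k ^ 2 := pow_le_pow_left₀ (by positivity) h10.le 2
    linarith
  have h9 : 1 / 25 * a ≤ a - k := by linarith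
  have h10 : (1 / 25 * a) ^ 2 ≤ (a - k) ^ 2 := pow_le_pow_left₀ (by positivity) h9 2
  linarith

/-- **The end of the frame with two layers.** All the numbers of one law at one crossing point:

* `r = A3 / (n A)`, `v = β x / n`;
* `ρ²` = mean square of the overlap at the start of the first layer in the weighted law,
  `Ka ≤ n ρ A`, and the bracket `ρ² ≤ (5/2 + η) c`, with `c = D / (s x)`;
* the slope `(3 - η) c ≤ r²` at the crossing, `c ≤ δ x²`;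
* `F0 + F1`, `F2`, `KAP : NL ≤ M r² A` and `M` small against `δ^{-1/2}`.

They are incompatible. -/
theorem two_end {n β x v A A3 Ja Jw Ka Kw NL e r ρ c δ η M : ℝ} (hn : 0 < n) (hβ : 0 < β)
    (hx : 0 < x) (hv : v = β * x / n) (hA : 0 < A) (hr : 0 < r) (hA3 : A3 = n * r * A)
    (hKa : 0 ≤ Ka) (hKw : 0 ≤ Kw) (hJa : Ja ^ 2 ≤ A3 * Ka) (hJw : Jw ^ 2 ≤ A3 * Kw)
    (h1 : v * (3 / 5 * (A3 - 2 * Ja + Ka) + 2 / 5 * (A3 - 2 * Jw + Kw)) ≤ NL + e * (v * A3))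
    (h2 : 2 * NL ≤ v * (3 / 5 * (A3 - Ka + √(A3 * Ka)) + 2 / 5 * (A3 - Kw + √(A3 * Kw))) +
      e * (v * A3)) (he0 : 0 ≤ e) (he : e ≤ 1 / 3000)
    (hρ : 0 ≤ ρ) (hKρ : Ka ≤ n * ρ * A) (hη : η ≤ 1 / 100)
    (hbr : ρ ^ 2 ≤ (5 / 2 + η) * c) (hc : 0 ≤ c) (hsl : (3 - η) * c ≤ r ^ 2) (hδ : c ≤ δ * x ^ 2)
    (hM : 0 ≤ M) (hkap : NL ≤ M * r ^ 2 * A) (hMδ : 500000 * M ^ 2 * δ ≤ e ^ 2 * β ^ 2) :
    False := by
  have hA3p : 0 < A3 := by rw [hA3]; positivity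
  have hvp : 0 < v := by rw [hv]; positivity
  have hvn : v * n = β * x := by rw [hv]; field_simp
  have hr2 : 0 < r ^ 2 := by positivity
  -- lower half
  have l1 := end2_low hvp hA3p hKa hKw hJa hJw h1 h2 (by linarith)
  have c1 : ρ ^ 2 ≤ (5 / 2 + 1 / 100) * c :=
    hbr.trans (mul_le_mul_of_nonneg_right (by linarith) hc)
  have c2 : (3 - 1 / 100) * c ≤ r ^ 2 :=
    (mul_le_mul_of_nonneg_right (by linarith) hc).trans hsl
  -- `r / 400 ≤ ρ`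
  have l2 : r / 400 ≤ ρ := by
    have h3 : n * A * (r / 400) ≤ n * A * ρ := by
      have h4 := l1.trans hKρ
      rw [hA3] at h4
      linarith
    exact le_of_mul_le_mul_left h3 (by positivity)
  have l3 : ρ ≤ 92 / 100 * r := by
    by_contra h
    have h3 := not_le.1 h
    have h4 : (92 / 100 * r) ^ 2 ≤ ρ ^ 2 := pow_le_pow_left₀ (by positivity) h3.le 2
    have h5 : (92 / 100 * r) ^ 2 = 8464 / 10000 * r ^ 2 := by ring
    rw [h5] at h4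
    linarith
  have l4 : Ka ≤ 23 / 25 * A3 := by
    rw [hA3]
    have h3 : n * A * ρ ≤ n * A * (92 / 100 * r) :=
      mul_le_mul_of_nonneg_left l3 (by positivity)
    linarith
  -- `r² ≤ 500000 δ x²`
  have l5 : r ^ 2 ≤ 500000 * (δ * x ^ 2) := by
    have h3 : (r / 400) ^ 2 ≤ ρ ^ 2 := pow_le_pow_left₀ (by positivity) l2 2
    have h4 : (r / 400) ^ 2 = r ^ 2 / 160000 := by ring
    rw [h4] at h3
    linarith
  have l6 : NL ≤ e * (v * A3) := by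
    have h3 : e * (v * A3) = e * (β * x) * (r * A) := by
      rw [hA3, ← hvn]; ring
    rw [h3]
    have h4 : M * r ≤ e * (β * x) := by
      have h6 : (M * r) ^ 2 ≤ M ^ 2 * (500000 * (δ * x ^ 2)) := by
        rw [mul_pow]; exact mul_le_mul_of_nonneg_left l5 (sq_nonneg M)
      have h7 : M ^ 2 * (500000 * (δ * x ^ 2)) = 500000 * M ^ 2 * δ * x ^ 2 := by ring
      have h8 : 500000 * M ^ 2 * δ * x ^ 2 ≤ e ^ 2 * β ^ 2 * x ^ 2 :=
        mul_le_mul_of_nonneg_right hMδ (sq_nonneg x)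
      have h9 : e ^ 2 * β ^ 2 * x ^ 2 = (e * (β * x)) ^ 2 := by ring
      have h5 : (M * r) ^ 2 ≤ (e * (β * x)) ^ 2 := by linarith
      exact (le_abs_self _).trans (abs_le_of_sq_le_sq h5 (by positivity))
    calc NL ≤ M * r ^ 2 * A := hkap
      _ = M * r * (r * A) := by ring
      _ ≤ e * (β * x) * (r * A) := mul_le_mul_of_nonneg_right h4 (by positivity)
  have l7 := end2_up hvp hA3p hKa hKw hJa hJw h1 l6 he
  linarith

end Vale.Agent.P146.H522
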