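import Vale.Agent.P146.H432.XLo
import Vale.Agent.P146.H432.XReg

/-!
P146, lower side: the deterministic top of the argument.

`D(x, s)` = functional of one window.  If `D(x, s) < n^(1-d) s x³ / 8` at the window
`s = n^(-w) x²`, there is a crossing point of this threshold above `x`, and near it a point where the
slope is regular (`Reg`).  Two thresholds are used: `(d, w) = (100 σ, 52 σ)` and `(278 σ, 141 σ)`.
The rows exclude a regular point with a small slope for both (`NoN`), and a regular point with a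
large slope, at a longer window, for the first one (`NoK`).
-/

open MeasureTheory ProbabilityTheory Filter Topology

namespace Vale.Agent.P146.H522

open Vale.Agent.P157.Lv Vale.Agent.P146.H425 Vale.Agent.P146.H332 Vale.Agent.P146.H325
open Vale.Agent.P146.R1 Vale.Agent.P146.H767 Vale.Agent.P146.H432
open Vale.Agent.P146.H946 (Dz Hz)

set_option linter.unusedSectionVars false

/-- **A regular point.**  `x`: exponent, `s`: length of the window, `D(x, s) ≥ n^(1-d-) s x³`,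
`s ≈ n^(-w) x²`, `D(x, s) ≤ θ x D_x(x, s)`. -/
structure Reg (n : ℕ) (β e σ d w θ x s : ℝ) : Prop where
  x_lo : (n : ℝ) ^ (-(1 / 6) + e) ≤ x
  x_up : x ≤ (n : ℝ) ^ (-(136 * σ))
  s_lo : (n : ℝ) ^ (-(w + σ)) * x ^ 2 ≤ s
  s_up : s ≤ (n : ℝ) ^ (-w) * x ^ 2
  low : (n : ℝ) ^ (1 - (d + σ)) * s * x ^ 3 ≤ Dn n β x s
  val : Dn n β x s ≤ θ * (x * Gn n β x s)
  reg : Gn n β ((1 + (n : ℝ) ^ (-(72 * σ))) * x) s ≤
    (1 + (n : ℝ) ^ (-(10 * σ))) * Gn n β ((1 - (n : ℝ) ^ (-(72 * σ))) * x) s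

/-- Case N, small slope: excluded. -/
def NoN (β e σ d w : ℝ) : Prop := ∀ᶠ n : ℕ in atTop, ∀ x s : ℝ,
  Reg n β e σ d w (1 / 3 + 1 / 1000) x s →
    Gn n β x s ≤ (n : ℝ) ^ (1 - 10 * σ) * s * x ^ 2 → False

/-- Case K, slope of the natural size up to a small power, long window: excluded. -/
def NoK (β e σ : ℝ) : Prop := ∀ᶠ n : ℕ in atTop, ∀ x s : ℝ,
  Reg n β e σ (127 * σ) (25 * σ) ((n : ℝ) ^ (-(50 * σ))) x s →
    (n : ℝ) ^ (1 - 38 * σ) * s * x ^ 2 ≤ Gn n β x s → False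

/-- The lower bound of the exponential moment for `x ≥ n^(-1/6+e)`. -/
def LoE (β e : ℝ) : Prop := ∀ ε : ℝ, 0 < ε → ∃ δ : ℝ, 0 < δ ∧ ∀ᶠ n : ℕ in atTop, ∀ x : ℝ,
  (n : ℝ) ^ (-(1 / 6) + e) ≤ x → x ≤ δ → (n : ℝ) ^ (1 - ε) * x ^ 6 ≤ Lg n β x

/-! ### the crossing point -/

/-- **One threshold**: crossing point, with the comparison on the whole curve. -/
theorem cross_N {β : ℝ} (hβ : 1 < β) {a d w : ℝ} (ha0 : 0 < a) (ha : a < 1 / 15)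
    (hd : 2 * a < d) (hw : 0 ≤ w) :
    ∀ᶠ n : ℕ in atTop, AntiN n β → ∀ x1, 0 < x1 → x1 ≤ (n : ℝ) ^ (-a) →
      Dn n β x1 ((n : ℝ) ^ (-w) * x1 ^ 2) <
        (n : ℝ) ^ (1 - d) * ((n : ℝ) ^ (-w) * x1 ^ 2) * x1 ^ 3 / 8 →
      ∃ x, x1 < x ∧ x ≤ (n : ℝ) ^ (-a) ∧
        PtN n β ((n : ℝ) ^ (-w) * x ^ 2) ((n : ℝ) ^ (1 - d)) x ∧
        ∀ y, x1 ≤ y → y < x →
          Dn n β y ((n : ℝ) ^ (-w) * y ^ 2) < (n : ℝ) ^ (1 - d) * ((n : ℝ) ^ (-w) * y ^ 2) * y ^ 3 := by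
  filter_upwards [start hβ ha0 ha hd, eventually_ge_atTop 1] with n h1 h4 hA x1 hx1 hx1X hlow
  have hn1 : (1 : ℝ) ≤ n := by exact_mod_cast h4
  have hn0 : (0 : ℝ) < n := by linarith
  have hX1 : (n : ℝ) ^ (-a) ≤ 1 := Real.rpow_le_one_of_one_le_of_nonpos hn1 (by linarith)
  have hw1 : (n : ℝ) ^ (-w) ≤ 1 := Real.rpow_le_one_of_one_le_of_nonpos hn1 (by linarith)
  have hw0 : 0 < (n : ℝ) ^ (-w) := Real.rpow_pos_of_pos hn0 _
  have hc0 : 0 < (n : ℝ) ^ (1 - d) := Real.rpow_pos_of_pos hn0 _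
  have hSpos : ∀ x, x1 ≤ x → 0 < (n : ℝ) ^ (-w) * x ^ 2 := fun x hx => by
    have := hx1.trans_le hx
    positivity
  have hSle : ∀ x, x1 ≤ x → x ≤ (n : ℝ) ^ (-a) → (n : ℝ) ^ (-w) * x ^ 2 ≤ 1 := fun x b1 b2 => by
    have c1 : x ≤ 1 := b2.trans hX1
    have c2 := hx1.trans_le b1
    have c3 : x ^ 2 ≤ 1 := pow_le_one₀ c2.le c1
    calc (n : ℝ) ^ (-w) * x ^ 2 ≤ 1 * 1 := mul_le_mul hw1 c3 (by positivity) (by norm_num)
      _ = 1 := by norm_num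
  have hpos : 0 < (n : ℝ) ^ (1 - d) * ((n : ℝ) ^ (-w) * x1 ^ 2) * x1 ^ 3 := by positivity
  obtain ⟨x, a1, a2, a3, a4, a5⟩ := cross_curve (D := Dn n β) (G := Gn n β)
    (S := fun x => (n : ℝ) ^ (-w) * x ^ 2) (c := (n : ℝ) ^ (1 - d)) hx1X
    (fun z b1 b2 x y b3 _ b5 _ => Dn_tan' n β (hx1.trans_le b3) (hx1.trans_le b5)
      (hSpos z b1).le (hSle z b1 b2)) (fun x b1 _ => hSpos x b1)
    (fun x y z b1 b2 b3 b4 b5 => hA.dd (hx1.trans_le b1) (b2.trans hX1)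
      (hSpos y b3).le (by have := hx1.trans_le b3; gcongr) (hSle z (b3.trans b4) b5))
    (hlow.trans (by linarith)) (h1 hA.conc _ (hSpos _ hx1X).le (hSle _ hx1X le_rfl))
  have hx : 0 < x := hx1.trans a1
  have hs := hSpos x a1.le
  refine ⟨x, a1, a2, ?_, fun y b1 b2 => (a5 y b1 b2).1⟩
  have hb := (hA.conc x hx (a2.trans hX1) _ hs.le (hSle x a1.le a2)).1
  refine ⟨hx, a2.trans hX1, hs, hSle x a1.le a2, hc0, a3, ?_, ?_, ?_⟩
  · refine le_trans (le_of_eq ?_) a4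
    ring
  · rw [a3] at hb
    have e1 : (n : ℝ) ^ (1 - d) * ((n : ℝ) ^ (-w) * x ^ 2) * x ^ 3 =
      x / 2 * ((n : ℝ) ^ (-w) * x ^ 2) * (2 * (n : ℝ) ^ (1 - d) * x ^ 2) := by ring
    have e2 : x / 2 * ((n : ℝ) ^ (-w) * x ^ 2 * Kn n β x ((n : ℝ) ^ (-w) * x ^ 2)) =
      x / 2 * ((n : ℝ) ^ (-w) * x ^ 2) * Kn n β x ((n : ℝ) ^ (-w) * x ^ 2) := by ring
    rw [e1, e2] at hb
    exact le_of_mul_le_mul_left hb (by positivity)
  · intro y b1 b2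
    rcases le_or_gt x1 y with h | h
    · exact (a5 y h b2).2
    · have hy : 0 < y := by linarith
      have hy2 : x1 / 2 ≤ y := by linarith
      have hy3 : (x1 / 2) ^ 3 ≤ y ^ 3 := pow_le_pow_left₀ (by positivity) hy2 3
      have k1 := Dn_mono n β hy h.le hs.le (hSle x a1.le a2)
      have hS1 := hSpos x1 le_rfl
      have k2 := hA.dd hx1 (hx1X.trans hX1) hS1.le
        (show (n : ℝ) ^ (-w) * x1 ^ 2 ≤ (n : ℝ) ^ (-w) * x ^ 2 by gcongr) (hSle x a1.le a2)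
      have k3 := mul_lt_mul_of_pos_left hlow hs
      have k4 : (n : ℝ) ^ (-w) * x1 ^ 2 * Dn n β x1 ((n : ℝ) ^ (-w) * x ^ 2) <
          (n : ℝ) ^ (-w) * x1 ^ 2 *
            ((n : ℝ) ^ (1 - d) * ((n : ℝ) ^ (-w) * x ^ 2) * (x1 / 2) ^ 3) := by
        refine (k2.trans_lt k3).trans_le (le_of_eq ?_)
        ring
      have k5 := lt_of_mul_lt_mul_left k4 hS1.le
      have k6 : (n : ℝ) ^ (1 - d) * ((n : ℝ) ^ (-w) * x ^ 2) * (x1 / 2) ^ 3 ≤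
          (n : ℝ) ^ (1 - d) * ((n : ℝ) ^ (-w) * x ^ 2) * y ^ 3 := by gcongr
      linarith

/-! ### the regular point -/

/-- the fields of `Reg` which are only numbers -/
lemma Reg.mk' {n : ℕ} {β e σ d w θ xs x s : ℝ} (hn : (1 : ℝ) ≤ n) (h216 : 216 ≤ (n : ℝ) ^ σ)
    (hxs : 0 < xs) (h1 : xs ≤ x) (h2 : x ≤ 6 * xs) (hlo : (n : ℝ) ^ (-(1 / 6) + e) ≤ xs)
    (hup : xs ≤ (n : ℝ) ^ (-(137 * σ))) (hs : s = (n : ℝ) ^ (-w) * xs ^ 2)
    (hD : (n : ℝ) ^ (1 - d) * s * xs ^ 3 ≤ Dn n β x s)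
    (hv : Dn n β x s ≤ θ * (x * Gn n β x s))
    (hr : Gn n β ((1 + (n : ℝ) ^ (-(72 * σ))) * x) s ≤
      (1 + (n : ℝ) ^ (-(10 * σ))) * Gn n β ((1 - (n : ℝ) ^ (-(72 * σ))) * x) s) :
    Reg n β e σ d w θ x s := by
  have hn0 : (0 : ℝ) < n := by linarith
  have hx : 0 < x := hxs.trans_le h1
  have hw0 : 0 < (n : ℝ) ^ (-w) := Real.rpow_pos_of_pos hn0 _
  have hd0 : 0 < (n : ℝ) ^ (1 - d) := Real.rpow_pos_of_pos hn0 _
  have hσ0 : 0 < (n : ℝ) ^ (-σ) := Real.rpow_pos_of_pos hn0 _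
  have hinv : (n : ℝ) ^ (-σ) * 216 ≤ 1 := by
    have e1 : (n : ℝ) ^ (-σ) * (n : ℝ) ^ σ = 1 := by
      rw [← Real.rpow_add hn0]; simp
    calc (n : ℝ) ^ (-σ) * 216 ≤ (n : ℝ) ^ (-σ) * (n : ℝ) ^ σ :=
          mul_le_mul_of_nonneg_left h216 hσ0.le
      _ = 1 := e1
  refine ⟨hlo.trans h1, ?_, ?_, ?_, ?_, hv, hr⟩
  · have e1 : (n : ℝ) ^ (-(136 * σ)) = (n : ℝ) ^ σ * (n : ℝ) ^ (-(137 * σ)) := by
      rw [← Real.rpow_add hn0]; congr 1; ring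
    rw [e1]
    calc x ≤ 6 * xs := h2
      _ ≤ 216 * (n : ℝ) ^ (-(137 * σ)) := by
          have := Real.rpow_pos_of_pos hn0 (-(137 * σ))
          linarith
      _ ≤ (n : ℝ) ^ σ * (n : ℝ) ^ (-(137 * σ)) :=
          mul_le_mul_of_nonneg_right h216 (Real.rpow_pos_of_pos hn0 _).le
  · have e1 : (n : ℝ) ^ (-(w + σ)) = (n : ℝ) ^ (-w) * (n : ℝ) ^ (-σ) := by
      rw [← Real.rpow_add hn0]; congr 1; ring
    have h3 : x ^ 2 ≤ (6 * xs) ^ 2 := pow_le_pow_left₀ hx.le h2 2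
    have h4 : 0 < xs ^ 2 := by positivity
    rw [e1, hs, mul_assoc]
    refine mul_le_mul_of_nonneg_left ?_ hw0.le
    calc (n : ℝ) ^ (-σ) * x ^ 2 ≤ (n : ℝ) ^ (-σ) * (216 * xs ^ 2) :=
          mul_le_mul_of_nonneg_left (by nlinarith) hσ0.le
      _ = (n : ℝ) ^ (-σ) * 216 * xs ^ 2 := by ring
      _ ≤ 1 * xs ^ 2 := mul_le_mul_of_nonneg_right hinv h4.le
      _ = xs ^ 2 := one_mul _
  · rw [hs]
    exact mul_le_mul_of_nonneg_left (pow_le_pow_left₀ hxs.le h1 2) hw0.le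
  · refine le_trans ?_ hD
    have hs0 : 0 < s := by rw [hs]; positivity
    have e1 : (n : ℝ) ^ (1 - (d + σ)) = (n : ℝ) ^ (1 - d) * (n : ℝ) ^ (-σ) := by
      rw [← Real.rpow_add hn0]; congr 1; ring
    have h3 : x ^ 3 ≤ (6 * xs) ^ 3 := pow_le_pow_left₀ hx.le h2 3
    have h4 : 0 < xs ^ 3 := by positivity
    rw [e1]
    calc (n : ℝ) ^ (1 - d) * (n : ℝ) ^ (-σ) * s * x ^ 3 =
          (n : ℝ) ^ (1 - d) * s * ((n : ℝ) ^ (-σ) * x ^ 3) := by ring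
      _ ≤ (n : ℝ) ^ (1 - d) * s * ((n : ℝ) ^ (-σ) * (216 * xs ^ 3)) := by
          refine mul_le_mul_of_nonneg_left (mul_le_mul_of_nonneg_left ?_ hσ0.le) (by positivity)
          calc x ^ 3 ≤ (6 * xs) ^ 3 := h3
            _ = 216 * xs ^ 3 := by ring
      _ = (n : ℝ) ^ (1 - d) * s * ((n : ℝ) ^ (-σ) * 216 * xs ^ 3) := by ring
      _ ≤ (n : ℝ) ^ (1 - d) * s * (1 * xs ^ 3) :=
          mul_le_mul_of_nonneg_left (mul_le_mul_of_nonneg_right hinv h4.le) (by positivity)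
      _ = _ := by ring

/-- the slope at the crossing point is at least `n^(-(d+w))` -/
lemma PtN.slope_ge {n : ℕ} {β d w xs : ℝ} (hn : (1 : ℝ) ≤ n) (hxs : (n : ℝ) ^ (-(1 / 6) : ℝ) ≤ xs)
    (h : PtN n β ((n : ℝ) ^ (-w) * xs ^ 2) ((n : ℝ) ^ (1 - d)) xs) :
    (n : ℝ) ^ (-(d + w)) ≤ Gn n β xs ((n : ℝ) ^ (-w) * xs ^ 2) := by
  have hn0 : (0 : ℝ) < n := by linarith
  refine le_trans ?_ h.slope
  have h1 : ((n : ℝ) ^ (-(1 / 6) : ℝ)) ^ 4 ≤ xs ^ 4 :=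
    pow_le_pow_left₀ (Real.rpow_pos_of_pos hn0 _).le hxs 4
  have e1 : 3 * (n : ℝ) ^ (1 - d) * ((n : ℝ) ^ (-w) * xs ^ 2) * xs ^ 2 =
      3 * ((n : ℝ) ^ (1 - d) * (n : ℝ) ^ (-w) * xs ^ 4) := by ring
  have hq : 0 < (n : ℝ) ^ (1 - d) * (n : ℝ) ^ (-w) := by
    have := Real.rpow_pos_of_pos hn0 (1 - d)
    have := Real.rpow_pos_of_pos hn0 (-w)
    positivity
  rw [e1]
  have h2 := mul_le_mul_of_nonneg_left h1 hq.le
  have e2 : (n : ℝ) ^ (1 - d) * (n : ℝ) ^ (-w) * ((n : ℝ) ^ (-(1 / 6) : ℝ)) ^ 4 =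
      (n : ℝ) ^ (-(d + w) + 1 / 3) := by
    rw [← Real.rpow_natCast, ← Real.rpow_mul hn0.le, ← Real.rpow_add hn0, ← Real.rpow_add hn0]
    congr 1
    push_cast
    ring
  rw [e2] at h2
  have h3 : (n : ℝ) ^ (-(d + w)) ≤ (n : ℝ) ^ (-(d + w) + 1 / 3) :=
    Real.rpow_le_rpow_of_exponent_le hn (by linarith)
  have h4 : 0 < (n : ℝ) ^ (-(d + w)) := Real.rpow_pos_of_pos hn0 _
  linarith

/-- **The regular point near a crossing point.** -/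
theorem near_N {β e σ d w : ℝ} (hσ : 0 < σ) (he : 0 ≤ e) :
    ∀ᶠ n : ℕ in atTop, ∀ xs, (n : ℝ) ^ (-(1 / 6) + e) ≤ xs → xs ≤ (n : ℝ) ^ (-(137 * σ)) →
      PtN n β ((n : ℝ) ^ (-w) * xs ^ 2) ((n : ℝ) ^ (1 - d)) xs →
      ∃ x, xs ≤ x ∧ x ≤ (1 + (n : ℝ) ^ (-(60 * σ))) * xs ∧
        Reg n β e σ d w (1 / 3 + 1 / 1000) x ((n : ℝ) ^ (-w) * xs ^ 2) := by
  filter_upwards [regular β (c1 := 60 * σ) (c5 := 72 * σ) (c6 := 10 * σ) (d + w) (by positivity)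
    (by positivity) (by linarith), ev_big (a := σ) (C := 216) hσ,
    ev_small (a := 60 * σ) (δ := 1 / 1000) (by positivity) (by norm_num),
    eventually_ge_atTop 1] with n hr h216 hsm hn xs hlo hup hP
  have hn1 : (1 : ℝ) ≤ n := by exact_mod_cast hn
  have hn0 : (0 : ℝ) < n := by linarith
  have hx6 : (n : ℝ) ^ (-(1 / 6) : ℝ) ≤ xs :=
    (Real.rpow_le_rpow_of_exponent_le hn1 (by linarith)).trans hlo
  obtain ⟨s, hs⟩ : ∃ s, s = (n : ℝ) ^ (-w) * xs ^ 2 := ⟨_, rfl⟩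
  have hG := PtN.slope_ge hn1 hx6 hP
  rw [← hs] at hG hP ⊢
  obtain ⟨x, k1, k2, k3⟩ := hr xs s hP.x0 hP.s0.le hP.s1 hG
  have hl0 : 0 < (n : ℝ) ^ (-(72 * σ)) := Real.rpow_pos_of_pos hn0 _
  have hl1 : (n : ℝ) ^ (-(72 * σ)) ≤ 1 :=
    Real.rpow_le_one_of_one_le_of_nonpos hn1 (by linarith)
  have hxs := hP.x0
  have hx : 0 < x := by
    by_contra hcon
    push Not at hcon
    have := mul_nonpos_of_nonneg_of_nonpos (sub_nonneg.2 hl1) hcon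
    linarith
  have h1 : xs ≤ x := k1.trans (by nlinarith)
  have h2 : x ≤ (1 + (n : ℝ) ^ (-(60 * σ))) * xs := le_trans (by nlinarith) k2
  have hη0 : 0 < (n : ℝ) ^ (-(60 * σ)) := Real.rpow_pos_of_pos hn0 _
  refine ⟨x, h1, h2, Reg.mk' hn1 h216.le hxs h1 (by nlinarith) hlo hup hs ?_ ?_ k3⟩
  · rw [← hP.val]
    exact Dn_mono n β hxs h1 hP.s0.le hP.s1
  · have t1 := Dn_tan' n β (x := x) (y := xs) hx hxs hP.s0.le hP.s1
    have t2 := Gn_mono n β hxs h1 hP.s0.le hP.s1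
    have t3 := hP.slope
    have t4 := hP.val
    have t5 := Gn_nonneg n β hx hP.s0.le
    -- `D(xs) ≤ xs G(x) / 3`
    have t6 : Dn n β xs s ≤ xs / 3 * Gn n β x s := by
      rw [t4]
      have := mul_le_mul_of_nonneg_left (t3.trans t2) (by positivity : 0 ≤ xs / 3)
      refine (le_of_eq ?_).trans this
      ring
    have t7 : (x - xs) * Gn n β x s ≤ 1 / 1000 * x * Gn n β x s := by
      refine mul_le_mul_of_nonneg_right ?_ t5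
      have : (n : ℝ) ^ (-(60 * σ)) * xs ≤ 1 / 1000 * xs :=
        mul_le_mul_of_nonneg_right hsm.le hxs.le
      linarith
    have t8 : xs / 3 * Gn n β x s ≤ x / 3 * Gn n β x s :=
      mul_le_mul_of_nonneg_right (by linarith) t5
    have e1 : (1 / 3 + 1 / 1000) * (x * Gn n β x s) =
        x / 3 * Gn n β x s + 1 / 1000 * x * Gn n β x s := by ring
    have e2 : (xs - x) * Gn n β x s = -((x - xs) * Gn n β x s) := by ring
    rw [e1]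
    rw [e2] at t1
    linarith

end Vale.Agent.P146.H522
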