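import Vale.Agent.P146.H522.TwoTop

/-!
P146, lower side: the deterministic top, the long window of case K and the assembly.
-/

open MeasureTheory ProbabilityTheory Filter Topology

namespace Vale.Agent.P146.H522

open Vale.Agent.P157.Lv Vale.Agent.P146.H425 Vale.Agent.P146.H332 Vale.Agent.P146.H325
open Vale.Agent.P146.R1 Vale.Agent.P146.H767 Vale.Agent.P146.H432
open Vale.Agent.P146.H946 (Dz Hz)

set_option linter.unusedSectionVars false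

lemma rpow216 {n : ℕ} {σ : ℝ} (hn0 : (0 : ℝ) < n) (h216 : 216 ≤ (n : ℝ) ^ σ) (a : ℝ) :
    (n : ℝ) ^ (a - σ) * 216 ≤ (n : ℝ) ^ a := by
  have e1 : (n : ℝ) ^ a = (n : ℝ) ^ (a - σ) * (n : ℝ) ^ σ := by
    rw [← Real.rpow_add hn0]; congr 1; ring
  rw [e1]
  exact mul_le_mul_of_nonneg_left h216 (Real.rpow_pos_of_pos hn0 _).le

/-- the two windows of case K -/
lemma win_K {n : ℕ} {σ xs s s' : ℝ} (hn1 : (1 : ℝ) ≤ n) (hσ : 0 < σ) (hxs : 0 < xs)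
    (hxs1 : xs ≤ 1) (hs : s = (n : ℝ) ^ (-(52 * σ)) * xs ^ 2)
    (hs' : s' = (n : ℝ) ^ (-(25 * σ)) * xs ^ 2) :
    s = (n : ℝ) ^ (-(27 * σ)) * s' ∧ 0 < s' ∧ s ≤ s' ∧ s' ≤ 1 := by
  have hn0 : (0 : ℝ) < n := by linarith
  have hss : s = (n : ℝ) ^ (-(27 * σ)) * s' := by
    rw [hs, hs', ← mul_assoc, ← Real.rpow_add hn0]; congr 2; ring
  have hs'0 : 0 < s' := by
    rw [hs']; have := Real.rpow_pos_of_pos hn0 (-(25 * σ)); positivity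
  have hle : (n : ℝ) ^ (-(27 * σ)) ≤ 1 :=
    Real.rpow_le_one_of_one_le_of_nonpos hn1 (by linarith)
  refine ⟨hss, hs'0, ?_, ?_⟩
  · rw [hss]
    calc (n : ℝ) ^ (-(27 * σ)) * s' ≤ 1 * s' := mul_le_mul_of_nonneg_right hle hs'0.le
      _ = s' := one_mul _
  · rw [hs']
    have h1 : (n : ℝ) ^ (-(25 * σ)) ≤ 1 :=
      Real.rpow_le_one_of_one_le_of_nonpos hn1 (by linarith)
    calc (n : ℝ) ^ (-(25 * σ)) * xs ^ 2 ≤ 1 * 1 :=
          mul_le_mul h1 (pow_le_one₀ hxs.le hxs1) (by positivity) (by norm_num)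
      _ = 1 := by norm_num

/-- the slope of the long window at `y = (1 + 2 η) xs` -/
lemma slope_K {n : ℕ} {β σ xs x s s' η y : ℝ} (hA : AntiN n β) (hn1 : (1 : ℝ) ≤ n)
    (hσ : 0 < σ) (h216 : 216 ≤ (n : ℝ) ^ σ) (hxs1 : xs ≤ 1)
    (hs : s = (n : ℝ) ^ (-(52 * σ)) * xs ^ 2) (hs' : s' = (n : ℝ) ^ (-(25 * σ)) * xs ^ 2)
    (hP : PtN n β s ((n : ℝ) ^ (1 - 100 * σ)) xs) (hxx : xs ≤ x) (hx1 : x ≤ (1 + η) * xs)
    (hη : η = (n : ℝ) ^ (-(60 * σ))) (hy : y = (1 + 2 * η) * xs)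
    (hK : (n : ℝ) ^ (1 - 10 * σ) * s * x ^ 2 < Gn n β x s) :
    Dn n β xs s' ≤ (n : ℝ) ^ (1 - 100 * σ) * s' * xs ^ 3 ∧
      1 / 4 * ((n : ℝ) ^ (1 - 37 * σ) * s' * xs ^ 2) ≤ Gn n β y s' := by
  have hn0 : (0 : ℝ) < n := by linarith
  have pp : ∀ a : ℝ, 0 < (n : ℝ) ^ a := fun a => Real.rpow_pos_of_pos hn0 _
  have hxs := hP.x0
  obtain ⟨hss, hs'0, hss', hs'1⟩ := win_K hn1 hσ hxs hxs1 hs hs'
  have hx0 : 0 < x := hxs.trans_le hxx
  have hs0 := hP.s0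
  have hη0 : 0 < η := by rw [hη]; exact pp _
  have hηx : 0 < η * xs := by positivity
  have hy0 : 0 < y := by rw [hy]; positivity
  have hxsy : xs ≤ y := by rw [hy]; nlinarith
  have hyx : η * xs ≤ y - x := by rw [hy]; nlinarith
  have d1 := Dn_tan' n β (x := x) (y := y) hx0 hy0 hs0.le (hss'.trans hs'1)
  have d2 := H432.Dn_nonneg n β hx0 hs0.le (hss'.trans hs'1)
  have d3 := H432.Dn_mono_s n β hy0 hs0.le hss' hs'1
  have d4 := hA.dd hxs hxs1 hs0.le hss' hs'1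
  have d5 := Dn_tan' n β (x := y) (y := xs) hy0 hxs hs'0.le hs'1
  have d6 : Dn n β xs s' ≤ (n : ℝ) ^ (1 - 100 * σ) * s' * xs ^ 3 := by
    rw [hP.val] at d4
    have e1 : s' * ((n : ℝ) ^ (1 - 100 * σ) * s * xs ^ 3) =
        s * ((n : ℝ) ^ (1 - 100 * σ) * s' * xs ^ 3) := by ring
    rw [e1] at d4
    exact le_of_mul_le_mul_left d4 hs0
  have d7 : η * xs * ((n : ℝ) ^ (1 - 10 * σ) * s * xs ^ 2) ≤ Dn n β y s := by
    have k1 : (n : ℝ) ^ (1 - 10 * σ) * s * xs ^ 2 ≤ Gn n β x s := by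
      refine le_trans ?_ hK.le
      have := pp (1 - 10 * σ)
      gcongr
    have k2 := mul_le_mul hyx k1 (by have := pp (1 - 10 * σ); positivity) (by linarith)
    linarith
  have x1 : (n : ℝ) ^ (1 - 100 * σ) * s' * xs ^ 3 ≤
      1 / 2 * (η * xs * ((n : ℝ) ^ (1 - 10 * σ) * s * xs ^ 2)) := by
    have e1 : η * xs * ((n : ℝ) ^ (1 - 10 * σ) * s * xs ^ 2) =
        (n : ℝ) ^ (1 - 97 * σ) * (s' * xs ^ 3) := by
      have : (n : ℝ) ^ (1 - 97 * σ) =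
          (n : ℝ) ^ (-(60 * σ)) * (n : ℝ) ^ (1 - 10 * σ) * (n : ℝ) ^ (-(27 * σ)) := by
        rw [← Real.rpow_add hn0, ← Real.rpow_add hn0]; congr 1; ring
      rw [hη, hss, this]; ring
    have h1 := rpow216 hn0 h216 (1 - 97 * σ)
    have h2 : (n : ℝ) ^ (1 - 100 * σ) ≤ (n : ℝ) ^ (1 - 97 * σ - σ) :=
      Real.rpow_le_rpow_of_exponent_le hn1 (by linarith)
    have h3 : (n : ℝ) ^ (1 - 100 * σ) ≤ 1 / 2 * (n : ℝ) ^ (1 - 97 * σ) := by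
      have := pp (1 - 97 * σ)
      linarith
    rw [e1]
    calc (n : ℝ) ^ (1 - 100 * σ) * s' * xs ^ 3 = (n : ℝ) ^ (1 - 100 * σ) * (s' * xs ^ 3) := by ring
      _ ≤ 1 / 2 * (n : ℝ) ^ (1 - 97 * σ) * (s' * xs ^ 3) :=
          mul_le_mul_of_nonneg_right h3 (by positivity)
      _ = _ := by ring
  refine ⟨d6, ?_⟩
  have e0 : (xs - y) * Gn n β y s' = -(2 * (η * xs) * Gn n β y s') := by rw [hy]; ring
  rw [e0] at d5
  have k1 : 1 / 2 * (η * xs * ((n : ℝ) ^ (1 - 10 * σ) * s * xs ^ 2)) ≤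
      2 * (η * xs) * Gn n β y s' := by linarith
  have e1 : (n : ℝ) ^ (1 - 10 * σ) * s * xs ^ 2 = (n : ℝ) ^ (1 - 37 * σ) * s' * xs ^ 2 := by
    have : (n : ℝ) ^ (1 - 37 * σ) = (n : ℝ) ^ (1 - 10 * σ) * (n : ℝ) ^ (-(27 * σ)) := by
      rw [← Real.rpow_add hn0]; congr 1; ring
    rw [this, hss]; ring
  rw [e1] at k1
  have k2 : η * xs * (1 / 4 * ((n : ℝ) ^ (1 - 37 * σ) * s' * xs ^ 2)) ≤
      η * xs * Gn n β y s' := by linarith
  exact le_of_mul_le_mul_left k2 hηx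

/-- a crude lower bound of the slope -/
lemma slope_K' {n : ℕ} {σ e xs s' g : ℝ} (hn1 : (1 : ℝ) ≤ n) (hσ : 0 < σ) (he : 0 ≤ e)
    (h216 : 216 ≤ (n : ℝ) ^ σ) (hlo : (n : ℝ) ^ (-(1 / 6) + e) ≤ xs)
    (hs' : s' = (n : ℝ) ^ (-(25 * σ)) * xs ^ 2)
    (hg : 1 / 4 * ((n : ℝ) ^ (1 - 37 * σ) * s' * xs ^ 2) ≤ g) : (n : ℝ) ^ (-(200 * σ)) ≤ g := by
  have hn0 : (0 : ℝ) < n := by linarith
  have pp : ∀ a : ℝ, 0 < (n : ℝ) ^ a := fun a => Real.rpow_pos_of_pos hn0 _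
  refine le_trans ?_ hg
  have hx6 : (n : ℝ) ^ (-(1 / 6) : ℝ) ≤ xs :=
    (Real.rpow_le_rpow_of_exponent_le hn1 (by linarith)).trans hlo
  have h1 : ((n : ℝ) ^ (-(1 / 6) : ℝ)) ^ 4 ≤ xs ^ 4 := pow_le_pow_left₀ (pp _).le hx6 4
  have e1 : 1 / 4 * ((n : ℝ) ^ (1 - 37 * σ) * s' * xs ^ 2) =
      1 / 4 * ((n : ℝ) ^ (1 - 37 * σ) * (n : ℝ) ^ (-(25 * σ)) * xs ^ 4) := by rw [hs']; ring
  have hq : 0 < (n : ℝ) ^ (1 - 37 * σ) * (n : ℝ) ^ (-(25 * σ)) := mul_pos (pp _) (pp _)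
  have h2 := mul_le_mul_of_nonneg_left h1 hq.le
  have e2 : (n : ℝ) ^ (1 - 37 * σ) * (n : ℝ) ^ (-(25 * σ)) * ((n : ℝ) ^ (-(1 / 6) : ℝ)) ^ 4 =
      (n : ℝ) ^ (1 / 3 - 62 * σ) := by
    rw [← Real.rpow_natCast, ← Real.rpow_mul hn0.le, ← Real.rpow_add hn0, ← Real.rpow_add hn0]
    congr 1
    push_cast
    ring
  rw [e2] at h2
  have h3 := rpow216 hn0 h216 (1 / 3 - 62 * σ)
  have h4 : (n : ℝ) ^ (-(200 * σ)) ≤ (n : ℝ) ^ (1 / 3 - 62 * σ - σ) :=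
    Real.rpow_le_rpow_of_exponent_le hn1 (by linarith)
  have := pp (-(200 * σ))
  rw [e1]
  linarith

/-- the value of the long window at the regular point -/
lemma val_K {n : ℕ} {β σ xs s' η z : ℝ} (hn1 : (1 : ℝ) ≤ n) (hσ : 0 < σ)
    (h216 : 216 ≤ (n : ℝ) ^ σ) (hxs : 0 < xs) (hs'0 : 0 < s') (hs'1 : s' ≤ 1)
    (hη : η = (n : ℝ) ^ (-(60 * σ))) (hxsz : xs ≤ z) (hz5 : z ≤ (1 + 5 * η) * xs)
    (d6 : Dn n β xs s' ≤ (n : ℝ) ^ (1 - 100 * σ) * s' * xs ^ 3)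
    (g0 : 1 / 4 * ((n : ℝ) ^ (1 - 37 * σ) * s' * xs ^ 2) ≤ Gn n β z s') :
    Dn n β z s' ≤ (n : ℝ) ^ (-(50 * σ)) * (z * Gn n β z s') := by
  have hn0 : (0 : ℝ) < n := by linarith
  have pp : ∀ a : ℝ, 0 < (n : ℝ) ^ a := fun a => Real.rpow_pos_of_pos hn0 _
  have hz : 0 < z := hxs.trans_le hxsz
  have gn := Gn_nonneg n β hz hs'0.le
  have t1 := Dn_tan' n β (x := z) (y := xs) hz hxs hs'0.le hs'1
  have t2 : (z - xs) * Gn n β z s' ≤ 5 * η * xs * Gn n β z s' :=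
    mul_le_mul_of_nonneg_right (by linarith) gn
  have e2 : (xs - z) * Gn n β z s' = -((z - xs) * Gn n β z s') := by ring
  rw [e2] at t1
  have t3 : (n : ℝ) ^ (1 - 100 * σ) * s' * xs ^ 3 ≤
      4 * (n : ℝ) ^ (-(63 * σ)) * xs * Gn n β z s' := by
    have e3 : (n : ℝ) ^ (1 - 100 * σ) * s' * xs ^ 3 =
        4 * (n : ℝ) ^ (-(63 * σ)) * xs * (1 / 4 * ((n : ℝ) ^ (1 - 37 * σ) * s' * xs ^ 2)) := by
      have : (n : ℝ) ^ (1 - 100 * σ) = (n : ℝ) ^ (-(63 * σ)) * (n : ℝ) ^ (1 - 37 * σ) := by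
        rw [← Real.rpow_add hn0]; congr 1; ring
      rw [this]; ring
    rw [e3]
    exact mul_le_mul_of_nonneg_left g0 (by have := pp (-(63 * σ)); positivity)
  have t4 : 4 * (n : ℝ) ^ (-(63 * σ)) + 5 * η ≤ (n : ℝ) ^ (-(50 * σ)) := by
    have h1 := rpow216 hn0 h216 (-(50 * σ))
    have h2 : (n : ℝ) ^ (-(63 * σ)) ≤ (n : ℝ) ^ (-(50 * σ) - σ) :=
      Real.rpow_le_rpow_of_exponent_le hn1 (by linarith)
    have h3 : η ≤ (n : ℝ) ^ (-(50 * σ) - σ) := by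
      rw [hη]; exact Real.rpow_le_rpow_of_exponent_le hn1 (by linarith)
    have := pp (-(50 * σ) - σ)
    linarith
  have hxG : 0 ≤ xs * Gn n β z s' := mul_nonneg hxs.le gn
  have t5 := mul_le_mul_of_nonneg_right t4 hxG
  have t6 : (n : ℝ) ^ (-(50 * σ)) * (xs * Gn n β z s') ≤
      (n : ℝ) ^ (-(50 * σ)) * (z * Gn n β z s') :=
    mul_le_mul_of_nonneg_left (mul_le_mul_of_nonneg_right hxsz gn) (pp _).le
  linarith

/-- **Case K at the long window** `s' = n^(-25σ) xs²`, from a large slope at the short one. -/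
theorem near_K {β e σ : ℝ} (hσ : 0 < σ) (he : 0 ≤ e) :
    ∀ᶠ n : ℕ in atTop, AntiN n β → ∀ xs x, (n : ℝ) ^ (-(1 / 6) + e) ≤ xs →
      xs ≤ (n : ℝ) ^ (-(137 * σ)) →
      PtN n β ((n : ℝ) ^ (-(52 * σ)) * xs ^ 2) ((n : ℝ) ^ (1 - 100 * σ)) xs →
      xs ≤ x → x ≤ (1 + (n : ℝ) ^ (-(60 * σ))) * xs →
      (n : ℝ) ^ (1 - 10 * σ) * ((n : ℝ) ^ (-(52 * σ)) * xs ^ 2) * x ^ 2 <
        Gn n β x ((n : ℝ) ^ (-(52 * σ)) * xs ^ 2) →
      ∃ z, Reg n β e σ (127 * σ) (25 * σ) ((n : ℝ) ^ (-(50 * σ))) z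
          ((n : ℝ) ^ (-(25 * σ)) * xs ^ 2) ∧
        (n : ℝ) ^ (1 - 38 * σ) * ((n : ℝ) ^ (-(25 * σ)) * xs ^ 2) * z ^ 2 ≤
          Gn n β z ((n : ℝ) ^ (-(25 * σ)) * xs ^ 2) := by
  filter_upwards [regular β (c1 := 60 * σ) (c5 := 72 * σ) (c6 := 10 * σ) (200 * σ)
    (by positivity) (by positivity) (by linarith), ev_big (a := σ) (C := 216) hσ,
    eventually_ge_atTop 1] with n hr h216 hn hA xs x hlo hup hP hxx hx1 hK
  have hn1 : (1 : ℝ) ≤ n := by exact_mod_cast hn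
  have hn0 : (0 : ℝ) < n := by linarith
  have pp : ∀ a : ℝ, 0 < (n : ℝ) ^ a := fun a => Real.rpow_pos_of_pos hn0 _
  obtain ⟨s, hs⟩ : ∃ s, s = (n : ℝ) ^ (-(52 * σ)) * xs ^ 2 := ⟨_, rfl⟩
  obtain ⟨s', hs'⟩ : ∃ s', s' = (n : ℝ) ^ (-(25 * σ)) * xs ^ 2 := ⟨_, rfl⟩
  rw [← hs] at hP hK
  rw [← hs']
  have hxs := hP.x0
  have hxs1 : xs ≤ 1 := hup.trans (Real.rpow_le_one_of_one_le_of_nonpos hn1 (by linarith))
  obtain ⟨hss, hs'0, hss', hs'1⟩ := win_K hn1 hσ hxs hxs1 hs hs'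
  obtain ⟨η, hη⟩ : ∃ η, η = (n : ℝ) ^ (-(60 * σ)) := ⟨_, rfl⟩
  rw [← hη] at hx1
  have hη0 : 0 < η := by rw [hη]; exact pp _
  have hη1 : η ≤ 1 := by rw [hη]; exact Real.rpow_le_one_of_one_le_of_nonpos hn1 (by linarith)
  obtain ⟨y, hy⟩ : ∃ y, y = (1 + 2 * η) * xs := ⟨_, rfl⟩
  obtain ⟨d6, d8⟩ := slope_K hA hn1 hσ h216.le hxs1 hs hs' hP hxx hx1 hη hy hK
  have hηx : 0 < η * xs := by positivity
  have hy0 : 0 < y := by rw [hy]; positivity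
  have hxsy : xs ≤ y := by rw [hy]; nlinarith
  obtain ⟨z, k1, k2, k3⟩ := hr y s' hy0 hs'0.le hs'1 (slope_K' hn1 hσ he h216.le hlo hs' d8)
  rw [← hη] at k2
  have hl0 : 0 < (n : ℝ) ^ (-(72 * σ)) := pp _
  have hl1 : (n : ℝ) ^ (-(72 * σ)) ≤ 1 :=
    Real.rpow_le_one_of_one_le_of_nonpos hn1 (by linarith)
  have hz : 0 < z := by
    by_contra hcon
    push Not at hcon
    have := mul_nonpos_of_nonneg_of_nonpos (sub_nonneg.2 hl1) hcon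
    linarith
  have hyz : y ≤ z := k1.trans (by nlinarith)
  have hzy : z ≤ (1 + η) * y := le_trans (by nlinarith) k2
  have hz5 : z ≤ (1 + 5 * η) * xs := by
    refine hzy.trans ?_
    rw [hy]
    have : η * (η * xs) ≤ 1 * (η * xs) := mul_le_mul_of_nonneg_right hη1 hηx.le
    nlinarith
  have hz6 : z ≤ 6 * xs := by nlinarith
  have hxsz : xs ≤ z := hxsy.trans hyz
  have g0 := d8.trans (Gn_mono n β hy0 hyz hs'0.le hs'1)
  refine ⟨z, Reg.mk' hn1 h216.le hxs hxsz hz6 hlo hup hs' ?_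
    (val_K hn1 hσ h216.le hxs hs'0 hs'1 hη hxsz hz5 d6 g0) k3, ?_⟩
  · have e1 : (n : ℝ) ^ (1 - 127 * σ) * s' * xs ^ 3 = Dn n β xs s := by
      have : (n : ℝ) ^ (1 - 127 * σ) = (n : ℝ) ^ (1 - 100 * σ) * (n : ℝ) ^ (-(27 * σ)) := by
        rw [← Real.rpow_add hn0]; congr 1; ring
      rw [hP.val, this, hss]; ring
    rw [e1]
    exact (H432.Dn_mono_s n β hxs hP.s0.le hss' hs'1).trans (Dn_mono n β hxs hxsz hs'0.le hs'1)
  · refine le_trans ?_ g0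
    have h1 := rpow216 hn0 h216.le (1 - 37 * σ)
    have e1 : (n : ℝ) ^ (1 - 38 * σ) = (n : ℝ) ^ (1 - 37 * σ - σ) := by congr 1; ring
    have h3 : z ^ 2 ≤ 36 * xs ^ 2 := by
      have := pow_le_pow_left₀ hz.le hz6 2
      linarith
    rw [e1]
    have hp := pp (1 - 37 * σ - σ)
    calc (n : ℝ) ^ (1 - 37 * σ - σ) * s' * z ^ 2 ≤
          (n : ℝ) ^ (1 - 37 * σ - σ) * s' * (36 * xs ^ 2) :=
          mul_le_mul_of_nonneg_left h3 (by positivity)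
      _ ≤ 1 / 4 * ((n : ℝ) ^ (1 - 37 * σ - σ) * 216 * (s' * xs ^ 2)) := by
          have : 0 < (n : ℝ) ^ (1 - 37 * σ - σ) * (s' * xs ^ 2) := by positivity
          linarith
      _ ≤ 1 / 4 * ((n : ℝ) ^ (1 - 37 * σ) * (s' * xs ^ 2)) := by
          have : 0 ≤ s' * xs ^ 2 := by positivity
          have := mul_le_mul_of_nonneg_right h1 this
          linarith
      _ = _ := by ring

/-- **Both thresholds**: for every `x0` in the range one of the two lower bounds holds. -/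
theorem top_two {β : ℝ} (hβ : 1 < β) (hA : ∀ᶠ n : ℕ in atTop, AntiN n β) {e σ : ℝ} (he : 0 ≤ e)
    (hσ : 0 < σ) (hσ1 : σ ≤ 1 / 12000) (h1 : NoN β e σ (100 * σ) (52 * σ))
    (h2 : NoN β e σ (278 * σ) (141 * σ)) (hK : NoK β e σ) :
    ∀ᶠ n : ℕ in atTop, ∀ x0 : ℝ, (n : ℝ) ^ (-(1 / 6) + e) ≤ x0 → x0 ≤ (n : ℝ) ^ (-(138 * σ)) →
      (n : ℝ) ^ (1 - 100 * σ) * ((n : ℝ) ^ (-(52 * σ)) * x0 ^ 2) * x0 ^ 3 / 8 ≤
        Dn n β x0 ((n : ℝ) ^ (-(52 * σ)) * x0 ^ 2) ∨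
      (n : ℝ) ^ (1 - 278 * σ) * ((n : ℝ) ^ (-(141 * σ)) * x0 ^ 2) * x0 ^ 3 / 8 ≤
        Dn n β x0 ((n : ℝ) ^ (-(141 * σ)) * x0 ^ 2) := by
  filter_upwards [cross_N hβ (a := 49 * σ) (d := 100 * σ) (w := 52 * σ) (by positivity)
      (by linarith) (by linarith) (by positivity),
    cross_N hβ (a := 138 * σ) (d := 278 * σ) (w := 141 * σ) (by positivity) (by linarith)
      (by linarith) (by positivity),
    near_N (β := β) (e := e) (d := 100 * σ) (w := 52 * σ) hσ he,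
    near_N (β := β) (e := e) (d := 278 * σ) (w := 141 * σ) hσ he,
    near_K (β := β) hσ he, hA, h1, h2, hK, ev_big (a := σ) (C := 300) hσ,
    eventually_ge_atTop 1] with n c1 c2 n1 n2 nK hAn r1 r2 rK h300 hn x0 hx0 hx0'
  have hn1 : (1 : ℝ) ≤ n := by exact_mod_cast hn
  have hn0 : (0 : ℝ) < n := by linarith
  have pp : ∀ a : ℝ, 0 < (n : ℝ) ^ a := fun a => Real.rpow_pos_of_pos hn0 _
  have mono : ∀ {a b : ℝ}, a ≤ b → (n : ℝ) ^ a ≤ (n : ℝ) ^ b := fun h =>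
    Real.rpow_le_rpow_of_exponent_le hn1 h
  have hx00 : 0 < x0 := (pp _).trans_le hx0
  by_contra hcon
  push Not at hcon
  obtain ⟨g1, g2⟩ := hcon
  obtain ⟨y, a1, a2, a3, a4⟩ := c1 hAn x0 hx00 (hx0'.trans (mono (by linarith))) g1
  obtain ⟨z, b1, b2, b3, -⟩ := c2 hAn x0 hx00 hx0' g2
  have hη1 : (n : ℝ) ^ (-(60 * σ)) ≤ 1 :=
    Real.rpow_le_one_of_one_le_of_nonpos hn1 (by linarith)
  rcases le_or_gt y ((n : ℝ) ^ (-(137 * σ))) with hyB | hyB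
  · obtain ⟨x, m1, m2, m3⟩ := n1 y (hx0.trans a1.le) hyB a3
    rcases le_or_gt (Gn n β x ((n : ℝ) ^ (-(52 * σ)) * y ^ 2))
      ((n : ℝ) ^ (1 - 10 * σ) * ((n : ℝ) ^ (-(52 * σ)) * y ^ 2) * x ^ 2) with hG | hG
    · exact r1 x _ m3 hG
    · obtain ⟨z', q1, q2⟩ := nK hAn y x (hx0.trans a1.le) hyB a3 m1 m2 hG
      exact rK z' _ q1 q2
  · have hzB : z ≤ (n : ℝ) ^ (-(137 * σ)) := b2.trans (mono (by linarith))
    obtain ⟨x, m1, m2, m3⟩ := n2 z (hx0.trans b1.le) hzB b3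
    have hz0 : 0 < z := hx00.trans b1
    have hx : 0 < x := hz0.trans_le m1
    have hG : (n : ℝ) ^ (1 - 10 * σ) * ((n : ℝ) ^ (-(141 * σ)) * z ^ 2) * x ^ 2 <
        Gn n β x ((n : ℝ) ^ (-(141 * σ)) * z ^ 2) := by
      by_contra h
      exact r2 x _ m3 (not_lt.1 h)
    -- the point `3 z` is below `y`
    have k1 : 3 * z < y := by
      refine lt_of_le_of_lt ?_ hyB
      have e1 : (n : ℝ) ^ (-(137 * σ)) = (n : ℝ) ^ σ * (n : ℝ) ^ (-(138 * σ)) := by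
        rw [← Real.rpow_add hn0]; congr 1; ring
      rw [e1]
      have := pp (-(138 * σ))
      calc 3 * z ≤ 300 * (n : ℝ) ^ (-(138 * σ)) := by linarith
        _ ≤ _ := mul_le_mul_of_nonneg_right h300.le this.le
    have hz3 : 0 < 3 * z := by positivity
    have k2 := a4 (3 * z) (by linarith) k1
    obtain ⟨s2, hs2⟩ : ∃ s2, s2 = (n : ℝ) ^ (-(141 * σ)) * z ^ 2 := ⟨_, rfl⟩
    rw [← hs2] at hG m3
    have hs20 : 0 < s2 := by rw [hs2]; have := pp (-(141 * σ)); positivity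
    have hz1 : z ≤ 1 := hzB.trans (Real.rpow_le_one_of_one_le_of_nonpos hn1 (by linarith))
    have hy1 : y ≤ 1 := a2.trans (Real.rpow_le_one_of_one_le_of_nonpos hn1 (by linarith))
    have hs1 : s2 ≤ (n : ℝ) ^ (-(52 * σ)) * (3 * z) ^ 2 := by
      rw [hs2]
      have h3 : (n : ℝ) ^ (-(141 * σ)) ≤ (n : ℝ) ^ (-(52 * σ)) := mono (by linarith)
      have h4 : z ^ 2 ≤ (3 * z) ^ 2 := pow_le_pow_left₀ hz0.le (by linarith) 2
      exact mul_le_mul h3 h4 (by positivity) (pp _).le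
    have hs11 : (n : ℝ) ^ (-(52 * σ)) * (3 * z) ^ 2 ≤ 1 := by
      have h3 : (n : ℝ) ^ (-(52 * σ)) ≤ 1 :=
        Real.rpow_le_one_of_one_le_of_nonpos hn1 (by linarith)
      have h4 : (3 * z) ^ 2 ≤ 1 := pow_le_one₀ hz3.le (by linarith)
      calc (n : ℝ) ^ (-(52 * σ)) * (3 * z) ^ 2 ≤ 1 * 1 :=
            mul_le_mul h3 h4 (by positivity) (by norm_num)
        _ = 1 := by norm_num
    have k3 := H432.Dn_mono_s n β hz3 hs20.le hs1 hs11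
    have k4 := Dn_tan' n β (x := x) (y := 3 * z) hx hz3 hs20.le (hs1.trans hs11)
    have k5 := H432.Dn_nonneg n β hx hs20.le (hs1.trans hs11)
    have k6 : z ≤ 3 * z - x := by
      have : (n : ℝ) ^ (-(60 * σ)) * z ≤ 1 * z := mul_le_mul_of_nonneg_right hη1 hz0.le
      nlinarith
    have k7 : (n : ℝ) ^ (1 - 10 * σ) * s2 * z ^ 2 ≤ Gn n β x s2 := by
      refine le_trans ?_ hG.le
      have := pp (1 - 10 * σ)
      gcongr
    have k8 := mul_le_mul k6 k7 (by have := pp (1 - 10 * σ); positivity) (by linarith)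
    have k9 : z * ((n : ℝ) ^ (1 - 10 * σ) * s2 * z ^ 2) <
        (n : ℝ) ^ (1 - 100 * σ) * ((n : ℝ) ^ (-(52 * σ)) * (3 * z) ^ 2) * (3 * z) ^ 3 := by
      linarith
    have e1 : z * ((n : ℝ) ^ (1 - 10 * σ) * s2 * z ^ 2) =
        (n : ℝ) ^ σ * ((n : ℝ) ^ (1 - 152 * σ) * z ^ 5) := by
      have : (n : ℝ) ^ (1 - 10 * σ) * (n : ℝ) ^ (-(141 * σ)) =
          (n : ℝ) ^ σ * (n : ℝ) ^ (1 - 152 * σ) := by
        rw [← Real.rpow_add hn0, ← Real.rpow_add hn0]; congr 1; ring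
      calc z * ((n : ℝ) ^ (1 - 10 * σ) * s2 * z ^ 2) =
            (n : ℝ) ^ (1 - 10 * σ) * (n : ℝ) ^ (-(141 * σ)) * z ^ 5 := by rw [hs2]; ring
        _ = _ := by rw [this]; ring
    have e2 : (n : ℝ) ^ (1 - 100 * σ) * ((n : ℝ) ^ (-(52 * σ)) * (3 * z) ^ 2) * (3 * z) ^ 3 =
        243 * ((n : ℝ) ^ (1 - 152 * σ) * z ^ 5) := by
      have : (n : ℝ) ^ (1 - 152 * σ) = (n : ℝ) ^ (1 - 100 * σ) * (n : ℝ) ^ (-(52 * σ)) := by
        rw [← Real.rpow_add hn0]; congr 1; ring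
      rw [this]; ring
    rw [e1, e2] at k9
    have hq : 0 < (n : ℝ) ^ (1 - 152 * σ) * z ^ 5 := by have := pp (1 - 152 * σ); positivity
    have := lt_of_mul_lt_mul_right k9 hq.le
    linarith

/-- **The lower bound of the exponential moment from the rows.** -/
theorem lo_of_rows {β : ℝ} (hβ : 1 < β) (hA : ∀ᶠ n : ℕ in atTop, AntiN n β) {e : ℝ} (he : 0 < e)
    (he1 : e ≤ 1 / 12)
    (hr : ∀ σ, 0 < σ → σ ≤ e / 1000 → NoN β e σ (100 * σ) (52 * σ) ∧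
      NoN β e σ (278 * σ) (141 * σ) ∧ NoK β e σ) : LoE β e := by
  intro ε hε
  obtain ⟨σ, hσe⟩ : ∃ σ, σ = min (e / 1000) (ε / 1000) := ⟨_, rfl⟩
  have hσ1 : σ ≤ e / 1000 := by rw [hσe]; exact min_le_left _ _
  have hσ2 : σ ≤ ε / 1000 := by rw [hσe]; exact min_le_right _ _
  have hσ : 0 < σ := by rw [hσe]; exact lt_min (by positivity) (by positivity)
  obtain ⟨r1, r2, r3⟩ := hr σ hσ hσ1
  obtain ⟨c, δ, hc, hδ, hup⟩ := Lg_up hβ (a := 138 * σ) (by linarith)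
  refine ⟨δ, hδ, ?_⟩
  filter_upwards [top_two hβ hA he.le hσ (by linarith) r1 r2 r3, hup,
    ev_small (a := ε) (δ := c) hε hc, ev_big (a := ε - 419 * σ) (C := 8) (by linarith),
    eventually_ge_atTop 1] with n k1 k4 k5 k6 k7 x hx hxδ
  have hn1 : (1 : ℝ) ≤ n := by exact_mod_cast k7
  have hn0 : (0 : ℝ) < n := by linarith
  have hx0 : 0 < x := (Real.rpow_pos_of_pos hn0 _).trans_le hx
  rcases le_or_gt x ((n : ℝ) ^ (-(138 * σ))) with hxa | hxa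
  · have hx1 : x ≤ 1 :=
      hxa.trans (Real.rpow_le_one_of_one_le_of_nonpos hn1 (by linarith))
    have main : ∀ d w : ℝ, 0 ≤ w → d + w ≤ 419 * σ →
        (n : ℝ) ^ (1 - d) * ((n : ℝ) ^ (-w) * x ^ 2) * x ^ 3 / 8 ≤
          Dn n β x ((n : ℝ) ^ (-w) * x ^ 2) → (n : ℝ) ^ (1 - ε) * x ^ 6 ≤ Lg n β x := by
      intro d w hw hdw key
      have hw0 : 0 < (n : ℝ) ^ (-w) := Real.rpow_pos_of_pos hn0 _
      have hw1 : (n : ℝ) ^ (-w) ≤ 1 := Real.rpow_le_one_of_one_le_of_nonpos hn1 (by linarith)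
      have hs1 : (n : ℝ) ^ (-w) * x ^ 2 ≤ 1 := by
        have c3 : x ^ 2 ≤ 1 := pow_le_one₀ hx0.le hx1
        calc (n : ℝ) ^ (-w) * x ^ 2 ≤ 1 * 1 := mul_le_mul hw1 c3 (by positivity) (by norm_num)
          _ = 1 := by norm_num
      have h7 := log_ge_Dn n β hx0 (s := (n : ℝ) ^ (-w) * x ^ 2) (by positivity) hs1
      have h8 := mul_le_mul_of_nonneg_left key hx0.le
      refine le_trans ?_ (h8.trans h7)
      have e1 : x * ((n : ℝ) ^ (1 - d) * ((n : ℝ) ^ (-w) * x ^ 2) * x ^ 3 / 8) =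
          (n : ℝ) ^ (1 - d) * (n : ℝ) ^ (-w) / 8 * x ^ 6 := by ring
      rw [e1]
      refine mul_le_mul_of_nonneg_right ?_ (by positivity)
      rw [le_div_iff₀ (by norm_num), ← Real.rpow_add hn0]
      have e2 : (1 - 419 * σ : ℝ) = (1 - ε) + (ε - 419 * σ) := by ring
      have e3 : (n : ℝ) ^ (1 - 419 * σ) ≤ (n : ℝ) ^ (1 - d + -w) :=
        Real.rpow_le_rpow_of_exponent_le hn1 (by linarith)
      refine le_trans ?_ e3
      rw [e2, Real.rpow_add hn0]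
      exact mul_le_mul_of_nonneg_left k6.le (Real.rpow_nonneg hn0.le _)
    rcases k1 x hx hxa with h | h
    · exact main (100 * σ) (52 * σ) (by positivity) (by linarith) h
    · exact main (278 * σ) (141 * σ) (by positivity) (by linarith) h
  · refine le_trans ?_ (k4 x hxa.le hxδ)
    have e1 : (n : ℝ) ^ (1 - ε) = (n : ℝ) ^ (-ε) * n := by
      nth_rewrite 3 [← Real.rpow_one (n : ℝ)]
      rw [← Real.rpow_add hn0]
      congr 1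
      ring
    rw [e1]
    have h9 : (n : ℝ) ^ (-ε) * n * x ^ 6 ≤ c * n * x ^ 6 := by
      refine mul_le_mul_of_nonneg_right (mul_le_mul_of_nonneg_right k5.le hn0.le) (by positivity)
    exact h9

/-- **The variance from the exponential moment at the scale `n^(-1/6+e)`.** -/
theorem var_of_loE {β e : ℝ} (he : 0 ≤ e) (he1 : e ≤ 1 / 12) (h : LoE β e) :
    ∀ γ : ℝ, γ < 1 / 3 - 2 * e → ∀ᶠ n : ℕ in atTop,
      (n : ℝ) ^ γ ≤ Var[freeEnergy n β; disorder n] := by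
  intro γ hγ
  obtain ⟨m, hm⟩ : ∃ m, m = min ((1 / 3 - 2 * e - γ) / 4) (1 / 24) := ⟨_, rfl⟩
  have hm1 : m ≤ (1 / 3 - 2 * e - γ) / 4 := by rw [hm]; exact min_le_left _ _
  have hm2 : m ≤ 1 / 24 := by rw [hm]; exact min_le_right _ _
  have hm0 : 0 < m := by rw [hm]; exact lt_min (by linarith) (by norm_num)
  obtain ⟨δ, hδ, hn⟩ := h m hm0
  filter_upwards [hn, ev_small (a := 1 / 6 - e - m) (δ := δ) (by linarith) hδ,
    ev_big (a := 5 * m) (C := 2) (by linarith),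
    ev_big (a := 1 / 6 - e - m) (C := 36) (by linarith),
    ev_big (a := 1 / 3 - 2 * e - 2 * m - γ) (C := 36 ^ 2) (by linarith), eventually_ge_atTop 1]
    with n k1 k2 k3 k4 k5 k6
  have hn1 : (1 : ℝ) ≤ n := by exact_mod_cast k6
  have hn0 : (0 : ℝ) < n := by linarith
  obtain ⟨x, hx⟩ : ∃ x, x = (n : ℝ) ^ (-(1 / 6) + e + m) := ⟨_, rfl⟩
  have hx0 : 0 < x := by rw [hx]; exact Real.rpow_pos_of_pos hn0 _
  have h1 := k1 x (by rw [hx]; exact Real.rpow_le_rpow_of_exponent_le hn1 (by linarith)) (by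
    rw [hx]
    have e1 : (-(1 / 6) + e + m : ℝ) = -(1 / 6 - e - m) := by ring
    rw [e1]
    exact k2.le)
  have h2 : (n : ℝ) ^ (5 * m) ≤ (n : ℝ) ^ (1 - m) * x ^ 6 := by
    have e2 : (n : ℝ) ^ (1 - m) * x ^ 6 = (n : ℝ) ^ (6 * e + 5 * m) := by
      rw [hx, ← Real.rpow_natCast, ← Real.rpow_mul hn0.le, ← Real.rpow_add hn0]
      congr 1
      push_cast
      ring
    rw [e2]
    exact Real.rpow_le_rpow_of_exponent_le hn1 (by linarith)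
  have h3 := H641.sd_of_tail n β hx0 (show 3 / 2 < _ from lt_of_lt_of_le (by linarith) (h2.trans h1))
  have e4 : 1 / (18 * x) = (n : ℝ) ^ (1 / 6 - e - m) / 18 := by
    have e5 : (-(1 / 6) + e + m : ℝ) = -(1 / 6 - e - m) := by ring
    rw [hx, e5, Real.rpow_neg hn0.le]
    field_simp
  rw [e4] at h3
  have key : (n : ℝ) ^ (1 / 6 - e - m) / 36 ≤ √(Var[freeEnergy n β; disorder n]) := by linarith
  have h7 : ((n : ℝ) ^ (1 / 6 - e - m) / 36) ^ 2 ≤ Var[freeEnergy n β; disorder n] := by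
    have := pow_le_pow_left₀ (by positivity) key 2
    rwa [Real.sq_sqrt (variance_nonneg _ _)] at this
  refine le_trans ?_ h7
  rw [div_pow, le_div_iff₀ (by norm_num), ← Real.rpow_natCast ((n : ℝ) ^ (1 / 6 - e - m)),
    ← Real.rpow_mul hn0.le]
  have e1 : ((1 / 6 - e - m) * ((2 : ℕ) : ℝ) : ℝ) = γ + (1 / 3 - 2 * e - 2 * m - γ) := by
    push_cast; ring
  rw [e1, Real.rpow_add hn0]
  exact mul_le_mul_of_nonneg_left k5.le (by positivity)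

end Vale.Agent.P146.H522
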